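import Vale.Agent.P226.Reduce.Law
import Vale.Agent.P226.Reduce.Max
import Vale.Agent.P226.Reduce.Tails

/-!
# Caps: the moment of a cone against the moment of a round cap

For a cone `K` and a unit vector `e`, `⟪e, moment K⟫ ≤ E (⟪e, X⟫ - τ |X|)⁺ + τ E|X| γ(K)`, together
with the values of both expectations in low dimensions.
-/

open MeasureTheory ProbabilityTheory Real Set
open scoped RealInnerProductSpace Pointwise

namespace Vale.Agent.P226

variable {d : ℕ}

/-- The density of the standard Gaussian as a function of the norm. -/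
noncomputable def gRad (d : ℕ) (r : ℝ) : ℝ := ((√(2 * π))⁻¹) ^ d * exp (-(1 / 2) * r ^ 2)

lemma prod_pdf_eq (x : Fin d → ℝ) :
    ∏ i, gaussianPDFReal 0 1 (x i) = gRad d ‖(WithLp.toLp 2 x : EuclideanSpace ℝ (Fin d))‖ := by
  simp only [pdf_eq, Finset.prod_mul_distrib, Finset.prod_const, Finset.card_univ, Fintype.card_fin,
    ← exp_sum, gRad, EuclideanSpace.real_norm_sq_eq, Finset.mul_sum]

lemma pi_gaussian_eq_withDensity :
    Measure.pi (fun _ : Fin d => gaussianReal 0 1) =
      volume.withDensity (fun x => ENNReal.ofReal (∏ i, gaussianPDFReal 0 1 (x i))) := by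
  classical
  refine Measure.pi_eq fun s hs => ?_
  have hm : MeasurableSet (Set.univ.pi s) := MeasurableSet.univ_pi hs
  have hint : Integrable (fun x : Fin d → ℝ => ∏ i, gaussianPDFReal 0 1 (x i)) :=
    Integrable.fintype_prod (fun _ => integrable_gaussianPDFReal 0 1)
  rw [withDensity_apply _ hm, ← ofReal_integral_eq_lintegral_ofReal hint.integrableOn
    (ae_of_all _ fun x => Finset.prod_nonneg fun i _ => gaussianPDFReal_nonneg 0 1 _)]
  simp only [gaussianReal_apply_eq_integral _ one_ne_zero]
  rw [← ENNReal.ofReal_prod_of_nonneg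
    fun i _ => integral_nonneg fun x => gaussianPDFReal_nonneg 0 1 x]
  congr 1
  simp only [← integral_indicator (hs _), ← integral_indicator hm]
  rw [← integral_fintype_prod_volume_eq_prod]
  refine integral_congr_ae (ae_of_all _ fun x => ?_)
  by_cases hx : x ∈ Set.univ.pi s
  · rw [indicator_of_mem hx]
    exact Finset.prod_congr rfl fun i _ => (indicator_of_mem (hx i trivial) _).symm
  · rw [indicator_of_notMem hx]
    simp only [Set.mem_univ_pi, not_forall] at hx
    obtain ⟨i, hi⟩ := hx
    exact (Finset.prod_eq_zero (Finset.mem_univ i) (indicator_of_notMem hi _)).symm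

/-- Integrals against the standard Gaussian through its density. -/
lemma integral_stdGaussian_eq (F : EuclideanSpace ℝ (Fin d) → ℝ) :
    ∫ x, F x ∂(stdGaussian (EuclideanSpace ℝ (Fin d))) = ∫ x, gRad d ‖x‖ * F x := by
  set emb := (MeasurableEquiv.toLp 2 (Fin d → ℝ)).measurableEmbedding with hemb
  rw [← map_pi_eq_stdGaussian,
    show (WithLp.toLp 2 : (Fin d → ℝ) → EuclideanSpace ℝ (Fin d)) =
      ⇑(MeasurableEquiv.toLp 2 (Fin d → ℝ)) from rfl,
    emb.integral_map, pi_gaussian_eq_withDensity,
    integral_withDensity_eq_integral_toReal_smul (by fun_prop)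
      (ae_of_all _ fun x => ENNReal.ofReal_lt_top),
    ← (PiLp.volume_preserving_toLp (Fin d)).integral_comp emb]
  refine integral_congr_ae (ae_of_all _ fun x => ?_)
  simp only [MeasurableEquiv.coe_toLp, smul_eq_mul]
  rw [ENNReal.toReal_ofReal (Finset.prod_nonneg fun i _ => gaussianPDFReal_nonneg 0 1 _),
    prod_pdf_eq]

lemma measurable_gRad : Measurable (gRad d) := by unfold gRad; fun_prop

/-- The law of the norm on a cone is a multiple of the law of the norm. -/
lemma map_norm_cone (hd : 0 < d) {K : Set (EuclideanSpace ℝ (Fin d))}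
    (hcone : ∀ x ∈ K, ∀ t : ℝ, 0 < t → t • x ∈ K) :
    ∃ a : ENNReal, a ≠ ⊤ ∧ (volume.restrict K).map (fun x => ‖x‖) =
      a • (volume : Measure (EuclideanSpace ℝ (Fin d))).map (fun x => ‖x‖) := by
  have : NeZero d := ⟨hd.ne'⟩
  set B : ℝ → Set (EuclideanSpace ℝ (Fin d)) := fun t => Metric.closedBall 0 t with hB
  have hfin : ∀ S : Set (EuclideanSpace ℝ (Fin d)), ∀ t, volume (B t ∩ S) ≠ ⊤ := fun S t =>
    ((measure_mono inter_subset_left).trans_lt (measure_closedBall_lt_top)).ne
  have hB1 : volume (B 1) ≠ 0 := (Metric.measure_closedBall_pos volume 0 one_pos).ne'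
  have hB1' : volume (B 1) ≠ ⊤ := measure_closedBall_lt_top.ne
  set a := volume (B 1 ∩ K) / volume (B 1) with ha
  refine ⟨a, ENNReal.div_ne_top (hfin K 1) hB1, ?_⟩
  have hpre : ∀ t, (fun x : EuclideanSpace ℝ (Fin d) => ‖x‖) ⁻¹' Iic t = B t := fun t => by
    ext x; simp [hB]
  have hscale : ∀ t : ℝ, 0 < t → B t ∩ K = t • (B 1 ∩ K) := fun t ht => by
    ext x
    rw [mem_smul_set_iff_inv_smul_mem₀ ht.ne']
    simp only [hB, mem_inter_iff, Metric.mem_closedBall, dist_zero_right, norm_smul,
      Real.norm_eq_abs, abs_inv, abs_of_pos ht, inv_mul_le_iff₀ ht, mul_one]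
    refine and_congr_right fun _ => ⟨fun h => hcone x h _ (inv_pos.2 ht), fun h => ?_⟩
    have := hcone _ h t ht
    rwa [smul_smul, mul_inv_cancel₀ ht.ne', one_smul] at this
  have hIic : ∀ t, (volume.restrict K).map (fun x => ‖x‖) (Iic t) =
      (a • (volume : Measure (EuclideanSpace ℝ (Fin d))).map (fun x => ‖x‖)) (Iic t) := fun t => by
    rw [Measure.smul_apply, smul_eq_mul, Measure.map_apply (by fun_prop) measurableSet_Iic,
      Measure.map_apply (by fun_prop) measurableSet_Iic, hpre,
      Measure.restrict_apply Metric.isClosed_closedBall.measurableSet]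
    rcases lt_trichotomy t 0 with ht | rfl | ht
    · simp [hB, Metric.closedBall_eq_empty.2 ht]
    · have h0 : volume (B 0) = 0 := by simp [hB]
      simp [h0]
      all_goals exact measure_mono_null inter_subset_left (measure_singleton 0)
    · have hv : B t = t • B 1 := by
        simp [hB, smul_closedBall t (0 : EuclideanSpace ℝ (Fin d)) zero_le_one,
          abs_of_pos ht]
      rw [hscale t ht, hv, Measure.addHaar_smul_of_nonneg volume ht.le,
        Measure.addHaar_smul_of_nonneg volume ht.le, ha, mul_left_comm, ENNReal.div_mul_cancel hB1 hB1']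
  have : IsLocallyFiniteMeasure ((volume.restrict K).map fun x => ‖x‖) :=
    ⟨fun r => ⟨Iic (r + 1), Iic_mem_nhds (by linarith), by
      rw [Measure.map_apply (by fun_prop) measurableSet_Iic, hpre,
        Measure.restrict_apply Metric.isClosed_closedBall.measurableSet]
      exact (hfin K _).lt_top⟩⟩
  refine Measure.ext_of_Ioc _ _ fun u v huv => ?_
  rw [← Iic_sdiff_Iic, measure_sdiff (Iic_subset_Iic.2 huv.le) nullMeasurableSet_Iic ?_,
    measure_sdiff (Iic_subset_Iic.2 huv.le) nullMeasurableSet_Iic ?_, hIic, hIic]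
  · rw [← hIic, Measure.map_apply (by fun_prop) measurableSet_Iic, hpre,
      Measure.restrict_apply Metric.isClosed_closedBall.measurableSet]
    exact hfin K u
  · rw [Measure.map_apply (by fun_prop) measurableSet_Iic, hpre,
      Measure.restrict_apply Metric.isClosed_closedBall.measurableSet]
    exact hfin K u

/-- On a cone the norm is independent of the event. -/
theorem setIntegral_norm_cone {K : Set (EuclideanSpace ℝ (Fin d))} (hK : MeasurableSet K)
    (hcone : ∀ x ∈ K, ∀ t : ℝ, 0 < t → t • x ∈ K) :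
    ∫ x in K, ‖x‖ ∂(stdGaussian (EuclideanSpace ℝ (Fin d))) =
      (∫ x, ‖x‖ ∂(stdGaussian (EuclideanSpace ℝ (Fin d)))) *
        (stdGaussian (EuclideanSpace ℝ (Fin d))).real K := by
  rcases Nat.eq_zero_or_pos d with rfl | hd
  · simp [Subsingleton.elim _ (0 : EuclideanSpace ℝ (Fin 0))]
  obtain ⟨a, -, hmap⟩ := map_norm_cone hd hcone
  have key : ∀ h : ℝ → ℝ, Measurable h →
      ∫ x in K, h ‖x‖ ∂(stdGaussian (EuclideanSpace ℝ (Fin d))) =
        a.toReal * ∫ x, h ‖x‖ ∂(stdGaussian (EuclideanSpace ℝ (Fin d))) := fun h hh => by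
    have hm : Measurable fun r => gRad d r * h r := measurable_gRad.mul hh
    have e1 : ∫ x in K, h ‖x‖ ∂(stdGaussian (EuclideanSpace ℝ (Fin d))) =
        ∫ x in K, gRad d ‖x‖ * h ‖x‖ := by
      rw [← integral_indicator hK, integral_stdGaussian_eq, ← integral_indicator hK]
      exact integral_congr_ae (ae_of_all _ fun x => by
        by_cases hx : x ∈ K <;> simp [hx])
    rw [e1, integral_stdGaussian_eq]
    have e2 := integral_map (μ := volume.restrict K)
      (φ := fun x : EuclideanSpace ℝ (Fin d) => ‖x‖) (by fun_prop)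
      (f := fun r => gRad d r * h r) hm.aestronglyMeasurable
    have e3 := integral_map (μ := (volume : Measure (EuclideanSpace ℝ (Fin d))))
      (φ := fun x : EuclideanSpace ℝ (Fin d) => ‖x‖) (by fun_prop)
      (f := fun r => gRad d r * h r) hm.aestronglyMeasurable
    rw [← e2, ← e3, hmap, integral_smul_measure, smul_eq_mul]
  have h1 := key (fun _ => 1) measurable_const
  simp only [smul_eq_mul, mul_one, integral_const, probReal_univ,
    measureReal_restrict_apply_univ] at h1
  rw [key (fun r => r) measurable_id, h1, mul_comm]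

lemma integrable_capExcess (e : EuclideanSpace ℝ (Fin d)) (τ : ℝ) :
    Integrable (fun x => max (⟪e, x⟫ - τ * ‖x‖) 0) (stdGaussian (EuclideanSpace ℝ (Fin d))) :=
  ((IsGaussian.integrable_fun_id.const_inner e).sub
    (integrable_norm_stdGaussian.const_mul τ)).pos_part

/-- The moment of a cone in a direction is at most that of a round cap. -/
theorem cap_bound {K : Set (EuclideanSpace ℝ (Fin d))} (hK : MeasurableSet K)
    (hcone : ∀ x ∈ K, ∀ t : ℝ, 0 < t → t • x ∈ K) (e : EuclideanSpace ℝ (Fin d)) (τ : ℝ) :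
    ⟪e, moment K⟫ ≤ (∫ x, max (⟪e, x⟫ - τ * ‖x‖) 0 ∂(stdGaussian (EuclideanSpace ℝ (Fin d)))) +
      τ * (∫ x, ‖x‖ ∂(stdGaussian (EuclideanSpace ℝ (Fin d)))) *
        (stdGaussian (EuclideanSpace ℝ (Fin d))).real K := by
  set g := stdGaussian (EuclideanSpace ℝ (Fin d)) with hg
  have hin : Integrable (fun x => ⟪e, x⟫) g := IsGaussian.integrable_fun_id.const_inner e
  have hcap := integrable_capExcess e τ
  have hn := integrable_norm_stdGaussian (d := d)
  rw [moment, ← hg, ← integral_inner IsGaussian.integrable_fun_id.integrableOn e, mul_assoc,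
    ← setIntegral_norm_cone hK hcone, ← integral_const_mul]
  have h1 : ∫ x in K, max (⟪e, x⟫ - τ * ‖x‖) 0 ∂g ≤ ∫ x, max (⟪e, x⟫ - τ * ‖x‖) 0 ∂g :=
    setIntegral_le_integral hcap (ae_of_all _ fun x => le_max_right _ _)
  refine le_trans ?_ (add_le_add h1 le_rfl)
  rw [← integral_add hcap.integrableOn (hn.const_mul τ).integrableOn]
  exact setIntegral_mono hin.integrableOn (hcap.integrableOn.add (hn.const_mul τ).integrableOn)
    fun x => by
      have := le_max_left (⟪e, x⟫ - τ * ‖x‖) 0
      simp only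
      linarith

/-! ### The mean norm -/

/-- `∫_0^∞ r^n e^(-r²/2)`. -/
noncomputable def radMoment (n : ℕ) : ℝ := ∫ r in Ioi (0 : ℝ), r ^ n * exp (-(1 / 2) * r ^ 2)

lemma integrableOn_radMoment (n : ℕ) :
    IntegrableOn (fun r : ℝ => r ^ n * exp (-(1 / 2) * r ^ 2)) (Ioi 0) :=
  (integrableOn_rpow_mul_exp_neg_mul_sq (show (0 : ℝ) < 1 / 2 by norm_num)
    (show (-1 : ℝ) < n from lt_of_lt_of_le (by norm_num) (Nat.cast_nonneg n))).congr_fun
    (fun r _ => by simp only [rpow_natCast]) measurableSet_Ioi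

lemma radMoment_succ_succ (n : ℕ) : radMoment (n + 2) = (n + 1) * radMoment n := by
  have hd : ∀ r ∈ Ici (0 : ℝ), HasDerivAt (fun r => r ^ (n + 1) * exp (-(1 / 2) * r ^ 2))
      ((n + 1) * (r ^ n * exp (-(1 / 2) * r ^ 2)) - r ^ (n + 2) * exp (-(1 / 2) * r ^ 2)) r := by
    intro r _
    have h1 := hasDerivAt_pow (n + 1) r
    have h2 := ((hasDerivAt_pow 2 r).const_mul (-(1 / 2 : ℝ))).exp
    exact (h1.mul h2).congr_deriv (by push_cast; simp [pow_succ]; ring)
  have hint : IntegrableOn (fun r : ℝ => (n + 1) * (r ^ n * exp (-(1 / 2) * r ^ 2)) -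
      r ^ (n + 2) * exp (-(1 / 2) * r ^ 2)) (Ioi 0) :=
    ((integrableOn_radMoment n).const_mul _).sub (integrableOn_radMoment (n + 2))
  have hlim := tendsto_zero_of_hasDerivAt_of_integrableOn_Ioi
    (fun r hr => hd r (Ioi_subset_Ici_self hr)) hint (integrableOn_radMoment (n + 1))
  have h := integral_Ioi_of_hasDerivAt_of_tendsto' hd hint hlim
  rw [integral_sub ((integrableOn_radMoment n).const_mul _) (integrableOn_radMoment (n + 2)),
    integral_const_mul] at h
  simp only [radMoment]
  simp at h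
  simp
  linarith

lemma radMoment_one : radMoment 1 = 1 := by
  have h := integral_Ioi_of_hasDerivAt_of_nonneg' (a := (0 : ℝ))
    (fun x _ => hasDerivAt_halfGauss x)
    (fun x hx => mul_nonneg (le_of_lt hx) (exp_pos _).le) tendsto_halfGauss
  simp [radMoment] at *
  linarith

lemma radMoment_zero : radMoment 0 = √(2 * π) / 2 := by
  simp only [radMoment, pow_zero, one_mul, integral_gaussian_Ioi]
  congr 2
  ring

/-- The mean norm is a ratio of radial moments. -/
theorem mean_norm_eq (hd : 0 < d) :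
    ∫ x, ‖x‖ ∂(stdGaussian (EuclideanSpace ℝ (Fin d))) = radMoment d / radMoment (d - 1) := by
  have : NeZero d := ⟨hd.ne'⟩
  set V := (d : ℝ) * (volume : Measure (EuclideanSpace ℝ (Fin d))).real (Metric.ball 0 1) *
    ((√(2 * π))⁻¹) ^ d with hV
  have key : ∀ j : ℕ, ∫ x, ‖x‖ ^ j ∂(stdGaussian (EuclideanSpace ℝ (Fin d))) =
      V * radMoment (d - 1 + j) := fun j => by
    rw [integral_stdGaussian_eq,
      integral_fun_norm_addHaar volume (fun r => gRad d r * r ^ j), finrank_euclideanSpace_fin,
      nsmul_eq_mul, smul_eq_mul, radMoment, hV, ← integral_const_mul, ← integral_const_mul,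
      ← integral_const_mul]
    refine integral_congr_ae (ae_of_all _ fun r => ?_)
    simp only [gRad, smul_eq_mul, pow_add]
    ring
  have h0 := key 0
  have h1 := key 1
  simp only [pow_zero, integral_const, probReal_univ, smul_eq_mul, mul_one, add_zero] at h0
  simp only [pow_one, show d - 1 + 1 = d by omega] at h1
  have hne : radMoment (d - 1) ≠ 0 := fun h => by rw [h, mul_zero] at h0; exact one_ne_zero h0
  rw [h1, eq_div_iff hne, mul_right_comm, ← h0, one_mul]

lemma radMoment_two : radMoment 2 = √(2 * π) / 2 := by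
  rw [radMoment_succ_succ 0, radMoment_zero]; norm_num

lemma radMoment_three : radMoment 3 = 2 := by
  rw [radMoment_succ_succ 1, radMoment_one]; norm_num

lemma radMoment_four : radMoment 4 = 3 * √(2 * π) / 2 := by
  rw [radMoment_succ_succ 2, radMoment_two]; push_cast; ring

lemma radMoment_five : radMoment 5 = 8 := by
  rw [radMoment_succ_succ 3, radMoment_three]; norm_num

lemma radMoment_six : radMoment 6 = 15 * √(2 * π) / 2 := by
  rw [radMoment_succ_succ 4, radMoment_four]; push_cast; ring

lemma radMoment_seven : radMoment 7 = 48 := by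
  rw [radMoment_succ_succ 5, radMoment_five]; norm_num

lemma mean_norm_three :
    ∫ x, ‖x‖ ∂(stdGaussian (EuclideanSpace ℝ (Fin 3))) = 4 * (√(2 * π))⁻¹ := by
  rw [mean_norm_eq (by norm_num), radMoment_three, radMoment_two]
  field_simp
  norm_num

lemma mean_norm_four :
    ∫ x, ‖x‖ ∂(stdGaussian (EuclideanSpace ℝ (Fin 4))) = 3 * π / 2 * (√(2 * π))⁻¹ := by
  rw [mean_norm_eq (by norm_num), radMoment_four, radMoment_three]
  field_simp
  nlinarith [Real.sq_sqrt (show (0 : ℝ) ≤ 2 * π by positivity)]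

lemma mean_norm_five :
    ∫ x, ‖x‖ ∂(stdGaussian (EuclideanSpace ℝ (Fin 5))) = 16 / 3 * (√(2 * π))⁻¹ := by
  rw [mean_norm_eq (by norm_num), radMoment_five, radMoment_four]
  field_simp
  norm_num

lemma mean_norm_seven :
    ∫ x, ‖x‖ ∂(stdGaussian (EuclideanSpace ℝ (Fin 7))) = 32 / 5 * (√(2 * π))⁻¹ := by
  rw [mean_norm_eq (by norm_num), radMoment_seven, radMoment_six]
  field_simp
  norm_num

end Vale.Agent.P226
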