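import Mathlib

/-!
# Lower bounds for the Gram determinants of the drop lemma
-/

open Finset
open scoped RealInnerProductSpace

namespace Vale.Agent.P226.Full

/-- A positive quadratic form on the triangle with vertices `(1,1)/m`, `(1-m,1)/m`, `(1,1-m)/m`
is bounded by its values at the vertices. -/
lemma quad_triangle_le {A B C S p q m Γ : ℝ} (hA : 0 ≤ A) (hB : 0 ≤ B) (hC : C ^ 2 ≤ A * B)
    (hp : 0 ≤ p) (hq : 0 ≤ q) (hpq : p + q ≤ S)
    (h0 : A + B - 2 * C ≤ m ^ 2 * Γ)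
    (h1 : B * (m - 1) ^ 2 + A + 2 * C * (m - 1) ≤ m ^ 2 * Γ)
    (h2 : A * (m - 1) ^ 2 + B + 2 * C * (m - 1) ≤ m ^ 2 * Γ) :
    B * (S - m * p) ^ 2 - 2 * C * (S - m * p) * (S - m * q) + A * (S - m * q) ^ 2
      ≤ S ^ 2 * (m ^ 2 * Γ) := by
  have psd : ∀ x y : ℝ, 0 ≤ B * x ^ 2 - 2 * C * x * y + A * y ^ 2 := fun x y => by
    rcases hB.eq_or_lt with hB0 | hB0
    · have hC0 : C = 0 := by nlinarith [sq_nonneg C]
      rw [← hB0, hC0]
      simp only [zero_mul, mul_zero, sub_zero, zero_add]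
      positivity
    · have h : 0 ≤ B * (B * x ^ 2 - 2 * C * x * y + A * y ^ 2) := by
        nlinarith [sq_nonneg (B * x - C * y), mul_nonneg (sub_nonneg.2 hC) (sq_nonneg y)]
      exact nonneg_of_mul_nonneg_right h hB0
  have hr : 0 ≤ S - p - q := by linarith
  have hS : 0 ≤ S := by linarith
  have key : S * ((S - p - q) * (A + B - 2 * C) + p * (B * (m - 1) ^ 2 + A + 2 * C * (m - 1)) +
      q * (A * (m - 1) ^ 2 + B + 2 * C * (m - 1))) -
      (B * (S - m * p) ^ 2 - 2 * C * (S - m * p) * (S - m * q) + A * (S - m * q) ^ 2) =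
      m ^ 2 * ((S - p - q) * p * B + (S - p - q) * q * A + p * q * (B + 2 * C + A)) := by ring
  have hsum : 0 ≤ B + 2 * C + A := by
    have := psd 1 (-1)
    linarith
  have hpos : 0 ≤ m ^ 2 * ((S - p - q) * p * B + (S - p - q) * q * A +
      p * q * (B + 2 * C + A)) := by positivity
  have hb : (S - p - q) * (A + B - 2 * C) + p * (B * (m - 1) ^ 2 + A + 2 * C * (m - 1)) +
      q * (A * (m - 1) ^ 2 + B + 2 * C * (m - 1)) ≤ S * (m ^ 2 * Γ) := by
    nlinarith [mul_le_mul_of_nonneg_left h0 hr, mul_le_mul_of_nonneg_left h1 hp,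
      mul_le_mul_of_nonneg_left h2 hq]
  nlinarith [mul_le_mul_of_nonneg_left hb hS]

lemma prod_shift_le {a b σa σb ε m mx : ℝ} (hm : 0 < m) (hσa : 0 ≤ σa) (hσb : 0 ≤ σb)
    (hσ : σa + σb ≤ ε) (hax : a ≤ mx) (hbx : b ≤ mx) (hmx : 0 ≤ mx) :
    a * b - ε * (2 * mx / m) ≤ (a - 2 * σa / m) * (b - 2 * σb / m) := by
  have e : (a - 2 * σa / m) * (b - 2 * σb / m) - (a * b - ε * (2 * mx / m)) =
      2 * (ε * mx - (σa * b + σb * a)) / m + 4 * (σa * σb) / m ^ 2 := by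
    field_simp; ring
  have h1 : 0 ≤ ε * mx - (σa * b + σb * a) := by
    have := mul_le_mul_of_nonneg_left hbx hσa
    have := mul_le_mul_of_nonneg_left hax hσb
    have := mul_le_mul_of_nonneg_right hσ hmx
    linarith
  have : 0 ≤ 2 * (ε * mx - (σa * b + σb * a)) / m + 4 * (σa * σb) / m ^ 2 := by positivity
  linarith

/-- The coefficient comparison in the pair bound. -/
lemma pair_coef_le {w ε m mx : ℝ} (hm : 4 ≤ m) (hw : w ≤ 0) (hmx : 0 ≤ mx) (hε : 0 ≤ ε) :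
    2 * mx / m - 2 * w / m + ε / m ^ 2 +
        (((m - 1) ^ 2 + 1) * (mx + ε / m ^ 2) + 2 * (m - 1) * (ε / m ^ 2)) / m ^ 2 ≤
      9 / 8 * mx - w / 2 + ε / 8 := by
  have hm0 : 0 < m := by linarith
  have hid : 9 / 8 * mx - w / 2 + ε / 8 - (2 * mx / m - 2 * w / m + ε / m ^ 2 +
        (((m - 1) ^ 2 + 1) * (mx + ε / m ^ 2) + 2 * (m - 1) * (ε / m ^ 2)) / m ^ 2) =
      mx * (1 / 8 - 2 / m ^ 2) + -w * (1 / 2 - 2 / m) + ε * (1 / 8 - 2 / m ^ 2) := by
    field_simp; ring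
  have c1 : 0 ≤ 1 / 8 - 2 / m ^ 2 := by
    rw [sub_nonneg, div_le_iff₀ (by positivity)]; nlinarith
  have c2 : 0 ≤ 1 / 2 - 2 / m := by
    rw [sub_nonneg, div_le_iff₀ hm0]; linarith
  have hw' : 0 ≤ -w := by linarith
  have : 0 ≤ mx * (1 / 8 - 2 / m ^ 2) + -w * (1 / 2 - 2 / m) + ε * (1 / 8 - 2 / m ^ 2) := by
    positivity
  linarith

/-- The pair bound for four or more large cells. -/
lemma gram_pair_bound {a b w σa σb η ε m mx A B C : ℝ} (hm : 4 ≤ m) (hσa : 0 ≤ σa)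
    (hσb : 0 ≤ σb) (hσ : σa + σb ≤ η) (hηε : η ≤ ε) (ha : σa ≤ a) (hb : σb ≤ b)
    (hax : a ≤ mx) (hbx : b ≤ mx) (hA : A = a - 2 * σa / m + η / m ^ 2)
    (hB : B = b - 2 * σb / m + η / m ^ 2) (hw : w ≤ 0)
    (hC : C = w - (σa + σb) / m + η / m ^ 2) (hC2 : C ^ 2 ≤ A * B) :
    ∃ Γ : ℝ, A + B - 2 * C ≤ m ^ 2 * Γ ∧
      B * (m - 1) ^ 2 + A + 2 * C * (m - 1) ≤ m ^ 2 * Γ ∧
      A * (m - 1) ^ 2 + B + 2 * C * (m - 1) ≤ m ^ 2 * Γ ∧
      a * b - w ^ 2 - ε * (9 / 8 * mx - w / 2 + ε / 8) ≤ A * B - C ^ 2 - ε * Γ := by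
  have hm0 : 0 < m := by linarith
  have hη : 0 ≤ η := by linarith
  have hε : 0 ≤ ε := hη.trans hηε
  have ha0 : 0 ≤ a - 2 * σa / m := by
    rw [sub_nonneg, div_le_iff₀ hm0]; nlinarith
  have hb0 : 0 ≤ b - 2 * σb / m := by
    rw [sub_nonneg, div_le_iff₀ hm0]; nlinarith
  have hη2 : 0 ≤ η / m ^ 2 := by positivity
  have hA0 : 0 ≤ A := by linarith
  have hB0 : 0 ≤ B := by linarith
  have hmx : 0 ≤ mx := by linarith
  set M := mx + ε / m ^ 2 with hM
  have hεm : η / m ^ 2 ≤ ε / m ^ 2 := by gcongr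
  have hAM : A ≤ M := by linarith [show 0 ≤ 2 * σa / m by positivity]
  have hBM : B ≤ M := by linarith [show 0 ≤ 2 * σb / m by positivity]
  have hCu : C ≤ ε / m ^ 2 := by linarith [show 0 ≤ (σa + σb) / m by positivity]
  have hCl : -C ≤ -w + ε / m := by
    have : (σa + σb) / m ≤ ε / m := by gcongr; linarith
    linarith
  have hmm : ε / m ^ 2 ≤ ε / m := by
    gcongr; nlinarith
  refine ⟨(((m - 1) ^ 2 + 1) * M + 2 * (m - 1) * (ε / m ^ 2)) / m ^ 2, ?_, ?_, ?_, ?_⟩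
  · rw [mul_div_cancel₀ _ (by positivity)]
    have h2C : A + B - 2 * C ≤ 2 * (A + B) := by
      have : -C ≤ (A + B) / 2 := by nlinarith [sq_nonneg (A - B)]
      linarith
    have h10 : 4 ≤ (m - 1) ^ 2 + 1 := by nlinarith
    nlinarith [mul_nonneg (mul_nonneg (by norm_num : (0 : ℝ) ≤ 2) (show (0 : ℝ) ≤ m - 1 by linarith))
      (show 0 ≤ ε / m ^ 2 by positivity), mul_le_mul_of_nonneg_right h10 (show 0 ≤ M by linarith)]
  · rw [mul_div_cancel₀ _ (by positivity)]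
    nlinarith [mul_le_mul_of_nonneg_right hBM (sq_nonneg (m - 1)),
      mul_le_mul_of_nonneg_right hCu (show (0 : ℝ) ≤ m - 1 by linarith)]
  · rw [mul_div_cancel₀ _ (by positivity)]
    nlinarith [mul_le_mul_of_nonneg_right hAM (sq_nonneg (m - 1)),
      mul_le_mul_of_nonneg_right hCu (show (0 : ℝ) ≤ m - 1 by linarith)]
  · have hprod : (a - 2 * σa / m) * (b - 2 * σb / m) ≤ A * B :=
      mul_le_mul (by linarith) (by linarith) hb0 hA0
    have hab := prod_shift_le hm0 hσa hσb (hσ.trans hηε) hax hbx hmx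
    have hCsq : C ^ 2 ≤ (-w + ε / m) ^ 2 := by
      rw [sq_le_sq, abs_of_nonneg (by linarith [show 0 ≤ ε / m by positivity] : 0 ≤ -w + ε / m),
        abs_le]
      exact ⟨by linarith, by linarith⟩
    have hge := mul_le_mul_of_nonneg_left (pair_coef_le hm hw hmx hε) hε
    have e2 : (-w + ε / m) ^ 2 = w ^ 2 + ε * (-(2 * w / m) + ε / m ^ 2) := by field_simp; ring
    rw [hM]
    linarith

/-- Four times the squared area for squared side data. -/
noncomputable def heron (A B C : ℝ) : ℝ :=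
  (2 * (A * B + B * C + C * A) - A ^ 2 - B ^ 2 - C ^ 2) / 4

/-- The bound for three large cells. -/
lemma gram_triple_bound {a b c σa σb σc η ε A B C : ℝ} (hab : b ≤ a) (hbc : c ≤ b)
    (hc : 0 ≤ c) (hσa : 0 ≤ σa) (hσb : 0 ≤ σb) (hσc : 0 ≤ σc) (hσ : σa + σb + σc = η)
    (hηε : η ≤ ε) (hA : A = a - 2 * σa / 3 + η / 9) (hB : B = b - 2 * σb / 3 + η / 9)
    (hC : C = c - 2 * σc / 3 + η / 9) :
    ∃ Γ : ℝ, 2 * A + 2 * B - C ≤ 9 * Γ ∧ 2 * B + 2 * C - A ≤ 9 * Γ ∧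
      2 * C + 2 * A - B ≤ 9 * Γ ∧
      heron a b c - ε * ((a + b - c) / 2 + 2 / 7 * ε) ≤ heron A B C - ε * Γ := by
  have hη : 0 ≤ η := by linarith
  refine ⟨(2 * a + 2 * b - c) / 9 + η * (10 / 81), ?_, ?_, ?_, ?_⟩
  · linarith
  · linarith
  · linarith
  · have key : heron A B C - heron a b c =
        -(σa * (b + c - a) + σb * (c + a - b) + σc * (a + b - c)) / 3 + η * (a + b + c) / 18 +
          (-(σa ^ 2 + σb ^ 2 + σc ^ 2) * 2 / 9 + η ^ 2 / 12) := by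
      rw [hA, hB, hC, ← hσ, heron, heron]; ring
    have hlin : σa * (b + c - a) + σb * (c + a - b) + σc * (a + b - c) ≤ η * (a + b - c) := by
      nlinarith [mul_le_mul_of_nonneg_left (show b + c - a ≤ a + b - c by linarith) hσa,
        mul_le_mul_of_nonneg_left (show c + a - b ≤ a + b - c by linarith) hσb]
    have hsq : σa ^ 2 + σb ^ 2 + σc ^ 2 ≤ η ^ 2 := by
      rw [← hσ]; nlinarith [mul_nonneg hσa hσb, mul_nonneg hσb hσc, mul_nonneg hσc hσa]
    have hcoef : 0 ≤ (5 * a + 5 * b - 7 * c) / 18 := by linarith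
    have := mul_le_mul_of_nonneg_left hηε hcoef
    nlinarith [mul_le_mul hηε hηε hη (hη.trans hηε), mul_le_mul_of_nonneg_left hηε (hη.trans hηε)]

/-- Among three pairwise obtuse vectors some pair is far from opposite. -/
lemma exists_pair_of_three {a b c wab wbc wca : ℝ} (ha : 0 ≤ a) (hb : 0 ≤ b) (hc : 0 ≤ c)
    (hpsd : ∀ x y z : ℝ, 0 ≤ x ^ 2 * a + y ^ 2 * b + z ^ 2 * c +
      2 * (x * y * wab + y * z * wbc + z * x * wca))
    (hab : wab ≤ 0) (hbc : wbc ≤ 0) (hca : wca ≤ 0) :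
    4 * wab ^ 2 ≤ a * b ∨ 4 * wbc ^ 2 ≤ b * c ∨ 4 * wca ^ 2 ≤ c * a := by
  by_contra h
  push Not at h
  obtain ⟨h1, h2, h3⟩ := h
  have pos : ∀ p q w : ℝ, 0 ≤ p → w ≤ 0 → p * q < 4 * w ^ 2 →
      (∀ x y : ℝ, 0 ≤ x ^ 2 * p + y ^ 2 * q + 2 * (x * y * w)) → 0 < p := by
    intro p q w hp hw hlt hq
    refine lt_of_le_of_ne hp fun e => ?_
    have hw0 : w ≠ 0 := fun h0 => by simp [← e, h0] at hlt
    have := hq ((q + 1) / (-2 * w)) 1
    have hx : (q + 1) / (-2 * w) * 1 * w = -(q + 1) / 2 := by field_simp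
    rw [← e, hx] at this
    linarith
  have na : 0 < a := pos a b wab ha hab h1 fun x y => by simpa using hpsd x y 0
  have nb : 0 < b := pos b c wbc hb hbc h2 fun x y => by simpa using hpsd 0 x y
  have nc : 0 < c := pos c a wca hc hca h3 fun x y => by
    have := hpsd y 0 x
    linarith
  have key : ∀ p q w : ℝ, 0 ≤ p → 0 ≤ q → w ≤ 0 → p * q < 4 * w ^ 2 → √p * √q / 2 < -w := by
    intro p q w hp hq hw hlt
    rw [← Real.sqrt_mul hp, div_lt_iff₀ (by norm_num : (0 : ℝ) < 2),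
      Real.sqrt_lt (mul_nonneg hp hq) (by linarith)]
    linarith
  have e1 := key a b wab ha hb hab h1
  have e2 := key b c wbc hb hc hbc h2
  have e3 := key c a wca hc ha hca h3
  have hsa := Real.sq_sqrt ha
  have hsb := Real.sq_sqrt hb
  have hsc := Real.sq_sqrt hc
  have pa : 0 < √a := Real.sqrt_pos.2 na
  have pb : 0 < √b := Real.sqrt_pos.2 nb
  have pc : 0 < √c := Real.sqrt_pos.2 nc
  have := hpsd (√b * √c) (√c * √a) (√a * √b)
  generalize √a = u, √b = v, √c = t at *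
  subst hsa hsb hsc
  nlinarith [mul_lt_mul_of_pos_left e1 (show 0 < u * v * t ^ 2 by positivity),
    mul_lt_mul_of_pos_left e2 (show 0 < v * t * u ^ 2 by positivity),
    mul_lt_mul_of_pos_left e3 (show 0 < t * u * v ^ 2 by positivity)]

end Vale.Agent.P226.Full
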