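import Vale.Agent.P226.Full.Const
import Vale.Agent.P226.Reduce.Perturb
import Vale.Agent.P226.Partition

/-!
# At most three vectors
-/

open MeasureTheory ProbabilityTheory Real Set Finset
open scoped RealInnerProductSpace

namespace Vale.Agent.P226.Full

variable {d k : ℕ}

lemma tailMean_zero_le : tailMean 0 ≤ phi0 := by
  have h := tailMean_le_poly (le_refl (0 : ℝ))
  simpa [phi0] using h

lemma integral_abs_inner_le (v : EuclideanSpace ℝ (Fin d)) :
    ∫ x, |⟪v, x⟫| ∂stdGaussian (EuclideanSpace ℝ (Fin d)) ≤ 2 * phi0 * ‖v‖ := by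
  have hid : Integrable (fun y : ℝ => y) (gaussianReal 0 1) := IsGaussian.integrable_id
  have he : gaussianReal 0 ⟨‖v‖ ^ 2, sq_nonneg _⟩
      = (gaussianReal 0 1).map (fun y => ‖v‖ * y) := by
    rw [gaussianReal_map_const_mul, mul_zero, mul_one]
    rfl
  have hg : Continuous fun x : EuclideanSpace ℝ (Fin d) => ⟪v, x⟫ := by fun_prop
  calc ∫ x, |⟪v, x⟫| ∂stdGaussian (EuclideanSpace ℝ (Fin d))
      = ∫ y, |y| ∂gaussianReal 0 ⟨‖v‖ ^ 2, sq_nonneg _⟩ := by
        rw [← inner_law v, integral_map hg.aemeasurable (by fun_prop)]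
    _ = ∫ y, |‖v‖ * y| ∂gaussianReal 0 1 := by
        rw [he, integral_map (by fun_prop) (by fun_prop)]
    _ = ∫ y, (2 * (‖v‖ * max (y - 0) 0) - ‖v‖ * y) ∂gaussianReal 0 1 := by
        refine integral_congr_ae (ae_of_all _ fun y => ?_)
        simp only [sub_zero, abs_mul, abs_norm]
        rcases le_total 0 y with h | h
        · rw [abs_of_nonneg h, max_eq_left h]; ring
        · rw [abs_of_nonpos h, max_eq_right h]; ring
    _ = 2 * (‖v‖ * tailMean 0) := by
        rw [integral_sub (((integrable_posPart 0).const_mul _).const_mul _)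
          (hid.const_mul _), integral_const_mul, integral_const_mul,
          integral_const_mul, integral_id_gaussianReal, tailMean, mul_zero, sub_zero]
    _ ≤ 2 * phi0 * ‖v‖ := by
        nlinarith [tailMean_zero_le, norm_nonneg v]

lemma range_eq_three (a b c : ℝ) :
    max a (max b c) + max (-a) (max (-b) (-c)) = (|a - b| + |b - c| + |a - c|) / 2 := by
  rcases le_total a b with h1 | h1 <;> rcases le_total b c with h2 | h2 <;>
    rcases le_total a c with h3 | h3 <;>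
    simp [h1, h2, h3, abs_of_nonneg, abs_of_nonpos] <;> linarith

lemma maxInner_three (y : Fin 3 → EuclideanSpace ℝ (Fin d)) (x) :
    maxInner y x = max ⟪y 0, x⟫ (max ⟪y 1, x⟫ ⟪y 2, x⟫) := by
  refine le_antisymm (maxInner_le fun i => ?_) ?_
  · fin_cases i <;> simp
  · exact max_le (le_maxInner y x 0) (max_le (le_maxInner y x 1) (le_maxInner y x 2))

lemma gmax_three (y : Fin 3 → EuclideanSpace ℝ (Fin d)) :
    gmax y ≤ phi0 / 2 * (‖y 0 - y 1‖ + ‖y 1 - y 2‖ + ‖y 0 - y 2‖) := by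
  have hs : gmax (fun i => -(y i)) = gmax y :=
    gmax_gram_congr fun i j => by simp
  have hsum : ∀ x, maxInner y x + maxInner (fun i => -(y i)) x =
      (|⟪y 0 - y 1, x⟫| + |⟪y 1 - y 2, x⟫| + |⟪y 0 - y 2, x⟫|) / 2 := fun x => by
    simp only [maxInner_three, inner_neg_left, inner_sub_left]
    exact range_eq_three _ _ _
  have h2 : gmax y + gmax y = ∫ x, (|⟪y 0 - y 1, x⟫| + |⟪y 1 - y 2, x⟫| + |⟪y 0 - y 2, x⟫|) / 2
      ∂stdGaussian (EuclideanSpace ℝ (Fin d)) := by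
    nth_rw 2 [← hs]
    rw [gmax, gmax, ← integral_add (integrable_maxInner y) (integrable_maxInner _)]
    simp only [hsum]
  have i1 : ∀ v : EuclideanSpace ℝ (Fin d), Integrable (fun x => |⟪v, x⟫|)
      (stdGaussian (EuclideanSpace ℝ (Fin d))) := fun v => (integrable_inner' v).abs
  have h3 := integral_abs_inner_le (y 0 - y 1)
  have h4 := integral_abs_inner_le (y 1 - y 2)
  have h5 := integral_abs_inner_le (y 0 - y 2)
  rw [integral_div, integral_add, integral_add] at h2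
  · linarith
  · exact i1 _
  · exact i1 _
  · exact (i1 _).add (i1 _)
  · exact i1 _

lemma gmax_three_le (y : Fin 3 → EuclideanSpace ℝ (Fin d)) :
    gmax y ≤ propC * √(∑ i, ‖y i‖ ^ 2) := by
  refine (gmax_three y).trans ?_
  set S := ∑ i, ‖y i‖ ^ 2 with hS
  have hS0 : 0 ≤ S := Finset.sum_nonneg fun i _ => sq_nonneg _
  have h3 : S = ‖y 0‖ ^ 2 + ‖y 1‖ ^ 2 + ‖y 2‖ ^ 2 := by rw [hS, Fin.sum_univ_three]
  have e : ‖y 0 - y 1‖ ^ 2 + ‖y 1 - y 2‖ ^ 2 + ‖y 0 - y 2‖ ^ 2 + ‖y 0 + y 1 + y 2‖ ^ 2 = 3 * S := by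
    rw [h3]
    simp only [norm_sub_sq_real, norm_add_sq_real, inner_add_left]
    ring
  have hle : ‖y 0 - y 1‖ + ‖y 1 - y 2‖ + ‖y 0 - y 2‖ ≤ 3 * √S := by
    have h9 : 3 * √S = √(9 * S) := by
      rw [Real.sqrt_mul (by norm_num) S, show (9 : ℝ) = 3 ^ 2 by norm_num,
        Real.sqrt_sq (by norm_num)]
    rw [h9]
    refine Real.le_sqrt_of_sq_le ?_
    nlinarith [sq_nonneg (‖y 0 - y 1‖ - ‖y 1 - y 2‖), sq_nonneg (‖y 1 - y 2‖ - ‖y 0 - y 2‖),
      sq_nonneg (‖y 0 - y 1‖ - ‖y 0 - y 2‖), sq_nonneg ‖y 0 + y 1 + y 2‖]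
  unfold propC
  calc phi0 / 2 * (‖y 0 - y 1‖ + ‖y 1 - y 2‖ + ‖y 0 - y 2‖) ≤ phi0 / 2 * (3 * √S) :=
        mul_le_mul_of_nonneg_left hle (by linarith [phi0_pos])
    _ = _ := by ring

/-- The inequality for at most three vectors. -/
theorem gmax_le_of_three (hk : k ≤ 2) (y : Fin (k + 1) → EuclideanSpace ℝ (Fin d)) :
    gmax y ≤ propC * √(∑ i, ‖y i‖ ^ 2) := by
  let y' : Fin 3 → EuclideanSpace ℝ (Fin d) :=
    fun i => if h : (i : ℕ) < k + 1 then y ⟨i, h⟩ else 0
  have hy : ∀ i : Fin (k + 1), y i = y' ⟨i, by omega⟩ := fun i => by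
    simp only [y', dif_pos i.isLt]
  have h1 : gmax y ≤ gmax y' :=
    integral_mono (integrable_maxInner y) (integrable_maxInner y') fun x =>
      maxInner_le fun i => by rw [hy i]; exact le_maxInner y' x _
  have h2 : ∑ i, ‖y' i‖ ^ 2 = ∑ i, ‖y i‖ ^ 2 := by
    clear h1 hy
    rcases (by omega : k = 0 ∨ k = 1 ∨ k = 2) with rfl | rfl | rfl <;>
      simp [y', Fin.sum_univ_succ]
  exact (h1.trans (gmax_three_le y')).trans_eq (by rw [h2])

end Vale.Agent.P226.Full
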