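import Mathlib

/-!
# The constants of the propeller inequality
-/

open Real

namespace Vale.Agent.P226.Full

/-- The standard normal density at zero. -/
noncomputable def phi0 : ℝ := (√(2 * π))⁻¹

/-- The expected maximum of the propeller, `3 / (2 √(2π))`. -/
noncomputable def propC : ℝ := 3 / 2 * phi0

lemma phi0_pos : 0 < phi0 := by
  unfold phi0
  positivity

lemma propC_pos : 0 < propC := mul_pos (by norm_num) phi0_pos

lemma phi0_sq : phi0 ^ 2 = 1 / (2 * π) := by
  rw [phi0, inv_pow, Real.sq_sqrt (by positivity), one_div]

lemma propC_sq : propC ^ 2 = 9 / (8 * π) := by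
  rw [propC, mul_pow, phi0_sq]
  ring

end Vale.Agent.P226.Full
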