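import Vale.Agent.P226.Full.CapValues
import Vale.Agent.P226.Full.Const
import Vale.Agent.P226.Reduce.Extremal
import Vale.Agent.P226.Reduce.Cells

/-!
# Lower bounds for the probability of a cell of an extremal family
-/

open MeasureTheory ProbabilityTheory Real Set Finset
open scoped RealInnerProductSpace

namespace Vale.Agent.P226.Full

variable {d k : ℕ}

/-- A family of `k + 1` vectors with sum zero has a copy with the same Gram matrix in every
dimension from `k` on. -/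
theorem exists_gram_copy_of_sum_zero {n : ℕ} (z : Fin (k + 1) → EuclideanSpace ℝ (Fin n))
    (hsum : ∑ i, z i = 0) (hd : k ≤ d) :
    ∃ y : Fin (k + 1) → EuclideanSpace ℝ (Fin d), ∀ i j, ⟪y i, y j⟫ = ⟪z i, z j⟫ := by
  classical
  set S := Submodule.span ℝ (Set.range fun i : Fin k => z i.succ) with hS
  have hn : Module.finrank ℝ S ≤ d := by
    refine le_trans ?_ hd
    simpa [hS, Set.finrank] using finrank_range_le_card (R := ℝ) (fun i : Fin k => z i.succ)
  have hmem : ∀ i, z i ∈ S := fun i => by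
    induction i using Fin.cases with
    | zero =>
      rw [Fin.sum_univ_succ] at hsum
      rw [eq_neg_of_add_eq_zero_left hsum]
      exact S.neg_mem (S.sum_mem fun i _ => Submodule.subset_span ⟨i, rfl⟩)
    | succ i => exact Submodule.subset_span ⟨i, rfl⟩
  set b := stdOrthonormalBasis ℝ S with hb
  set emb : Fin (Module.finrank ℝ S) → Fin d := Fin.castLE hn
  have hemb : Function.Injective emb := Fin.castLE_injective hn
  let zS : Fin (k + 1) → S := fun i => ⟨z i, hmem i⟩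
  refine ⟨fun i => WithLp.toLp 2 (Function.extend emb (fun l => b.repr (zS i) l) 0),
    fun i j => ?_⟩
  rw [PiLp.inner_apply]
  simp only [RCLike.inner_apply, conj_trivial]
  rw [← Fintype.sum_of_injective emb hemb
    (fun l => b.repr (zS j) l * b.repr (zS i) l)
    (fun l => Function.extend emb (fun l => b.repr (zS j) l) 0 l *
      Function.extend emb (fun l => b.repr (zS i) l) 0 l)
    (fun l hl => by
      simp [Function.extend_apply' _ _ _ (fun ⟨a, ha⟩ => hl ⟨a, ha⟩)])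
    (fun l => by simp [hemb.extend_apply])]
  have := b.repr.inner_map_map (zS i) (zS j)
  rw [Submodule.coe_inner] at this
  rw [← this, PiLp.inner_apply]
  simp [zS]

/-- Cells are cones. -/
lemma argCell_cone (z : Fin k → EuclideanSpace ℝ (Fin d)) (i : Fin k) :
    ∀ x ∈ argCell z i, ∀ t : ℝ, 0 < t → t • x ∈ argCell z i := by
  intro x hx t ht
  refine ⟨fun j => ?_, fun j hj => ?_⟩
  · simp only [real_inner_smul_right]
    exact mul_le_mul_of_nonneg_left (hx.1 j) ht.le
  · simp only [real_inner_smul_right]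
    exact mul_lt_mul_of_pos_left (hx.2 j hj) ht

/-- The probability and the moment of a cell depend only on the Gram matrix. -/
lemma argCell_gram_congr {d' : ℕ} {z : Fin k → EuclideanSpace ℝ (Fin d)}
    {y : Fin k → EuclideanSpace ℝ (Fin d')} (h : ∀ i j, ⟪z i, z j⟫ = ⟪y i, y j⟫) (i : Fin k) :
    (stdGaussian (EuclideanSpace ℝ (Fin d))).real (argCell z i) =
        (stdGaussian (EuclideanSpace ℝ (Fin d'))).real (argCell y i) ∧
      ⟪z i, moment (argCell z i)⟫ = ⟪y i, moment (argCell y i)⟫ := by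
  set S : Set (EuclideanSpace ℝ (Fin k)) := {w | (∀ j, w j ≤ w i) ∧ ∀ j, j < i → w j < w i} with hS
  have hSm : MeasurableSet S := by
    simp only [hS, ofPred_and, ofPred_forall]
    exact (MeasurableSet.iInter fun j => measurableSet_le (by fun_prop) (by fun_prop)).inter
      (MeasurableSet.iInter fun j => MeasurableSet.iInter fun _ =>
        measurableSet_lt (by fun_prop) (by fun_prop))
  refine ⟨measureReal_coordMap_eq h hSm, ?_⟩
  have e : ∀ {e : ℕ} (v : Fin k → EuclideanSpace ℝ (Fin e)), ⟪v i, moment (argCell v i)⟫ =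
      ∫ w, S.indicator (fun w => w i) w
        ∂(stdGaussian (EuclideanSpace ℝ (Fin e))).map (coordMap v) := fun v => by
    rw [integral_map (continuous_coordMap v).aemeasurable
      ((by fun_prop : Measurable fun w : EuclideanSpace ℝ (Fin k) => w i).indicator
        hSm).aestronglyMeasurable, inner_moment, ← integral_indicator (measurableSet_argCell v i)]
    rfl
  rw [e, e, map_coordMap_eq h]

/-- The cap bound in dimension `m`. -/
lemma cap_bound_dim {m : ℕ} {z : Fin (k + 1) → EuclideanSpace ℝ (Fin (k + 1))} {r : ℝ}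
    (h : Extremal z r) (hr : 0 < r) (hk : k ≤ m + 1) (i : Fin (k + 1)) {τ G : ℝ} (h0 : 0 ≤ τ)
    (hG0 : 0 ≤ G)
    (hG : ∀ e : EuclideanSpace ℝ (Fin (m + 1)), ‖e‖ = 1 →
      ∫ x, max (⟪e, x⟫ - τ * ‖x‖) 0 ∂(stdGaussian (EuclideanSpace ℝ (Fin (m + 1)))) ≤ G) :
    r * ‖z i‖ ≤ G + τ * (∫ x, ‖x‖ ∂(stdGaussian (EuclideanSpace ℝ (Fin (m + 1))))) *
      (stdGaussian _).real (argCell z i) := by
  obtain ⟨y, hy⟩ := exists_gram_copy_of_sum_zero (d := m + 1) z (h.sum_eq_zero' hr) hk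
  obtain ⟨hp, hm⟩ := argCell_gram_congr (fun i j => (hy i j).symm) i
  rcases eq_or_lt_of_le (norm_nonneg (z i)) with hz | hz
  · rw [← hz, mul_zero]
    exact add_nonneg hG0 (mul_nonneg (mul_nonneg h0 (integral_nonneg fun x => norm_nonneg x))
      measureReal_nonneg)
  have hn : ‖y i‖ = ‖z i‖ := by rw [norm_eq_sqrt_real_inner, norm_eq_sqrt_real_inner, hy]
  set e := ‖z i‖⁻¹ • y i with he
  have he1 : ‖e‖ = 1 := by
    rw [he, norm_smul, hn, norm_inv, norm_norm, inv_mul_cancel₀ hz.ne']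
  have hb := cap_bound (measurableSet_argCell y i) (argCell_cone y i) e τ
  rw [he, real_inner_smul_left, ← hm, h.moment_eq hr, real_inner_smul_right,
    real_inner_self_eq_norm_sq, ← hp, ← he] at hb
  calc r * ‖z i‖ = ‖z i‖⁻¹ * (r * ‖z i‖ ^ 2) := by field_simp
    _ ≤ _ := hb.trans (add_le_add (hG e he1) le_rfl)

/-- The half-space bound. -/
theorem iso_bound {z : Fin (k + 1) → EuclideanSpace ℝ (Fin (k + 1))} {r : ℝ} (h : Extremal z r)
    (hr : 0 < r) (i : Fin (k + 1)) {t : ℝ} (ht : 0 ≤ t) :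
    r * ‖z i‖ ≤ tailMean t + t * (stdGaussian _).real (argCell z i) := by
  set g := stdGaussian (EuclideanSpace ℝ (Fin (k + 1))) with hg
  rcases eq_or_lt_of_le (norm_nonneg (z i)) with hz | hz
  · rw [← hz, mul_zero]
    exact add_nonneg (integral_nonneg fun x => le_max_right _ _)
      (mul_nonneg ht measureReal_nonneg)
  set e := ‖z i‖⁻¹ • z i with he
  have he1 : ‖e‖ = 1 := by rw [he, norm_smul, norm_inv, norm_norm, inv_mul_cancel₀ hz.ne']
  have h1 : ⟪e, moment (argCell z i)⟫ = r * ‖z i‖ := by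
    rw [he, h.moment_eq hr, real_inner_smul_left, real_inner_smul_right, real_inner_self_eq_norm_sq]
    field_simp
  have hi : Integrable (fun x => max (⟪e, x⟫ - t) 0) g :=
    ((integrable_inner' e).sub (integrable_const t)).pos_part
  have h2 := integral_excess_eq (t := t) e (by rw [he1]; exact one_pos)
  rw [he1, one_mul, div_one] at h2
  rw [← h1, inner_moment, ← h2, ← hg]
  have h3 : ∫ x in argCell z i, max (⟪e, x⟫ - t) 0 ∂g ≤ ∫ x, max (⟪e, x⟫ - t) 0 ∂g :=
    setIntegral_le_integral hi (ae_of_all _ fun x => le_max_right _ _)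
  refine le_trans ?_ (add_le_add h3 le_rfl)
  have h4 : ∫ _x in argCell z i, t ∂g = t * g.real (argCell z i) := by
    rw [setIntegral_const, smul_eq_mul, mul_comm]
  rw [← h4, ← integral_add hi.integrableOn (integrable_const t).integrableOn]
  exact setIntegral_mono (integrable_inner' e).integrableOn
    (hi.integrableOn.add (integrable_const t).integrableOn) fun x => by
      have := le_max_left (⟪e, x⟫ - t) 0
      simp only
      linarith

theorem cap_bound_three {z : Fin (k + 1) → EuclideanSpace ℝ (Fin (k + 1))} {r : ℝ}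
    (h : Extremal z r) (hr : 0 < r) (hk : k ≤ 3) (i : Fin (k + 1)) {τ : ℝ} (h0 : 0 ≤ τ)
    (h1 : τ ≤ 1) :
    r * ‖z i‖ ≤ phi0 * (1 - τ) ^ 2 + τ * (4 * phi0) * (stdGaussian _).real (argCell z i) := by
  have h' := cap_bound_dim (m := 2) h hr hk i (G := phi0 * (1 - τ) ^ 2) h0
    (mul_nonneg phi0_pos.le (sq_nonneg _)) fun e he => le_of_eq ?_
  · rwa [mean_norm_three] at h'
  · rcases h0.eq_or_lt with rfl | hp
    · rw [excess_zero e he, phi0]; ring
    · exact excess_dim_three e he hp h1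

/-- The excess in dimension `4` at every threshold. -/
lemma excess_four_all (e : EuclideanSpace ℝ (Fin 4)) (he : ‖e‖ = 1) {τ : ℝ} (h0 : 0 ≤ τ)
    (h1 : τ ≤ 1) :
    ∫ x, max (⟪e, x⟫ - τ * ‖x‖) 0 ∂(stdGaussian (EuclideanSpace ℝ (Fin 4))) =
      3 * phi0 * (√(1 - τ ^ 2) ^ 3 / 3 - τ * (arccos τ - τ * √(1 - τ ^ 2)) / 2) := by
  rcases h0.eq_or_lt with rfl | hp
  · rw [excess_zero e he, phi0]; simp [arccos_zero]; ring
  · rw [excess_dim_four e he hp h1, phi0]; ring

theorem cap_bound_four {z : Fin (k + 1) → EuclideanSpace ℝ (Fin (k + 1))} {r : ℝ}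
    (h : Extremal z r) (hr : 0 < r) (hk : k ≤ 4) (i : Fin (k + 1)) {τ : ℝ} (h0 : 0 ≤ τ)
    (h1 : τ ≤ 1) :
    r * ‖z i‖ ≤ 3 * phi0 * (√(1 - τ ^ 2) ^ 3 / 3 - τ * (arccos τ - τ * √(1 - τ ^ 2)) / 2) +
      τ * (3 * √(2 * π) / 4) * (stdGaussian _).real (argCell z i) := by
  have h' := cap_bound_dim (m := 3) h hr hk i
    (G := 3 * phi0 * (√(1 - τ ^ 2) ^ 3 / 3 - τ * (arccos τ - τ * √(1 - τ ^ 2)) / 2)) h0
    ?_ fun e he => (excess_four_all e he h0 h1).le
  · rw [mean_norm_four] at h'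
    convert h' using 3
    field_simp
    nlinarith [Real.sq_sqrt (show (0 : ℝ) ≤ 2 * π by positivity)]
  · rw [← excess_four_all (EuclideanSpace.single 0 1) (by simp) h0 h1]
    exact integral_nonneg fun x => le_max_right _ _

/-- The excess in dimension `5` at every threshold. -/
lemma excess_five_all (e : EuclideanSpace ℝ (Fin 5)) (he : ‖e‖ = 1) {τ : ℝ} (h0 : 0 ≤ τ)
    (h1 : τ ≤ 1) :
    ∫ x, max (⟪e, x⟫ - τ * ‖x‖) 0 ∂(stdGaussian (EuclideanSpace ℝ (Fin 5))) =
      4 * phi0 * (1 / 4 - 2 * τ / 3 + τ ^ 2 / 2 - τ ^ 4 / 12) := by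
  rcases h0.eq_or_lt with rfl | hp
  · rw [excess_zero e he, phi0]; ring
  · rw [excess_dim_five e he hp h1, phi0]; ring

theorem cap_bound_five {z : Fin (k + 1) → EuclideanSpace ℝ (Fin (k + 1))} {r : ℝ}
    (h : Extremal z r) (hr : 0 < r) (hk : k ≤ 5) (i : Fin (k + 1)) {τ : ℝ} (h0 : 0 ≤ τ)
    (h1 : τ ≤ 1) :
    r * ‖z i‖ ≤ 4 * phi0 * (1 / 4 - 2 * τ / 3 + τ ^ 2 / 2 - τ ^ 4 / 12) +
      τ * (16 * phi0 / 3) * (stdGaussian _).real (argCell z i) := by
  have h' := cap_bound_dim (m := 4) h hr hk i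
    (G := 4 * phi0 * (1 / 4 - 2 * τ / 3 + τ ^ 2 / 2 - τ ^ 4 / 12)) h0
    ?_ fun e he => (excess_five_all e he h0 h1).le
  · rw [mean_norm_five] at h'
    convert h' using 3
    rw [phi0]; ring
  · rw [← excess_five_all (EuclideanSpace.single 0 1) (by simp) h0 h1]
    exact integral_nonneg fun x => le_max_right _ _

/-- The excess in dimension `7` at every threshold. -/
lemma excess_seven_all (e : EuclideanSpace ℝ (Fin 7)) (he : ‖e‖ = 1) {τ : ℝ} (h0 : 0 ≤ τ)
    (h1 : τ ≤ 1) :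
    ∫ x, max (⟪e, x⟫ - τ * ‖x‖) 0 ∂(stdGaussian (EuclideanSpace ℝ (Fin 7))) =
      6 * phi0 * ((1 - τ ^ 2) ^ 3 / 6 - τ * (8 / 15 - τ + 2 * τ ^ 3 / 3 - τ ^ 5 / 5)) := by
  rcases h0.eq_or_lt with rfl | hp
  · rw [excess_zero e he, phi0]; ring
  · rw [excess_dim_seven e he hp h1, phi0]; ring

theorem cap_bound_seven {z : Fin (k + 1) → EuclideanSpace ℝ (Fin (k + 1))} {r : ℝ}
    (h : Extremal z r) (hr : 0 < r) (hk : k ≤ 7) (i : Fin (k + 1)) {τ : ℝ} (h0 : 0 ≤ τ)
    (h1 : τ ≤ 1) :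
    r * ‖z i‖ ≤ 6 * phi0 * ((1 - τ ^ 2) ^ 3 / 6 -
        τ * (8 / 15 - τ + 2 * τ ^ 3 / 3 - τ ^ 5 / 5)) +
      τ * (32 * phi0 / 5) * (stdGaussian _).real (argCell z i) := by
  have h' := cap_bound_dim (m := 6) h hr hk i
    (G := 6 * phi0 * ((1 - τ ^ 2) ^ 3 / 6 - τ * (8 / 15 - τ + 2 * τ ^ 3 / 3 - τ ^ 5 / 5))) h0
    ?_ fun e he => (excess_seven_all e he h0 h1).le
  · rw [mean_norm_seven] at h'
    convert h' using 3
    rw [phi0]; ring
  · rw [← excess_seven_all (EuclideanSpace.single 0 1) (by simp) h0 h1]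
    exact integral_nonneg fun x => le_max_right _ _

end Vale.Agent.P226.Full
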