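import Vale.Agent.P226.Full.Cap

/-!
# The cap bound in dimension `9`
-/

open MeasureTheory ProbabilityTheory Real Set
open scoped RealInnerProductSpace

namespace Vale.Agent.P226.Full

variable {k : ℕ}

lemma mean_norm_nine :
    ∫ x, ‖x‖ ∂(stdGaussian (EuclideanSpace ℝ (Fin 9))) = 256 / 35 * (√(2 * π))⁻¹ := by
  rw [mean_norm_eq (by norm_num), show radMoment 9 = 384 by
      rw [radMoment_succ_succ 7, radMoment_seven]; norm_num,
    show (9 : ℕ) - 1 = 6 + 2 from rfl, radMoment_succ_succ 6, radMoment_six]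
  field_simp
  norm_num

/-- The excess in dimension `9` at every threshold. -/
lemma excess_nine_all (e : EuclideanSpace ℝ (Fin 9)) (he : ‖e‖ = 1) {τ : ℝ} (h0 : 0 ≤ τ)
    (h1 : τ ≤ 1) :
    ∫ x, max (⟪e, x⟫ - τ * ‖x‖) 0 ∂(stdGaussian (EuclideanSpace ℝ (Fin 9))) =
      8 * phi0 * ((1 - τ ^ 2) ^ 4 / 8 -
        τ * (16 / 35 - τ + τ ^ 3 - 3 * τ ^ 5 / 5 + τ ^ 7 / 7)) := by
  rcases h0.eq_or_lt with rfl | hp
  · rw [excess_zero e he, phi0]; ring
  · rw [excess_eq (n := 8) (by norm_num) e he hp h1, show (8 : ℕ) = 2 * 4 from rfl,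
      excess_poly hp h1 4
        (P := fun s => -s⁻¹ - 4 * s + 2 * s ^ 3 - 4 / 5 * s ^ 5 + s ^ 7 / 7) fun s hs => ?_]
    · rw [phi0]; field_simp; ring
    · have hs0 : s ≠ 0 := (hp.trans_le hs.1).ne'
      refine (((((hasDerivAt_inv hs0).neg.sub ((hasDerivAt_id s).const_mul 4)).add
        ((hasDerivAt_pow 3 s).const_mul 2)).sub ((hasDerivAt_pow 5 s).const_mul (4 / 5))).add
        ((hasDerivAt_pow 7 s).div_const 7)).congr_deriv ?_
      field_simp
      ring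

theorem cap_bound_nine {z : Fin (k + 1) → EuclideanSpace ℝ (Fin (k + 1))} {r : ℝ}
    (h : Extremal z r) (hr : 0 < r) (hk : k ≤ 9) (i : Fin (k + 1)) {τ : ℝ} (h0 : 0 ≤ τ)
    (h1 : τ ≤ 1) :
    r * ‖z i‖ ≤ 8 * phi0 * ((1 - τ ^ 2) ^ 4 / 8 -
        τ * (16 / 35 - τ + τ ^ 3 - 3 * τ ^ 5 / 5 + τ ^ 7 / 7)) +
      τ * (256 * phi0 / 35) * (stdGaussian _).real (argCell z i) := by
  have h' := cap_bound_dim (m := 8) h hr hk i
    (G := 8 * phi0 * ((1 - τ ^ 2) ^ 4 / 8 -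
      τ * (16 / 35 - τ + τ ^ 3 - 3 * τ ^ 5 / 5 + τ ^ 7 / 7))) h0
    ?_ fun e he => (excess_nine_all e he h0 h1).le
  · rw [mean_norm_nine] at h'
    convert h' using 3
    rw [phi0]; ring
  · rw [← excess_nine_all (EuclideanSpace.single 0 1) (by simp) h0 h1]
    exact integral_nonneg fun x => le_max_right _ _

end Vale.Agent.P226.Full
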