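import Vale.Agent.P226.Full.CapBasic

/-!
# The excess of a unit direction over a multiple of the norm

`E (⟪e, X⟫ - τ |X|)⁺ = τ φ₀ ∫_τ^1 (1 - s²)^((d-1)/2) / s² ds`, with closed forms in dimensions
`3`, `5`, `7` and at `τ = 1/2` in dimension `4`.
-/

open MeasureTheory ProbabilityTheory Real Set
open scoped RealInnerProductSpace

namespace Vale.Agent.P226

variable {n : ℕ}

/-- The Gaussian mean of the part above `a ≥ 0`. -/
lemma integral_above_gauss {a : ℝ} (ha : 0 ≤ a) :
    ∫ t, (Ioi a).indicator (fun t => t) t ∂(gaussianReal 0 1) =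
      (√(2 * π))⁻¹ * exp (-(1 / 2) * a ^ 2) := by
  have h := integral_Ioi_of_hasDerivAt_of_nonneg' (a := a) (fun x _ => hasDerivAt_halfGauss x)
    (fun x hx => mul_nonneg (ha.trans (le_of_lt hx)) (exp_pos _).le) tendsto_halfGauss
  rw [zero_sub, neg_neg] at h
  rw [integral_gaussianReal_eq_integral_smul one_ne_zero, ← h, ← integral_indicator measurableSet_Ioi,
    ← integral_const_mul]
  refine integral_congr_ae (ae_of_all _ fun t => ?_)
  by_cases ht : t ∈ Ioi a <;> simp [ht, pdf_eq]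
  ring

lemma integral_gauss_damp {lam : ℝ} :
    ∫ t, exp (-(lam / 2) * t ^ 2) ∂(gaussianReal 0 1) =
      (√(2 * π))⁻¹ * √(π / ((1 + lam) / 2)) := by
  rw [integral_gaussianReal_eq_integral_smul one_ne_zero, ← integral_gaussian, ← integral_const_mul]
  refine integral_congr_ae (ae_of_all _ fun t => ?_)
  simp only [pdf_eq, smul_eq_mul, mul_assoc, ← exp_add]
  congr 2
  ring

/-- The mean of the first coordinate on a round cone around it. -/
theorem cap_slice (hn : n ≠ 0) {s : ℝ} (hs0 : 0 < s) (hs1 : s ≤ 1) :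
    ∫ x : EuclideanSpace ℝ (Fin (n + 1)), {x : EuclideanSpace ℝ (Fin (n + 1)) |
        s * ‖x‖ < x 0}.indicator (fun x => x 0) x ∂(stdGaussian (EuclideanSpace ℝ (Fin (n + 1)))) =
      (√(2 * π))⁻¹ * √(1 - s ^ 2) ^ n := by
  set e := MeasurableEquiv.piFinSuccAbove (fun _ : Fin (n + 1) => ℝ) 0
  have hp := (measurePreserving_piFinSuccAbove (fun _ : Fin (n + 1) => gaussianReal 0 1) 0).symm
  rw [← map_pi_eq_stdGaussian, integral_map (by fun_prop)
    (((by fun_prop : Measurable fun x : EuclideanSpace ℝ (Fin (n + 1)) => x 0).indicator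
      (measurableSet_lt (by fun_prop) (by fun_prop))).aestronglyMeasurable),
    ← hp.integral_comp e.symm.measurableEmbedding]
  set F : ℝ → (Fin n → ℝ) → ℝ := fun t y =>
    {t : ℝ | s * √(t ^ 2 + ∑ i, y i ^ 2) < t}.indicator (fun t => t) t with hF
  have hFeq : ∀ p : ℝ × (Fin n → ℝ), ({x : EuclideanSpace ℝ (Fin (n + 1)) |
        s * ‖x‖ < x 0}.indicator (fun x => x 0)
      (WithLp.toLp 2 (e.symm p))) = F p.1 p.2 := fun p => by
    simp [hF, e, Set.indicator_apply, EuclideanSpace.norm_eq, Fin.sum_univ_succ]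
  simp only at *
  rw [show (fun p : ℝ × (Fin n → ℝ) => ({x : EuclideanSpace ℝ (Fin (n + 1)) |
        s * ‖x‖ < x 0}.indicator (fun x => x 0) (WithLp.toLp 2 (e.symm p)))) =
      fun p => F p.1 p.2 from funext hFeq]
  have hFm : Measurable fun p : ℝ × (Fin n → ℝ) => F p.1 p.2 :=
    measurable_fst.indicator (measurableSet_lt
      (f := fun p : ℝ × (Fin n → ℝ) => s * √(p.1 ^ 2 + ∑ i, p.2 i ^ 2)) (g := fun p => p.1)
      (by fun_prop) measurable_fst)
  have hFi : Integrable (fun p : ℝ × (Fin n → ℝ) => F p.1 p.2)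
      ((gaussianReal 0 1).prod (Measure.pi fun _ : Fin n => gaussianReal 0 1)) := by
    refine ((IsGaussian.integrable_id (μ := gaussianReal 0 1)).comp_fst _).mono
      hFm.aestronglyMeasurable (ae_of_all _ fun p => ?_)
    simp only [hF, Set.indicator_apply, id_eq]
    split <;> simp
  rw [integral_prod_symm _ hFi]
  rcases hs1.lt_or_eq with hs1 | rfl
  · have hq : 0 < 1 - s ^ 2 := by nlinarith
    set lam := s ^ 2 / (1 - s ^ 2) with hlam
    have key : ∀ y : Fin n → ℝ, ∫ t, F t y ∂(gaussianReal 0 1) =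
        (√(2 * π))⁻¹ * ∏ i, exp (-(lam / 2) * y i ^ 2) := fun y => by
      set Y := ∑ i, y i ^ 2
      have hY : 0 ≤ Y := Finset.sum_nonneg fun i _ => sq_nonneg _
      set a := √(lam * Y) with hadef
      have hl : 0 ≤ lam * Y := mul_nonneg (by positivity) hY
      have hset : {t : ℝ | s * √(t ^ 2 + Y) < t} = Ioi a := by
        ext t
        rw [mem_ofPred_eq, mem_Ioi, hadef]
        constructor
        · intro h
          have ht : 0 < t := lt_of_le_of_lt (by positivity) h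
          rw [Real.sqrt_lt' ht, hlam, div_mul_eq_mul_div, div_lt_iff₀ hq]
          have := mul_self_lt_mul_self (by positivity) h
          rw [show s * √(t ^ 2 + Y) * (s * √(t ^ 2 + Y)) = s ^ 2 * (√(t ^ 2 + Y)) ^ 2 by ring,
            Real.sq_sqrt (by positivity)] at this
          nlinarith
        · intro h
          have ht : 0 < t := lt_of_le_of_lt (Real.sqrt_nonneg _) h
          rw [Real.sqrt_lt' ht, hlam, div_mul_eq_mul_div, div_lt_iff₀ hq] at h
          refine lt_of_mul_self_lt_mul_self₀ ht.le ?_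
          rw [show s * √(t ^ 2 + Y) * (s * √(t ^ 2 + Y)) = s ^ 2 * (√(t ^ 2 + Y)) ^ 2 by ring,
            Real.sq_sqrt (by positivity)]
          nlinarith
      simp only [hF]
      rw [show (fun t => {t : ℝ | s * √(t ^ 2 + Y) < t}.indicator (fun t => t) t) =
        (Ioi a).indicator fun t => t by rw [hset]]
      rw [integral_above_gauss (Real.sqrt_nonneg _), Real.sq_sqrt hl, ← exp_sum,
        ← Finset.mul_sum]
      congr 2
      ring
    simp only [key]
    rw [integral_const_mul,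
      integral_fintype_prod_eq_prod (f := fun (_ : Fin n) (t : ℝ) => exp (-(lam / 2) * t ^ 2))]
    simp only [integral_gauss_damp, Finset.prod_const, Finset.card_univ, Fintype.card_fin]
    congr 2
    rw [hlam, ← Real.sqrt_inv, ← Real.sqrt_mul (by positivity)]
    congr 1
    field_simp
    ring
  · have h0 : ∀ t (y : Fin n → ℝ), F t y = 0 := fun t y => by
      simp only [hF, Set.indicator_apply, mem_ofPred_eq, one_mul]
      rw [if_neg]
      refine not_lt.2 ((le_abs_self t).trans (Real.abs_le_sqrt ?_))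
      linarith [Finset.sum_nonneg (s := Finset.univ) fun i _ => sq_nonneg (y i)]
    simp [h0, hn]

/-- The excess over the norm in the first coordinate. -/
theorem excess_first (hn : n ≠ 0) {τ : ℝ} (hτ0 : 0 < τ) (hτ1 : τ ≤ 1) :
    ∫ x : EuclideanSpace ℝ (Fin (n + 1)), max (x 0 - τ * ‖x‖) 0
        ∂(stdGaussian (EuclideanSpace ℝ (Fin (n + 1)))) =
      τ * (√(2 * π))⁻¹ * ∫ s in τ..1, √(1 - s ^ 2) ^ n / s ^ 2 := by
  set g := stdGaussian (EuclideanSpace ℝ (Fin (n + 1))) with hg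
  set f : EuclideanSpace ℝ (Fin (n + 1)) → ℝ → ℝ := fun x s =>
    {s : ℝ | s * ‖x‖ < x 0}.indicator (fun s => x 0 / s ^ 2) s with hf
  have hpt : ∀ x, max (x 0 - τ * ‖x‖) 0 = τ * ∫ s in Ioc τ 1, f x s := fun x => by
    have hx0 : x 0 ≤ ‖x‖ := (le_abs_self _).trans (by simpa using PiLp.norm_apply_le x 0)
    by_cases hc : τ * ‖x‖ < x 0
    · have hpos : 0 < x 0 := lt_of_le_of_lt (by positivity) hc
      have hnx : 0 < ‖x‖ := hpos.trans_le hx0
      set U := x 0 / ‖x‖ with hU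
      have hU1 : U ≤ 1 := (div_le_one hnx).2 hx0
      have hτU : τ < U := (lt_div_iff₀ hnx).2 hc
      have e1 : ∫ s in Ioc τ 1, f x s = ∫ s in Ioo τ U, x 0 / s ^ 2 := by
        simp only [hf]
        rw [setIntegral_indicator (measurableSet_lt (by fun_prop) measurable_const)]
        congr 2
        ext s
        simp only [hU, mem_inter_iff, mem_Ioc, mem_ofPred_eq, mem_Ioo]
        rw [lt_div_iff₀ hnx]
        refine ⟨fun h => ⟨h.1.1, h.2⟩, fun h => ⟨⟨h.1, ?_⟩, h.2⟩⟩
        exact le_of_lt (lt_of_lt_of_le ((lt_div_iff₀ hnx).2 h.2) hU1)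
      have e2 : ∫ s in τ..U, x 0 / s ^ 2 = -(x 0 / U) - -(x 0 / τ) := by
        refine intervalIntegral.integral_eq_sub_of_hasDerivAt (f := fun t : ℝ => -(x 0 / t))
          (fun s hs => ?_) ?_
        · rw [uIcc_of_le hτU.le] at hs
          have hs0 : s ≠ 0 := (hτ0.trans_le hs.1).ne'
          exact (((hasDerivAt_inv hs0).const_mul (x 0)).neg).congr_deriv (by ring) |>.congr_of_eventuallyEq
            (Filter.Eventually.of_forall fun t => by simp [div_eq_mul_inv])
        · refine ContinuousOn.intervalIntegrable ?_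
          rw [uIcc_of_le hτU.le]
          exact continuousOn_const.div (continuousOn_pow 2)
            fun s hs => pow_ne_zero 2 (hτ0.trans_le hs.1).ne'
      rw [e1, ← integral_Ioc_eq_integral_Ioo, ← intervalIntegral.integral_of_le hτU.le, e2,
        max_eq_left (by linarith), hU]
      field_simp
      ring
    · have e1 : ∫ s in Ioc τ 1, f x s = 0 :=
        setIntegral_eq_zero_of_forall_eq_zero fun s hs => by
          simp only [hf, Set.indicator_apply, mem_ofPred_eq]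
          rw [if_neg fun h => hc ((mul_le_mul_of_nonneg_right hs.1.le (norm_nonneg x)).trans_lt h)]
      rw [e1, mul_zero, max_eq_right (by linarith [not_lt.1 hc])]
  simp only [hpt]
  rw [integral_const_mul, mul_assoc, ← intervalIntegral.integral_const_mul,
    intervalIntegral.integral_of_le hτ1]
  congr 1
  have hfi : Integrable (Function.uncurry f) (g.prod (volume.restrict (Ioc τ 1))) := by
    have hm : Measurable (Function.uncurry f) := by
      have : Function.uncurry f = {p : EuclideanSpace ℝ (Fin (n + 1)) × ℝ |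
          p.2 * ‖p.1‖ < p.1 0}.indicator (fun p => p.1 0 / p.2 ^ 2) := by
        funext p; simp [hf, Function.uncurry, Set.indicator_apply]
      rw [this]
      exact (by fun_prop : Measurable _).indicator (measurableSet_lt (by fun_prop) (by fun_prop))
    refine ((integrable_norm_stdGaussian.const_mul (τ ^ 2)⁻¹).comp_fst _).mono hm.aestronglyMeasurable
      ?_
    have hz := Measure.quasiMeasurePreserving_snd (μ := g) (ν := volume.restrict (Ioc τ 1))
    refine (hz.ae (ae_restrict_mem measurableSet_Ioc)).mono fun p hp => ?_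
    simp only [Function.uncurry, hf, Set.indicator_apply]
    split
    · have h1 : |p.1 0| ≤ ‖p.1‖ := by simpa using PiLp.norm_apply_le p.1 0
      rw [norm_div, Real.norm_eq_abs, norm_pow, Real.norm_eq_abs, sq_abs,
        Real.norm_of_nonneg (by positivity : (0 : ℝ) ≤ (τ ^ 2)⁻¹ * ‖p.1‖), inv_mul_eq_div]
      exact div_le_div₀ (norm_nonneg _) h1 (pow_pos hτ0 2)
        (pow_le_pow_left₀ hτ0.le hp.1.le 2)
    · simp; positivity
  rw [integral_integral_swap hfi]
  refine setIntegral_congr_fun measurableSet_Ioc fun s hs => ?_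
  have : (fun x => f x s) = fun x => (s ^ 2)⁻¹ * {x : EuclideanSpace ℝ (Fin (n + 1)) |
      s * ‖x‖ < x 0}.indicator (fun x => x 0) x := by
    funext x
    simp only [hf, Set.indicator_apply, mem_ofPred_eq]
    split <;> ring
  simp only [this, hg, integral_const_mul, cap_slice hn (hτ0.trans hs.1) hs.2]
  ring

/-- The excess in an arbitrary unit direction. -/
theorem excess_dir (e : EuclideanSpace ℝ (Fin (n + 1))) (he : ‖e‖ = 1) (τ : ℝ) :
    ∫ x, max (⟪e, x⟫ - τ * ‖x‖) 0 ∂(stdGaussian (EuclideanSpace ℝ (Fin (n + 1)))) =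
      ∫ x : EuclideanSpace ℝ (Fin (n + 1)), max (x 0 - τ * ‖x‖) 0
        ∂(stdGaussian (EuclideanSpace ℝ (Fin (n + 1)))) := by
  set u : EuclideanSpace ℝ (Fin (n + 1)) := EuclideanSpace.single 0 1 with hu
  set R := Submodule.reflection (ℝ ∙ (u - e))ᗮ with hR
  have hRu : R u = e := Submodule.reflection_sub (by simp [hu, he])
  conv_lhs => rw [← stdGaussian_map R]
  rw [integral_map (by fun_prop) (by fun_prop)]
  refine integral_congr_ae (ae_of_all _ fun x => ?_)
  simp only [R.norm_map, ← hRu, R.inner_map_map, hu, EuclideanSpace.inner_single_left, map_one,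
    one_mul]

theorem excess_eq (hn : n ≠ 0) (e : EuclideanSpace ℝ (Fin (n + 1))) (he : ‖e‖ = 1) {τ : ℝ}
    (hτ0 : 0 < τ) (hτ1 : τ ≤ 1) :
    ∫ x, max (⟪e, x⟫ - τ * ‖x‖) 0 ∂(stdGaussian (EuclideanSpace ℝ (Fin (n + 1)))) =
      τ * (√(2 * π))⁻¹ * ∫ s in τ..1, √(1 - s ^ 2) ^ n / s ^ 2 := by
  rw [excess_dir e he, excess_first hn hτ0 hτ1]

lemma excess_poly {τ : ℝ} (hτ0 : 0 < τ) (hτ1 : τ ≤ 1) (k : ℕ) {P : ℝ → ℝ}
    (hP : ∀ s ∈ Icc τ 1, HasDerivAt P ((1 - s ^ 2) ^ k / s ^ 2) s) :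
    ∫ s in τ..1, √(1 - s ^ 2) ^ (2 * k) / s ^ 2 = P 1 - P τ := by
  rw [← intervalIntegral.integral_eq_sub_of_hasDerivAt (a := τ) (b := 1)
    (fun s hs => hP s (uIcc_of_le hτ1 ▸ hs)) ?_]
  · refine intervalIntegral.integral_congr fun s hs => ?_
    rw [uIcc_of_le hτ1] at hs
    simp only [pow_mul]
    rw [Real.sq_sqrt (by nlinarith [hs.1, hs.2])]
  · refine ContinuousOn.intervalIntegrable ?_
    rw [uIcc_of_le hτ1]
    exact (by fun_prop : ContinuousOn _ _).div (continuousOn_pow 2)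
      fun s hs => pow_ne_zero 2 (hτ0.trans_le hs.1).ne'

theorem excess_dim_three (e : EuclideanSpace ℝ (Fin 3)) (he : ‖e‖ = 1) {τ : ℝ} (hτ0 : 0 < τ)
    (hτ1 : τ ≤ 1) :
    ∫ x, max (⟪e, x⟫ - τ * ‖x‖) 0 ∂(stdGaussian (EuclideanSpace ℝ (Fin 3))) =
      (√(2 * π))⁻¹ * (1 - τ) ^ 2 := by
  rw [excess_eq (n := 2) two_ne_zero e he hτ0 hτ1, show (2 : ℕ) = 2 * 1 from rfl,
    excess_poly hτ0 hτ1 1 (P := fun s => -s⁻¹ - s) fun s hs => ?_]
  · field_simp; ring
  · have hs0 : s ≠ 0 := (hτ0.trans_le hs.1).ne'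
    exact ((hasDerivAt_inv hs0).neg.sub (hasDerivAt_id s)).congr_deriv (by field_simp)

theorem excess_dim_five (e : EuclideanSpace ℝ (Fin 5)) (he : ‖e‖ = 1) {τ : ℝ} (hτ0 : 0 < τ)
    (hτ1 : τ ≤ 1) :
    ∫ x, max (⟪e, x⟫ - τ * ‖x‖) 0 ∂(stdGaussian (EuclideanSpace ℝ (Fin 5))) =
      (√(2 * π))⁻¹ * (1 - 8 / 3 * τ + 2 * τ ^ 2 - τ ^ 4 / 3) := by
  rw [excess_eq (n := 4) four_ne_zero e he hτ0 hτ1, show (4 : ℕ) = 2 * 2 from rfl,
    excess_poly hτ0 hτ1 2 (P := fun s => -s⁻¹ - 2 * s + s ^ 3 / 3) fun s hs => ?_]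
  · field_simp; ring
  · have hs0 : s ≠ 0 := (hτ0.trans_le hs.1).ne'
    refine (((hasDerivAt_inv hs0).neg.sub ((hasDerivAt_id s).const_mul 2)).add
      ((hasDerivAt_pow 3 s).div_const 3)).congr_deriv ?_
    field_simp
    ring

theorem excess_dim_seven (e : EuclideanSpace ℝ (Fin 7)) (he : ‖e‖ = 1) {τ : ℝ} (hτ0 : 0 < τ)
    (hτ1 : τ ≤ 1) :
    ∫ x, max (⟪e, x⟫ - τ * ‖x‖) 0 ∂(stdGaussian (EuclideanSpace ℝ (Fin 7))) =
      (√(2 * π))⁻¹ * (1 - 16 / 5 * τ + 3 * τ ^ 2 - τ ^ 4 + τ ^ 6 / 5) := by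
  rw [excess_eq (n := 6) (by norm_num) e he hτ0 hτ1, show (6 : ℕ) = 2 * 3 from rfl,
    excess_poly hτ0 hτ1 3 (P := fun s => -s⁻¹ - 3 * s + s ^ 3 - s ^ 5 / 5) fun s hs => ?_]
  · field_simp; ring
  · have hs0 : s ≠ 0 := (hτ0.trans_le hs.1).ne'
    refine ((((hasDerivAt_inv hs0).neg.sub ((hasDerivAt_id s).const_mul 3)).add
      (hasDerivAt_pow 3 s)).sub ((hasDerivAt_pow 5 s).div_const 5)).congr_deriv ?_
    field_simp
    ring

theorem excess_dim_four (e : EuclideanSpace ℝ (Fin 4)) (he : ‖e‖ = 1) {τ : ℝ} (hτ0 : 0 < τ)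
    (hτ1 : τ ≤ 1) :
    ∫ x, max (⟪e, x⟫ - τ * ‖x‖) 0 ∂(stdGaussian (EuclideanSpace ℝ (Fin 4))) =
      (√(2 * π))⁻¹ * (√(1 - τ ^ 2) ^ 3 - 3 / 2 * τ * (arccos τ - τ * √(1 - τ ^ 2))) := by
  rw [excess_eq (n := 3) three_ne_zero e he hτ0 hτ1]
  set P : ℝ → ℝ := fun s => -(√(1 - s ^ 2) ^ 3 / s) - 3 / 2 * (s * √(1 - s ^ 2) + arcsin s)
  have h : ∫ s in τ..1, √(1 - s ^ 2) ^ 3 / s ^ 2 = P 1 - P τ := by
    refine intervalIntegral.integral_eq_sub_of_hasDerivAt_of_le hτ1 ?_ (fun s hs => ?_) ?_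
    · refine ContinuousOn.sub (ContinuousOn.neg (ContinuousOn.div (by fun_prop) continuousOn_id
        fun s hs => ?_)) (by fun_prop)
      exact (lt_of_lt_of_le hτ0 hs.1).ne'
    · have hs0 : 0 < s := hτ0.trans hs.1
      have hq : 0 < 1 - s ^ 2 := by nlinarith [hs.2]
      have hr : HasDerivAt (fun t : ℝ => √(1 - t ^ 2)) (-s / √(1 - s ^ 2)) s := by
        refine (((hasDerivAt_pow 2 s).const_sub 1).sqrt hq.ne').congr_deriv ?_
        push_cast; field_simp
      have ha := hasDerivAt_arcsin (x := s) (by linarith) (by linarith [hs.2])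
      refine ((((hr.pow 3).div (hasDerivAt_id s) hs0.ne').neg).sub
        ((((hasDerivAt_id s).mul hr).add ha).const_mul (3 / 2))).congr_deriv ?_
      have hw := Real.sq_sqrt hq.le
      simp only [id_eq, Pi.pow_apply]
      push_cast
      field_simp
      grind
    · refine ContinuousOn.intervalIntegrable ?_
      rw [uIcc_of_le hτ1]
      exact (by fun_prop : ContinuousOn _ _).div (continuousOn_pow 2)
        fun s hs => pow_ne_zero 2 (lt_of_lt_of_le hτ0 hs.1).ne'
  rw [h]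
  simp only [P, arccos_eq_pi_div_two_sub_arcsin, arcsin_one, one_pow, sub_self, Real.sqrt_zero]
  field_simp
  ring

theorem excess_zero (e : EuclideanSpace ℝ (Fin (n + 1))) (he : ‖e‖ = 1) :
    ∫ x, max (⟪e, x⟫ - 0 * ‖x‖) 0 ∂(stdGaussian (EuclideanSpace ℝ (Fin (n + 1)))) =
      (√(2 * π))⁻¹ := by
  rw [excess_dir e he, ← map_pi_eq_stdGaussian, integral_map (by fun_prop) (by fun_prop)]
  simp only [zero_mul, sub_zero]
  rw [integral_comp_eval (μ := fun _ : Fin (n + 1) => gaussianReal 0 1) (i := 0)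
    (f := fun t : ℝ => max t 0) (by fun_prop)]
  have h := integral_above_gauss (le_refl (0 : ℝ))
  simp only [ne_eq, OfNat.ofNat_ne_zero, not_false_eq_true, zero_pow, mul_zero, exp_zero,
    mul_one] at h
  rw [← h]
  refine integral_congr_ae (ae_of_all _ fun t => ?_)
  by_cases ht : 0 < t
  · simp [ht, ht.le]
  · simp [ht, not_lt.1 ht]

end Vale.Agent.P226
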