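import Vale.Agent.P226.Full.Const

/-!
# The scalar form of the drop lemma
-/

open Real

namespace Vale.Agent.P226.Full

/-- If the loss of dropping the small cells exceeds their share, they are not small. -/
lemma drop_scalar {m ρ η ε sW : ℝ} (hm : 0 < m) (hε : 0 < ε) (hsW : 0 < sW) (hη0 : 0 ≤ η)
    (hη : η ^ 2 ≤ ε) (hρ : ρ ^ 2 ≤ ε)
    (h : propC / 2 * (ε + η ^ 2 / m) ≤
      phi0 ^ 3 * (m + 1) ^ 2 / (3 * sW) * (ρ * ε + η ^ 3 / m)) :
    9 * π / 2 * sW / (m * (m + 1)) ≤ ρ + √ε / m := by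
  set K := 9 * π / 2 * sW / (m + 1) ^ 2 with hK
  have hp := phi0_pos
  have hK2 : K * (ε + η ^ 2 / m) ≤ ρ * ε + η ^ 3 / m := by
    have hpi : 9 * π / 2 = propC / 2 * 3 / phi0 ^ 3 := by
      rw [propC, show phi0 ^ 3 = phi0 * phi0 ^ 2 by ring, phi0_sq]
      field_simp; ring
    have e : K * (ε + η ^ 2 / m) =
        (propC / 2 * (ε + η ^ 2 / m)) / (phi0 ^ 3 * (m + 1) ^ 2 / (3 * sW)) := by
      rw [hK, hpi]; field_simp
    rw [e, div_le_iff₀ (by positivity), mul_comm (ρ * ε + η ^ 3 / m)]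
    exact h
  have hK' : 9 * π / 2 * sW / (m * (m + 1)) = K * (1 + 1 / m) := by
    rw [hK]; field_simp
  rw [hK']
  by_contra hlt
  push Not at hlt
  set e := √ε with he
  have he0 : 0 < e := Real.sqrt_pos.2 hε
  have he2 : e ^ 2 = ε := Real.sq_sqrt hε.le
  have hρe : ρ ≤ e := (le_abs_self ρ).trans (Real.abs_le_sqrt hρ)
  have hηe : η ≤ e := Real.le_sqrt_of_sq_le hη
  have hm1 : 0 < 1 + 1 / m := by positivity
  have hρK : ρ < K := by
    by_contra hc
    push Not at hc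
    have : K * (1 + 1 / m) ≤ ρ + e / m := by
      calc K * (1 + 1 / m) ≤ ρ * (1 + 1 / m) := mul_le_mul_of_nonneg_right hc hm1.le
        _ = ρ + ρ / m := by ring
        _ ≤ ρ + e / m := by gcongr
    linarith
  rcases le_total η K with hle | hle
  · have h1 : ρ * ε < K * ε := mul_lt_mul_of_pos_right hρK hε
    have h2 : η ^ 3 / m ≤ K * (η ^ 2 / m) := by
      rw [show η ^ 3 = η * η ^ 2 by ring, mul_div_assoc]
      exact mul_le_mul_of_nonneg_right hle (by positivity)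
    linarith
  · have h1 : ρ * ε < (K * (1 + 1 / m) - e / m) * ε := mul_lt_mul_of_pos_right (by linarith) hε
    have h2 : η ^ 2 * (η - K) ≤ e ^ 2 * (e - K) :=
      mul_le_mul (pow_le_pow_left₀ hη0 hηe 2) (by linarith) (by linarith) (sq_nonneg e)
    have h3 : η ^ 3 / m - K * (η ^ 2 / m) ≤ (e * ε - K * ε) / m := by
      rw [← he2, le_div_iff₀ hm, sub_mul, mul_assoc, div_mul_cancel₀ _ hm.ne',
        div_mul_cancel₀ _ hm.ne']
      linarith
    have h4 : (K * (1 + 1 / m) - e / m) * ε = K * ε - (e * ε - K * ε) / m := by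
      field_simp; ring
    linarith

end Vale.Agent.P226.Full
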