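import Vale.Agent.P226.Full.Excess
import Vale.Agent.P226.Full.Gram
import Vale.Agent.P226.Full.DropScalar
import Vale.Agent.P226.Reduce.Extremal
import Vale.Agent.P226.Reduce.Perturb

/-!
# A counterexample with the fewest cells has no negligible cells
-/

open MeasureTheory ProbabilityTheory Real Set Finset
open scoped RealInnerProductSpace

namespace Vale.Agent.P226.Full

variable {d n : ℕ}

/-- A family beating the propeller while every smaller family obeys the bound. -/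
structure Counter (z : Fin (n + 1) → EuclideanSpace ℝ (Fin d)) : Prop where
  norm_one : ∑ i, ‖z i‖ ^ 2 = 1
  sum_zero : ∑ i, z i = 0
  obtuse : ∀ i j, i ≠ j → ⟪z i, z j⟫ < 0
  gt : propC < gmax z
  prev : ∀ k < n, ∀ (e : ℕ) (y : Fin (k + 1) → EuclideanSpace ℝ (Fin e)),
    gmax y ≤ propC * √(∑ i, ‖y i‖ ^ 2)

lemma sqrt_one_sub_le {u : ℝ} (h : u ≤ 1) : √(1 - u) ≤ 1 - u / 2 := by
  rw [Real.sqrt_le_left (by linarith)]
  nlinarith [sq_nonneg u]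

variable {z : Fin (n + 1) → EuclideanSpace ℝ (Fin d)}

/-- One excess term with the determinant bound. -/
lemma term_le (w va vb : EuclideanSpace ℝ (Fin d)) {m l S p q Γ ε W : ℝ} (hm : 3 ≤ m) (hl : 0 < l)
    (N : EuclideanSpace ℝ (Fin d) → ℝ) (hN : Continuous N)
    (hNi : Integrable N (stdGaussian (EuclideanSpace ℝ (Fin d))))
    (h1 : ∀ x, ⟪va, x⟫ ≤ N x) (h2 : ∀ x, ⟪vb, x⟫ ≤ N x)
    (h3 : ∀ x, -⟪va + vb, x⟫ ≤ (m - 2) * N x) (hN0 : ∀ x, 0 ≤ N x)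
    (hp : 0 ≤ p) (hq : 0 ≤ q) (hpq : p + q ≤ S) (hS : S ^ 2 ≤ ε * ‖w‖ ^ 2)
    (hx : ⟪w, va⟫ = S / m - p) (hy : ⟪w, vb⟫ = S / m - q)
    (g0 : ‖va‖ ^ 2 + ‖vb‖ ^ 2 - 2 * ⟪va, vb⟫ ≤ m ^ 2 * Γ)
    (g1 : ‖vb‖ ^ 2 * (m - 1) ^ 2 + ‖va‖ ^ 2 + 2 * ⟪va, vb⟫ * (m - 1) ≤ m ^ 2 * Γ)
    (g2 : ‖va‖ ^ 2 * (m - 1) ^ 2 + ‖vb‖ ^ 2 + 2 * ⟪va, vb⟫ * (m - 1) ≤ m ^ 2 * Γ)
    (hW0 : 0 < W) (hW : W ≤ ‖va‖ ^ 2 * ‖vb‖ ^ 2 - ⟪va, vb⟫ ^ 2 - ε * Γ) :
    ∫ x, max (⟪w, x⟫ - l * N x) 0 ∂stdGaussian (EuclideanSpace ℝ (Fin d)) ≤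
      phi0 ^ 3 * m ^ 2 * ‖w‖ ^ 3 / (3 * l ^ 2 * √W) := by
  by_cases hw : w = 0
  · subst hw
    simp only [inner_zero_left, norm_zero]
    have e : ∀ x, max (0 - l * N x) 0 = 0 := fun x =>
      max_eq_right (by have := mul_nonneg hl.le (hN0 x); linarith)
    simp only [e, integral_zero]
    simp
  have hwp : 0 < ‖w‖ := norm_pos_iff.2 hw
  have hC : ⟪va, vb⟫ ^ 2 ≤ ‖va‖ ^ 2 * ‖vb‖ ^ 2 := by
    rw [← mul_pow, sq_le_sq, abs_of_nonneg (show 0 ≤ ‖va‖ * ‖vb‖ by positivity)]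
    exact abs_real_inner_le_norm va vb
  have hq' := quad_triangle_le (S := S) (p := p) (q := q) (sq_nonneg ‖va‖) (sq_nonneg ‖vb‖) hC
    hp hq hpq g0 g1 g2
  have hΓ : 0 ≤ Γ := by
    have : 0 ≤ ‖va - vb‖ ^ 2 := sq_nonneg _
    rw [norm_sub_sq_real] at this
    nlinarith [show (0 : ℝ) < m ^ 2 by positivity]
  have hm0 : 0 < m := by linarith
  have hd : (‖w‖ * √W) ^ 2 ≤ ‖w‖ ^ 2 * (‖va‖ ^ 2 * ‖vb‖ ^ 2 - ⟪va, vb⟫ ^ 2) -
      (‖vb‖ ^ 2 * ⟪w, va⟫ ^ 2 - 2 * ⟪va, vb⟫ * ⟪w, va⟫ * ⟪w, vb⟫ +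
        ‖va‖ ^ 2 * ⟪w, vb⟫ ^ 2) := by
    have e : m ^ 2 * (‖vb‖ ^ 2 * ⟪w, va⟫ ^ 2 - 2 * ⟪va, vb⟫ * ⟪w, va⟫ * ⟪w, vb⟫ +
        ‖va‖ ^ 2 * ⟪w, vb⟫ ^ 2) = ‖vb‖ ^ 2 * (S - m * p) ^ 2 -
          2 * ⟪va, vb⟫ * (S - m * p) * (S - m * q) + ‖va‖ ^ 2 * (S - m * q) ^ 2 := by
      rw [hx, hy]; field_simp
    have h4 : ‖vb‖ ^ 2 * ⟪w, va⟫ ^ 2 - 2 * ⟪va, vb⟫ * ⟪w, va⟫ * ⟪w, vb⟫ +
        ‖va‖ ^ 2 * ⟪w, vb⟫ ^ 2 ≤ S ^ 2 * Γ :=
      le_of_mul_le_mul_left (by rw [e]; linarith) (show (0 : ℝ) < m ^ 2 by positivity)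
    rw [mul_pow, Real.sq_sqrt hW0.le]
    have h5 := mul_le_mul_of_nonneg_left hW (sq_nonneg ‖w‖)
    have h6 := mul_le_mul_of_nonneg_right hS hΓ
    linarith
  have := tri_excess_le w va vb (n := m - 2) (by linarith) hl
    (mul_pos hwp (Real.sqrt_pos.2 hW0)) hd N hN hNi h1 h2 h3
  refine this.trans (le_of_eq ?_)
  have : √W ≠ 0 := (Real.sqrt_pos.2 hW0).ne'
  field_simp
  ring

/-- The total of the dropped cells. -/
noncomputable def dropSum (z : Fin (n + 1) → EuclideanSpace ℝ (Fin d)) (S : Finset (Fin (n + 1))) :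
    EuclideanSpace ℝ (Fin d) := ∑ j ∈ Sᶜ, z j

/-- A kept cell after the translation to centroid zero. -/
noncomputable def shifted (z : Fin (n + 1) → EuclideanSpace ℝ (Fin d)) (S : Finset (Fin (n + 1)))
    (i : Fin (n + 1)) : EuclideanSpace ℝ (Fin d) := z i + (S.card : ℝ)⁻¹ • dropSum z S

variable {S : Finset (Fin (n + 1))}

lemma inner_nonpos_compl (h : Counter z) {i : Fin (n + 1)} (hi : i ∈ S) :
    ⟪z i, dropSum z S⟫ ≤ 0 := by
  rw [dropSum, inner_sum]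
  exact sum_nonpos fun j hj => (h.obtuse i j fun e => mem_compl.1 hj (e ▸ hi)).le

lemma sum_inner_kept (h : Counter z) :
    ∑ i ∈ S, -⟪z i, dropSum z S⟫ = ‖dropSum z S‖ ^ 2 := by
  have e : ∑ i ∈ S, z i = -dropSum z S := by
    rw [eq_neg_iff_add_eq_zero, dropSum, sum_add_sum_compl, h.sum_zero]
  rw [sum_neg_distrib, ← sum_inner, e, inner_neg_left, neg_neg, real_inner_self_eq_norm_sq]

lemma norm_dropSum_le (h : Counter z) : ‖dropSum z S‖ ^ 2 ≤ ∑ j ∈ Sᶜ, ‖z j‖ ^ 2 := by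
  rw [← real_inner_self_eq_norm_sq, dropSum, sum_inner]
  refine sum_le_sum fun j hj => ?_
  rw [inner_sum, ← add_sum_erase _ _ hj, real_inner_self_eq_norm_sq]
  have : ∑ l ∈ Sᶜ.erase j, ⟪z j, z l⟫ ≤ 0 :=
    sum_nonpos fun l hl => (h.obtuse j l (ne_of_mem_erase hl).symm).le
  linarith

lemma inner_neg_le_norm (h : Counter z) {i : Fin (n + 1)} (hi : i ∈ S) :
    -⟪z i, dropSum z S⟫ ≤ ‖z i‖ ^ 2 := by
  have e : ⟪z i, ∑ l ∈ S, z l⟫ + ⟪z i, dropSum z S⟫ = 0 := by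
    rw [← inner_add_right, dropSum, sum_add_sum_compl, h.sum_zero, inner_zero_right]
  rw [inner_sum, ← add_sum_erase _ _ hi, real_inner_self_eq_norm_sq] at e
  have : ∑ l ∈ S.erase i, ⟪z i, z l⟫ ≤ 0 :=
    sum_nonpos fun l hl => (h.obtuse i l (ne_of_mem_erase hl).symm).le
  linarith

lemma norm_shifted_sq (i : Fin (n + 1)) : ‖shifted z S i‖ ^ 2 =
    ‖z i‖ ^ 2 - 2 * -⟪z i, dropSum z S⟫ / S.card + ‖dropSum z S‖ ^ 2 / (S.card : ℝ) ^ 2 := by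
  rw [shifted, norm_add_sq_real, real_inner_smul_right, norm_smul, Real.norm_eq_abs, mul_pow,
    sq_abs]
  ring

lemma inner_shifted (i j : Fin (n + 1)) : ⟪shifted z S i, shifted z S j⟫ =
    ⟪z i, z j⟫ - (-⟪z i, dropSum z S⟫ + -⟪z j, dropSum z S⟫) / S.card +
      ‖dropSum z S‖ ^ 2 / (S.card : ℝ) ^ 2 := by
  simp only [shifted, inner_add_left, inner_add_right, real_inner_smul_left, real_inner_smul_right,
    real_inner_self_eq_norm_sq]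
  rw [real_inner_comm (z j) (dropSum z S), norm_smul, Real.norm_eq_abs, mul_pow, sq_abs]
  ring

lemma sum_shifted (h : Counter z) (hS : S.Nonempty) : ∑ i ∈ S, shifted z S i = 0 := by
  have : (S.card : ℝ) ≠ 0 := Nat.cast_ne_zero.2 hS.card_pos.ne'
  simp only [shifted, sum_add_distrib, sum_const, ← Nat.cast_smul_eq_nsmul ℝ, smul_smul]
  rw [mul_inv_cancel₀ this, one_smul, dropSum, sum_add_sum_compl, h.sum_zero]

lemma sum_norm_shifted (h : Counter z) (hS : S.Nonempty) : ∑ i ∈ S, ‖shifted z S i‖ ^ 2 =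
    1 - (∑ j ∈ Sᶜ, ‖z j‖ ^ 2 + ‖dropSum z S‖ ^ 2 / S.card) := by
  have : (S.card : ℝ) ≠ 0 := Nat.cast_ne_zero.2 hS.card_pos.ne'
  simp only [norm_shifted_sq, sum_add_distrib, sum_sub_distrib, ← sum_div, ← mul_sum,
    sum_inner_kept h, sum_const, nsmul_eq_mul]
  have e : ∑ i ∈ S, ‖z i‖ ^ 2 = 1 - ∑ j ∈ Sᶜ, ‖z j‖ ^ 2 := by
    rw [eq_sub_iff_add_eq, sum_add_sum_compl, h.norm_one]
  rw [e]
  field_simp
  ring

/-- The drop lemma. -/
theorem drop_core (h : Counter z) (hcard : 3 ≤ S.card) (hne : Sᶜ.Nonempty) {a b : Fin (n + 1)}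
    (ha : a ∈ S) (hb : b ∈ S) (hab : a ≠ b) {ρ Γ W : ℝ} (hρ : ∀ j ∈ Sᶜ, ‖z j‖ ≤ ρ)
    (hρε : ρ ^ 2 ≤ ∑ j ∈ Sᶜ, ‖z j‖ ^ 2)
    (g0 : ‖shifted z S a‖ ^ 2 + ‖shifted z S b‖ ^ 2 - 2 * ⟪shifted z S a, shifted z S b⟫ ≤
      (S.card : ℝ) ^ 2 * Γ)
    (g1 : ‖shifted z S b‖ ^ 2 * ((S.card : ℝ) - 1) ^ 2 + ‖shifted z S a‖ ^ 2 +
      2 * ⟪shifted z S a, shifted z S b⟫ * ((S.card : ℝ) - 1) ≤ (S.card : ℝ) ^ 2 * Γ)
    (g2 : ‖shifted z S a‖ ^ 2 * ((S.card : ℝ) - 1) ^ 2 + ‖shifted z S b‖ ^ 2 +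
      2 * ⟪shifted z S a, shifted z S b⟫ * ((S.card : ℝ) - 1) ≤ (S.card : ℝ) ^ 2 * Γ)
    (hW0 : 0 < W) (hW : W ≤ ‖shifted z S a‖ ^ 2 * ‖shifted z S b‖ ^ 2 -
      ⟪shifted z S a, shifted z S b⟫ ^ 2 - (∑ j ∈ Sᶜ, ‖z j‖ ^ 2) * Γ) :
    9 * π / 2 * √W / ((S.card : ℝ) * ((S.card : ℝ) + 1)) ≤
      ρ + √(∑ j ∈ Sᶜ, ‖z j‖ ^ 2) / S.card := by
  set m : ℝ := (S.card : ℝ) with hm
  have hm3 : 3 ≤ m := by rw [hm]; exact_mod_cast hcard
  have hm0 : 0 < m := by linarith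
  set U := dropSum z S with hU
  set ε := ∑ j ∈ Sᶜ, ‖z j‖ ^ 2 with hε
  have hzn : ∀ i, z i ≠ 0 := fun i e => by
    obtain ⟨j, hj⟩ : ∃ j, j ≠ i := by
      rcases eq_or_ne a i with rfl | hai
      · exact ⟨b, hab.symm⟩
      · exact ⟨a, hai⟩
    have := h.obtuse i j hj.symm
    simp [e] at this
  have hε0 : 0 < ε := sum_pos (fun j _ => by have := norm_pos_iff.2 (hzn j); positivity) hne
  obtain ⟨M, hM⟩ : ∃ M, S.card = M + 1 := ⟨S.card - 1, by omega⟩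
  set e := S.orderEmbOfFin hM with he
  have heS : ∀ l, e l ∈ S := fun l => orderEmbOfFin_mem S hM l
  have hsumS : ∀ {β : Type} [AddCommMonoid β] (f : Fin (n + 1) → β),
      ∑ l, f (e l) = ∑ i ∈ S, f i := fun f => by
    conv_rhs => rw [← map_orderEmbOfFin_univ S hM]
    rw [sum_map]
    rfl
  set v : Fin (M + 1) → EuclideanSpace ℝ (Fin d) := fun l => shifted z S (e l) with hv
  set N := maxInner v with hN
  have hvS : ∀ i ∈ S, ∀ x, ⟪shifted z S i, x⟫ ≤ N x := fun i hi x => by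
    obtain ⟨l, rfl⟩ : i ∈ Set.range e := by rw [he, range_orderEmbOfFin]; exact hi
    exact le_maxInner v x l
  have hN0 : ∀ x, 0 ≤ N x := fun x => by
    by_contra hc
    push Not at hc
    have h0 : ∑ i ∈ S, ⟪shifted z S i, x⟫ = 0 := by
      rw [← sum_inner, sum_shifted h ⟨a, ha⟩, inner_zero_left]
    have : ∑ i ∈ S, ⟪shifted z S i, x⟫ < 0 :=
      sum_neg (fun i hi => (hvS i hi x).trans_lt hc) ⟨a, ha⟩
    linarith
  have h3 : ∀ x, -⟪shifted z S a + shifted z S b, x⟫ ≤ (m - 2) * N x := fun x => by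
    have h0 : ∑ i ∈ S, ⟪shifted z S i, x⟫ = 0 := by
      rw [← sum_inner, sum_shifted h ⟨a, ha⟩, inner_zero_left]
    have hb' : b ∈ S.erase a := mem_erase.2 ⟨hab.symm, hb⟩
    rw [← add_sum_erase _ _ ha, ← add_sum_erase _ _ hb'] at h0
    have hc : ((S.erase a).erase b).card = S.card - 2 := by
      rw [card_erase_of_mem hb', card_erase_of_mem ha]; omega
    have h1 := sum_le_card_nsmul ((S.erase a).erase b) (fun i => ⟪shifted z S i, x⟫) (N x)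
      fun i hi => hvS i (mem_of_mem_erase (mem_of_mem_erase hi)) x
    rw [hc, nsmul_eq_mul, Nat.cast_sub (by omega : 2 ≤ S.card), Nat.cast_two] at h1
    rw [inner_add_left]
    linarith
  set l := m / (m + 1) with hl
  have hl0 : 0 < l := by positivity
  have hl1 : 0 < 1 - l := by
    rw [hl, sub_pos, div_lt_one (by linarith)]; linarith
  set P : EuclideanSpace ℝ (Fin d) → EuclideanSpace ℝ (Fin d) → ℝ :=
    fun w x => max (⟪w, x⟫ - l * N x) 0 with hP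
  have hint : ∀ w (q : ℝ), Integrable (fun x => max (⟪w, x⟫ - q * N x) 0)
      (stdGaussian (EuclideanSpace ℝ (Fin d))) := fun w q =>
    ((integrable_inner' w).sub ((integrable_maxInner v).const_mul q)).pos_part
  have hpt : ∀ x, maxInner z x ≤ maxInner (fun l => z (e l)) x +
      ((∑ j ∈ Sᶜ, P (z j) x) + max (⟪m⁻¹ • U, x⟫ - (1 - l) * N x) 0) := fun x => by
    have hsum0 : 0 ≤ ∑ j ∈ Sᶜ, P (z j) x := sum_nonneg fun j _ => le_max_right _ _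
    have hNle : N x ≤ maxInner (fun l => z (e l)) x + ⟪m⁻¹ • U, x⟫ := maxInner_le fun i => by
      simp only [hv, shifted, inner_add_left, ← hm, ← hU]
      linarith [le_maxInner (fun l => z (e l)) x i]
    refine maxInner_le fun i => ?_
    by_cases hi : i ∈ S
    · obtain ⟨k, rfl⟩ : i ∈ Set.range e := by rw [he, range_orderEmbOfFin]; exact hi
      linarith [le_maxInner (fun l => z (e l)) x k,
        le_max_right (⟪m⁻¹ • U, x⟫ - (1 - l) * N x) (0 : ℝ)]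
    · have h1 := single_le_sum (f := fun j => P (z j) x) (fun j _ => le_max_right _ _)
        (mem_compl.2 hi)
      have h2 : ⟪z i, x⟫ - l * N x ≤ P (z i) x := le_max_left _ _
      linarith [le_max_left (⟪m⁻¹ • U, x⟫ - (1 - l) * N x) (0 : ℝ)]
  have hg : gmax z ≤ gmax (fun l => z (e l)) +
      ((∑ j ∈ Sᶜ, ∫ x, P (z j) x ∂stdGaussian (EuclideanSpace ℝ (Fin d))) +
        ∫ x, max (⟪m⁻¹ • U, x⟫ - (1 - l) * N x) 0 ∂stdGaussian (EuclideanSpace ℝ (Fin d))) := by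
    have i1 : Integrable (fun x => ∑ j ∈ Sᶜ, P (z j) x)
        (stdGaussian (EuclideanSpace ℝ (Fin d))) := integrable_finsetSum _ fun j _ => hint _ l
    rw [gmax, gmax, ← integral_finsetSum _ (fun j _ => hint (z j) l),
      ← integral_add i1 (hint _ (1 - l)), ← integral_add (integrable_maxInner _)]
    · exact integral_mono (integrable_maxInner z)
        ((integrable_maxInner _).add (i1.add (hint _ (1 - l)))) hpt
    · exact i1.add (hint _ (1 - l))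
  have hη := norm_dropSum_le h (S := S)
  rw [← hU, ← hε] at hη
  have hsub : gmax (fun l => z (e l)) ≤ propC * (1 - (ε + ‖U‖ ^ 2 / m) / 2) := by
    rw [← gmax_add_const _ (m⁻¹ • U)]
    have hMn : M < n := by
      obtain ⟨j, hj⟩ := hne
      have := card_lt_univ_of_notMem (mem_compl.1 hj)
      simp at this
      omega
    refine (h.prev M hMn d _).trans (mul_le_mul_of_nonneg_left ?_ propC_pos.le)
    have e1 : ∑ i, ‖z (e i) + m⁻¹ • U‖ ^ 2 = 1 - (ε + ‖U‖ ^ 2 / m) := by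
      rw [hm, hU, hε, ← sum_norm_shifted h ⟨a, ha⟩, ← hsumS]
      rfl
    have : 0 ≤ ∑ i, ‖z (e i) + m⁻¹ • U‖ ^ 2 := sum_nonneg fun i _ => sq_nonneg _
    rw [e1] at this ⊢
    exact sqrt_one_sub_le (by linarith)
  have hxy : ∀ w, ∀ i, ⟪w, shifted z S i⟫ = ⟪w, U⟫ / m - -⟪w, z i⟫ := fun w i => by
    rw [shifted, inner_add_right, real_inner_smul_right, ← hU, ← hm]; ring
  have hT : ∀ j ∈ Sᶜ, ∫ x, P (z j) x ∂stdGaussian (EuclideanSpace ℝ (Fin d)) ≤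
      phi0 ^ 3 * m ^ 2 * ‖z j‖ ^ 3 / (3 * l ^ 2 * √W) := fun j hj => by
    have hjn : ∀ i ∈ S, j ≠ i := fun i hi e => mem_compl.1 hj (e ▸ hi)
    have hjU : ⟪z j, U⟫ = ∑ i ∈ S, -⟪z j, z i⟫ := by
      rw [sum_neg_distrib, ← inner_sum, eq_neg_iff_add_eq_zero, ← inner_add_right, hU, dropSum,
        add_comm, sum_add_sum_compl, h.sum_zero, inner_zero_right]
    have hjU0 : 0 ≤ ⟪z j, U⟫ := by
      rw [hjU]; exact sum_nonneg fun i hi => by linarith [h.obtuse j i (hjn i hi)]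
    have hjU1 : ⟪z j, U⟫ ≤ ‖z j‖ ^ 2 := by
      rw [hU, dropSum, inner_sum, ← add_sum_erase _ _ hj, real_inner_self_eq_norm_sq]
      have : ∑ l ∈ Sᶜ.erase j, ⟪z j, z l⟫ ≤ 0 :=
        sum_nonpos fun l hl => (h.obtuse j l (ne_of_mem_erase hl).symm).le
      linarith
    have hle : -⟪z j, z a⟫ + -⟪z j, z b⟫ ≤ ⟪z j, U⟫ := by
      rw [hjU, ← sum_pair (f := fun i => -⟪z j, z i⟫) hab]
      exact sum_le_sum_of_subset_of_nonneg (by simp [Finset.insert_subset_iff, ha, hb])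
        fun i hi _ => by linarith [h.obtuse j i (hjn i hi)]
    refine term_le (z j) _ _ hm3 hl0 N (continuous_maxInner v) (integrable_maxInner v) (hvS a ha)
      (hvS b hb) h3 hN0 (by linarith [h.obtuse j a (hjn a ha)])
      (by linarith [h.obtuse j b (hjn b hb)]) hle ?_ (hxy _ _) (hxy _ _) g0 g1 g2 hW0 hW
    calc ⟪z j, U⟫ ^ 2 ≤ (‖z j‖ ^ 2) ^ 2 := pow_le_pow_left₀ hjU0 hjU1 2
      _ ≤ ε * ‖z j‖ ^ 2 := by
        rw [sq]
        exact mul_le_mul_of_nonneg_right (single_le_sum (f := fun i => ‖z i‖ ^ 2)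
          (fun i _ => sq_nonneg _) hj) (sq_nonneg _)
  have hUterm : ∫ x, max (⟪m⁻¹ • U, x⟫ - (1 - l) * N x) 0
      ∂stdGaussian (EuclideanSpace ℝ (Fin d)) ≤
      phi0 ^ 3 * m ^ 2 * ‖m⁻¹ • U‖ ^ 3 / (3 * (1 - l) ^ 2 * √W) := by
    have hle : -⟪z a, U⟫ + -⟪z b, U⟫ ≤ ‖U‖ ^ 2 := by
      rw [hU, ← sum_inner_kept h, ← sum_pair (f := fun i => -⟪z i, dropSum z S⟫) hab]
      exact sum_le_sum_of_subset_of_nonneg (by simp [Finset.insert_subset_iff, ha, hb])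
        fun i hi _ => by linarith [inner_nonpos_compl h hi]
    have hpa := inner_nonpos_compl h ha
    have hpb := inner_nonpos_compl h hb
    rw [← hU] at hpa hpb
    refine term_le (m⁻¹ • U) _ _ (S := m⁻¹ * ‖U‖ ^ 2) (p := m⁻¹ * -⟪z a, U⟫)
      (q := m⁻¹ * -⟪z b, U⟫) hm3 hl1 N (continuous_maxInner v) (integrable_maxInner v) (hvS a ha)
      (hvS b hb) h3 hN0 (mul_nonneg (by positivity) (by linarith))
      (mul_nonneg (by positivity) (by linarith)) ?_ ?_ ?_ ?_ g0 g1 g2 hW0 hW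
    · rw [← mul_add]; exact mul_le_mul_of_nonneg_left hle (by positivity)
    · rw [norm_smul, mul_pow, mul_pow, Real.norm_eq_abs, sq_abs]
      calc m⁻¹ ^ 2 * (‖U‖ ^ 2) ^ 2 ≤ m⁻¹ ^ 2 * (ε * ‖U‖ ^ 2) := by
            rw [sq (‖U‖ ^ 2)]
            exact mul_le_mul_of_nonneg_left (mul_le_mul_of_nonneg_right hη (sq_nonneg _))
              (sq_nonneg _)
        _ = ε * (m⁻¹ ^ 2 * ‖U‖ ^ 2) := by ring
    · rw [hxy, real_inner_smul_left, real_inner_smul_left, real_inner_self_eq_norm_sq,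
        real_inner_comm (z a) U]
      ring
    · rw [hxy, real_inner_smul_left, real_inner_smul_left, real_inner_self_eq_norm_sq,
        real_inner_comm (z b) U]
      ring
  have hsW : 0 < √W := Real.sqrt_pos.2 hW0
  refine drop_scalar hm0 hε0 hsW (norm_nonneg U) hη hρε ?_
  have hsumT : ∑ j ∈ Sᶜ, ∫ x, P (z j) x ∂stdGaussian (EuclideanSpace ℝ (Fin d)) ≤
      phi0 ^ 3 * m ^ 2 * (ρ * ε) / (3 * l ^ 2 * √W) := by
    refine (sum_le_sum hT).trans ?_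
    rw [← sum_div, ← mul_sum, hε, mul_sum _ _ ρ]
    gcongr ?_ / _
    refine mul_le_mul_of_nonneg_left (sum_le_sum fun j hj => ?_) (by have := phi0_pos; positivity)
    rw [pow_succ', pow_two]
    exact mul_le_mul_of_nonneg_right (hρ j hj) (mul_self_nonneg _)
  have e2 : phi0 ^ 3 * m ^ 2 * (ρ * ε) / (3 * l ^ 2 * √W) +
      phi0 ^ 3 * m ^ 2 * ‖m⁻¹ • U‖ ^ 3 / (3 * (1 - l) ^ 2 * √W) =
      phi0 ^ 3 * (m + 1) ^ 2 / (3 * √W) * (ρ * ε + ‖U‖ ^ 3 / m) := by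
    rw [norm_smul, Real.norm_eq_abs, abs_inv, abs_of_pos hm0, hl,
      show 1 - m / (m + 1) = 1 / (m + 1) by field_simp; ring]
    field_simp
  have := h.gt
  linarith

end Vale.Agent.P226.Full
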