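import Vale.Agent.P226.Full.Drop

/-!
# The drop lemma with explicit determinants
-/

open MeasureTheory ProbabilityTheory Real Set Finset
open scoped RealInnerProductSpace

namespace Vale.Agent.P226.Full

variable {d n : ℕ} {z : Fin (n + 1) → EuclideanSpace ℝ (Fin d)} {S : Finset (Fin (n + 1))}

/-- The drop lemma for at least four kept cells, two of which are singled out. -/
theorem drop_pair (h : Counter z) (hcard : 4 ≤ S.card) (hne : Sᶜ.Nonempty) {a b : Fin (n + 1)}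
    (ha : a ∈ S) (hb : b ∈ S) (hab : a ≠ b) {ρ mx W : ℝ} (hρ : ∀ j ∈ Sᶜ, ‖z j‖ ≤ ρ)
    (hρε : ρ ^ 2 ≤ ∑ j ∈ Sᶜ, ‖z j‖ ^ 2) (hax : ‖z a‖ ^ 2 ≤ mx) (hbx : ‖z b‖ ^ 2 ≤ mx)
    (hW0 : 0 < W)
    (hW : W ≤ ‖z a‖ ^ 2 * ‖z b‖ ^ 2 - ⟪z a, z b⟫ ^ 2 - (∑ j ∈ Sᶜ, ‖z j‖ ^ 2) *
      (9 / 8 * mx - ⟪z a, z b⟫ / 2 + (∑ j ∈ Sᶜ, ‖z j‖ ^ 2) / 8)) :
    9 * π / 2 * √W / ((S.card : ℝ) * ((S.card : ℝ) + 1)) ≤
      ρ + √(∑ j ∈ Sᶜ, ‖z j‖ ^ 2) / S.card := by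
  have hσ : -⟪z a, dropSum z S⟫ + -⟪z b, dropSum z S⟫ ≤ ‖dropSum z S‖ ^ 2 := by
    rw [← sum_inner_kept h, ← sum_pair (f := fun i => -⟪z i, dropSum z S⟫) hab]
    exact sum_le_sum_of_subset_of_nonneg (by simp [Finset.insert_subset_iff, ha, hb])
      fun i hi _ => by linarith [inner_nonpos_compl h hi]
  obtain ⟨Γ, g0, g1, g2, hle⟩ := gram_pair_bound (a := ‖z a‖ ^ 2) (b := ‖z b‖ ^ 2)
    (w := ⟪z a, z b⟫) (m := (S.card : ℝ)) (by exact_mod_cast hcard)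
    (by linarith [inner_nonpos_compl h ha]) (by linarith [inner_nonpos_compl h hb]) hσ
    (norm_dropSum_le h) (inner_neg_le_norm h ha) (inner_neg_le_norm h hb) hax hbx
    (norm_shifted_sq a) (norm_shifted_sq b) (h.obtuse a b hab).le (inner_shifted a b)
    (by
      rw [← mul_pow, sq_le_sq,
        abs_of_nonneg (show 0 ≤ ‖shifted z S a‖ * ‖shifted z S b‖ by positivity)]
      exact abs_real_inner_le_norm _ _)
  exact drop_core h (by omega) hne ha hb hab hρ hρε g0 g1 g2 hW0 (hW.trans hle)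

/-- The drop lemma for three kept cells. -/
theorem drop_triple (h : Counter z) {a b c : Fin (n + 1)} (hab : a ≠ b) (hbc : b ≠ c) (hca : c ≠ a)
    (hne : ({a, b, c} : Finset (Fin (n + 1)))ᶜ.Nonempty) (h1 : ‖z b‖ ≤ ‖z a‖)
    (h2 : ‖z c‖ ≤ ‖z b‖) {ρ W : ℝ}
    (hρ : ∀ j ∈ ({a, b, c} : Finset (Fin (n + 1)))ᶜ, ‖z j‖ ≤ ρ)
    (hρε : ρ ^ 2 ≤ ∑ j ∈ ({a, b, c} : Finset (Fin (n + 1)))ᶜ, ‖z j‖ ^ 2) (hW0 : 0 < W)
    (hW : W ≤ heron (‖z a‖ ^ 2) (‖z b‖ ^ 2) (‖z c‖ ^ 2) -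
      (∑ j ∈ ({a, b, c} : Finset (Fin (n + 1)))ᶜ, ‖z j‖ ^ 2) *
        ((‖z a‖ ^ 2 + ‖z b‖ ^ 2 - ‖z c‖ ^ 2) / 2 +
          2 / 7 * ∑ j ∈ ({a, b, c} : Finset (Fin (n + 1)))ᶜ, ‖z j‖ ^ 2)) :
    9 * π / 2 * √W / 12 ≤
      ρ + √(∑ j ∈ ({a, b, c} : Finset (Fin (n + 1)))ᶜ, ‖z j‖ ^ 2) / 3 := by
  set S : Finset (Fin (n + 1)) := {a, b, c} with hS
  have hcard : S.card = 3 := by simp [hS, hab, hbc, hca.symm]
  have hsum : ∀ {β : Type} [AddCommMonoid β] (f : Fin (n + 1) → β),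
      ∑ i ∈ S, f i = f a + f b + f c := fun f => by
    rw [hS, sum_insert (by simp [hab, hca.symm]), sum_insert (by simp [hbc]), sum_singleton]
    abel
  have ha : a ∈ S := by simp [hS]
  have hb : b ∈ S := by simp [hS]
  have hc : c ∈ S := by simp [hS]
  have hσ := (sum_inner_kept h (S := S))
  rw [hsum] at hσ
  obtain ⟨Γ, g0, g1, g2, hle⟩ := gram_triple_bound (pow_le_pow_left₀ (norm_nonneg _) h1 2)
    (pow_le_pow_left₀ (norm_nonneg _) h2 2) (sq_nonneg _)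
    (σa := -⟪z a, dropSum z S⟫) (σb := -⟪z b, dropSum z S⟫) (σc := -⟪z c, dropSum z S⟫)
    (by linarith [inner_nonpos_compl h ha]) (by linarith [inner_nonpos_compl h hb])
    (by linarith [inner_nonpos_compl h hc]) hσ (norm_dropSum_le h)
    (A := ‖shifted z S a‖ ^ 2) (B := ‖shifted z S b‖ ^ 2) (C := ‖shifted z S c‖ ^ 2)
    (by rw [norm_shifted_sq, hcard]; norm_num) (by rw [norm_shifted_sq, hcard]; norm_num)
    (by rw [norm_shifted_sq, hcard]; norm_num)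
  have hv := sum_shifted h ⟨a, ha⟩
  rw [hsum] at hv
  have hdot : 2 * ⟪shifted z S a, shifted z S b⟫ =
      ‖shifted z S c‖ ^ 2 - ‖shifted z S a‖ ^ 2 - ‖shifted z S b‖ ^ 2 := by
    rw [← norm_neg (shifted z S c), ← eq_neg_of_add_eq_zero_left hv, norm_add_sq_real]
    ring
  have key := drop_core h hcard.ge hne ha hb hab hρ hρε (Γ := Γ) (W := W)
    (by rw [hcard]; push_cast; linarith) (by rw [hcard]; push_cast; linarith)
    (by rw [hcard]; push_cast; linarith) hW0 (hW.trans (hle.trans (le_of_eq ?_)))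
  · rw [hcard] at key
    norm_num at key ⊢
    linarith
  · rw [heron, show ⟪shifted z S a, shifted z S b⟫ =
      (‖shifted z S c‖ ^ 2 - ‖shifted z S a‖ ^ 2 - ‖shifted z S b‖ ^ 2) / 2 by linarith]
    ring

end Vale.Agent.P226.Full
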