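import Vale.Agent.P226.Full.Const
import Vale.Agent.P226.Reduce.Perturb
import Vale.Agent.P226.Tail

/-!
# A three dimensional excess bound
-/

open MeasureTheory ProbabilityTheory Real Set Finset Filter
open scoped RealInnerProductSpace ENNReal

namespace Vale.Agent.P226.Full

variable {d : ℕ}

/-- The lower bound `max (a, b, -(a + b) / n)` for the threshold function. -/
noncomputable def triMax (n a b : ℝ) : ℝ := max (max a b) (-(a + b) / n)

lemma measurable_triMax (n : ℝ) : Measurable fun y : ℝ × ℝ => triMax n y.1 y.2 := by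
  unfold triMax
  fun_prop

lemma triMax_nonneg {n : ℝ} (hn : 0 < n) (a b : ℝ) : 0 ≤ triMax n a b := by
  by_contra h
  simp only [not_le, triMax, max_lt_iff] at h
  have : 0 < -(a + b) / n := div_pos (by linarith [h.1.1, h.1.2]) hn
  linarith [h.2]

lemma lintegral_le_deriv {a b : ℝ} (hab : a ≤ b) {F g : ℝ → ℝ} (hF : ∀ x, HasDerivAt F (g x) x)
    (hg : Continuous g) (h0 : ∀ x ∈ Ioc a b, 0 ≤ g x) :
    ∫⁻ x in Ioc a b, ENNReal.ofReal (g x) = ENNReal.ofReal (F b - F a) := by
  rw [← ofReal_integral_eq_lintegral_ofReal hg.integrableOn_Ioc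
    ((ae_restrict_iff' measurableSet_Ioc).2 (ae_of_all _ h0)),
    ← intervalIntegral.integral_of_le hab,
    intervalIntegral.integral_eq_sub_of_hasDerivAt (fun x _ => hF x) (hg.intervalIntegrable _ _)]

lemma volume_triMax_lt {n u : ℝ} (hn : 0 < n) (hu : 0 ≤ u) :
    volume {y : ℝ × ℝ | triMax n y.1 y.2 < u} ≤ ENNReal.ofReal (((n + 2) * u) ^ 2 / 2) := by
  have hc : -((n + 1) * u) ≤ u := by nlinarith
  rw [Measure.volume_eq_prod,
    Measure.prod_apply (measurableSet_lt (measurable_triMax n) measurable_const)]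
  calc ∫⁻ a, volume (Prod.mk a ⁻¹' {y : ℝ × ℝ | triMax n y.1 y.2 < u})
      ≤ ∫⁻ a, (Ioc (-((n + 1) * u)) u).indicator
          (fun a => ENNReal.ofReal (a + (n + 1) * u)) a := by
        refine lintegral_mono fun a => ?_
        have hsub : Prod.mk a ⁻¹' {y : ℝ × ℝ | triMax n y.1 y.2 < u} ⊆ Ioo (-(n * u) - a) u := by
          intro b hb
          simp only [Set.mem_preimage, Set.mem_ofPred_eq, triMax, max_lt_iff, div_lt_iff₀ hn] at hb
          exact ⟨by linarith [hb.2], hb.1.2⟩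
        by_cases ha : a ∈ Ioc (-((n + 1) * u)) u
        · rw [Set.indicator_of_mem ha]
          refine (measure_mono hsub).trans (le_of_eq ?_)
          rw [Real.volume_Ioo]
          congr 1
          ring
        · rw [Set.indicator_of_notMem ha]
          refine le_of_eq ?_
          have he : Prod.mk a ⁻¹' {y : ℝ × ℝ | triMax n y.1 y.2 < u} = ∅ := by
            refine Set.eq_empty_of_forall_notMem fun b hb => ha ?_
            have h2 := hsub hb
            simp only [Set.mem_preimage, Set.mem_ofPred_eq, triMax, max_lt_iff] at hb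
            exact ⟨by linarith [h2.1, h2.2], hb.1.1.le⟩
          rw [he, measure_empty]
    _ = _ := by
        rw [lintegral_indicator measurableSet_Ioc,
          lintegral_le_deriv hc (F := fun a => (a + (n + 1) * u) ^ 2 / 2)
            (fun x => ?_) (by fun_prop) (fun x hx => by linarith [hx.1])]
        · congr 1
          ring
        · exact ((((hasDerivAt_id x).add_const ((n + 1) * u)).pow 2).div_const 2).congr_deriv
            (by simp)

lemma excess_plane {n l : ℝ} (hn : 0 < n) (hl : 0 < l) (t : ℝ) :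
    ∫⁻ y : ℝ × ℝ, ENNReal.ofReal (t - l * triMax n y.1 y.2) ≤
      ENNReal.ofReal ((n + 2) ^ 2 / (6 * l ^ 2) * max t 0 ^ 3) := by
  have hm := measurable_triMax n
  have e : ∀ y : ℝ × ℝ, ENNReal.ofReal (t - l * triMax n y.1 y.2) =
      ENNReal.ofReal (max (t - l * triMax n y.1 y.2) 0) := fun y => by
    rcases le_total (t - l * triMax n y.1 y.2) 0 with h | h
    · rw [max_eq_right h, ENNReal.ofReal_of_nonpos h, ENNReal.ofReal_zero]
    · rw [max_eq_left h]
  have hf0 : (0 : ℝ × ℝ → ℝ) ≤ᵐ[volume] fun y => max (t - l * triMax n y.1 y.2) 0 :=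
    ae_of_all _ fun y => le_max_right _ _
  have hfm : AEMeasurable (fun y : ℝ × ℝ => max (t - l * triMax n y.1 y.2) 0) volume := by fun_prop
  simp only [e]
  rw [lintegral_eq_lintegral_meas_lt volume hf0 hfm]
  rcases le_total t 0 with ht | ht
  · calc ∫⁻ s in Ioi (0 : ℝ), volume {y : ℝ × ℝ | s < max (t - l * triMax n y.1 y.2) 0}
        ≤ ∫⁻ _ in Ioi (0 : ℝ), 0 := by
          refine setLIntegral_mono' measurableSet_Ioi fun s hs => le_of_eq ?_
          refine measure_mono_null (fun y hy => ?_) measure_empty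
          simp only [Set.mem_ofPred_eq, lt_max_iff] at hy
          have := mul_nonneg hl.le (triMax_nonneg hn y.1 y.2)
          rcases hy with hy | hy <;> linarith [Set.mem_Ioi.1 hs]
      _ ≤ _ := by simp
  rw [max_eq_left ht]
  calc ∫⁻ s in Ioi (0 : ℝ), volume {y : ℝ × ℝ | s < max (t - l * triMax n y.1 y.2) 0}
      ≤ ∫⁻ s in Ioi (0 : ℝ), (Ioc 0 t).indicator
          (fun s => ENNReal.ofReal ((n + 2) ^ 2 / (2 * l ^ 2) * (t - s) ^ 2)) s := by
        refine setLIntegral_mono' measurableSet_Ioi fun s hs => ?_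
        have hsub : {y : ℝ × ℝ | s < max (t - l * triMax n y.1 y.2) 0} ⊆
            {y : ℝ × ℝ | triMax n y.1 y.2 < (t - s) / l} := fun y hy => by
          simp only [Set.mem_ofPred_eq, lt_max_iff] at hy ⊢
          rw [lt_div_iff₀ hl]
          rcases hy with hy | hy <;> linarith [Set.mem_Ioi.1 hs]
        by_cases hst : s ≤ t
        · rw [Set.indicator_of_mem (Set.mem_Ioc.2 ⟨Set.mem_Ioi.1 hs, hst⟩)]
          refine (measure_mono hsub).trans ((volume_triMax_lt hn
            (div_nonneg (by linarith) hl.le)).trans (le_of_eq ?_))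
          congr 1
          field_simp
        · rw [Set.indicator_of_notMem fun h => hst h.2]
          refine le_of_eq (measure_mono_null hsub ?_)
          refine measure_mono_null (fun y hy => ?_) measure_empty
          have h1 := triMax_nonneg hn y.1 y.2
          have h2 : (t - s) / l < 0 := div_neg_of_neg_of_pos (by linarith) hl
          simp only [Set.mem_ofPred_eq] at hy
          linarith
    _ ≤ ∫⁻ s, (Ioc 0 t).indicator
          (fun s => ENNReal.ofReal ((n + 2) ^ 2 / (2 * l ^ 2) * (t - s) ^ 2)) s :=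
        setLIntegral_le_lintegral _ _
    _ = _ := by
        rw [lintegral_indicator measurableSet_Ioc,
          lintegral_le_deriv ht
            (F := fun s => (n + 2) ^ 2 / (2 * l ^ 2) * (-((t - s) ^ 3) / 3))
            (fun x => ?_) (by fun_prop) (fun x _ => by positivity)]
        · congr 1
          field_simp
          ring
        · exact ((((((hasDerivAt_id x).const_sub t).pow 3).neg).div_const 3).const_mul _).congr_deriv
            (by simp)

lemma lintegral_gaussianReal_le {f : ℝ → ℝ≥0∞} (hf : Measurable f) :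
    ∫⁻ x, f x ∂gaussianReal 0 1 ≤ ENNReal.ofReal phi0 * ∫⁻ x, f x := by
  rw [gaussianReal_of_var_ne_zero 0 one_ne_zero,
    lintegral_withDensity_eq_lintegral_mul _ (measurable_gaussianPDF _ _) hf,
    ← lintegral_const_mul _ hf]
  refine lintegral_mono fun x => mul_le_mul' (ENNReal.ofReal_le_ofReal ?_) le_rfl
  rw [pdf_eq]
  refine mul_le_of_le_one_right phi0_pos.le (Real.exp_le_one_iff.2 ?_)
  nlinarith [sq_nonneg x]

lemma lintegral_affine {b : ℝ} (hb : 0 < b) (a : ℝ) {f : ℝ → ℝ≥0∞} (hf : Measurable f) :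
    ∫⁻ x, f (a + b * x) = ENNReal.ofReal b⁻¹ * ∫⁻ y, f y := by
  have h := lintegral_map (μ := (volume : Measure ℝ)) (f := fun y => f (a + y))
    (g := fun x => b * x) (by fun_prop) (by fun_prop)
  rw [Real.map_volume_mul_left hb.ne', lintegral_smul_measure, lintegral_add_left_eq_self,
    abs_of_pos (inv_pos.2 hb), smul_eq_mul] at h
  exact h.symm

lemma lintegral_plane_gauss_le {b1 c2 : ℝ} (hb : 0 < b1) (hc : 0 < c2) (p q b2 : ℝ)
    {G : ℝ × ℝ → ℝ≥0∞} (hG : Measurable G) :
    ∫⁻ u, G (p + b1 * u.1, q + b2 * u.1 + c2 * u.2) ∂(gaussianReal 0 1).prod (gaussianReal 0 1) ≤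
      ENNReal.ofReal (phi0 ^ 2 / (b1 * c2)) * ∫⁻ y, G y := by
  rw [lintegral_prod _ (by fun_prop)]
  have h1 : ∀ a : ℝ, ∫⁻ c, G (p + b1 * a, q + b2 * a + c2 * c) ∂gaussianReal 0 1 ≤
      ENNReal.ofReal phi0 * (ENNReal.ofReal c2⁻¹ * ∫⁻ y, G (p + b1 * a, y)) := fun a => by
    refine (lintegral_gaussianReal_le (by fun_prop)).trans (le_of_eq ?_)
    rw [lintegral_affine hc (q + b2 * a) (f := fun y => G (p + b1 * a, y)) (by fun_prop)]
  have hGm : Measurable fun s : ℝ => ∫⁻ y, G (s, y) := hG.lintegral_prod_right'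
  refine (lintegral_mono h1).trans ?_
  rw [lintegral_const_mul _ (by fun_prop), lintegral_const_mul _ (by fun_prop)]
  refine (mul_le_mul_right (mul_le_mul_right (lintegral_gaussianReal_le (f := fun a =>
    ∫⁻ y, G (p + b1 * a, y)) (by fun_prop)) _) _).trans (le_of_eq ?_)
  rw [lintegral_affine hb p hGm, Measure.volume_eq_prod, lintegral_prod _ hG.aemeasurable]
  simp only [← mul_assoc]
  congr 1
  rw [← ENNReal.ofReal_mul phi0_pos.le, ← ENNReal.ofReal_mul (by positivity [phi0_pos]),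
    ← ENNReal.ofReal_mul (by positivity [phi0_pos])]
  congr 1
  field_simp

lemma tendsto_cube_gauss :
    Tendsto (fun x : ℝ => -((x ^ 2 + 2) * exp (-(1 / 2) * x ^ 2))) atTop (nhds 0) := by
  have hu : Tendsto (fun x : ℝ => x ^ 2 / 2) atTop atTop :=
    (tendsto_pow_atTop (by norm_num)).atTop_div_const (by norm_num)
  have h1 := ((tendsto_pow_mul_exp_neg_atTop_nhds_zero 1).comp hu).const_mul 2
  have h0 := ((tendsto_pow_mul_exp_neg_atTop_nhds_zero 0).comp hu).const_mul 2
  have h := (h1.add h0).neg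
  simp only [mul_zero, add_zero, neg_zero] at h
  refine h.congr fun x => ?_
  simp only [Function.comp_apply]
  rw [show -(1 / 2 : ℝ) * x ^ 2 = -(x ^ 2 / 2) by ring]
  ring

lemma lintegral_cube_le {s : ℝ} (hs : 0 ≤ s) :
    ∫⁻ x, ENNReal.ofReal (max (s * x) 0 ^ 3) ∂gaussianReal 0 1 ≤
      ENNReal.ofReal (2 * phi0 * s ^ 3) := by
  set g : ℝ → ℝ := fun x => phi0 * s ^ 3 * (x ^ 3 * exp (-(1 / 2) * x ^ 2)) with hgdef
  have hd : ∀ x ∈ Ici (0 : ℝ),
      HasDerivAt (fun x => phi0 * s ^ 3 * -((x ^ 2 + 2) * exp (-(1 / 2) * x ^ 2))) (g x) x := by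
    intro x _
    have h := (((hasDerivAt_pow 2 x).add_const (2 : ℝ)).mul
      (((hasDerivAt_pow 2 x).const_mul (-(1 / 2 : ℝ))).exp)).neg.const_mul (phi0 * s ^ 3)
    exact h.congr_deriv (by simp only [hgdef]; push_cast; ring)
  have hg0 : ∀ x ∈ Ioi (0 : ℝ), 0 ≤ g x := fun x hx => by
    have := phi0_pos
    have : 0 < x := hx
    positivity
  have hl := (tendsto_cube_gauss.const_mul (phi0 * s ^ 3))
  rw [mul_zero] at hl
  have hi := integrableOn_Ioi_deriv_of_nonneg' hd hg0 hl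
  have hv := integral_Ioi_of_hasDerivAt_of_nonneg' hd hg0 hl
  rw [gaussianReal_of_var_ne_zero 0 one_ne_zero,
    lintegral_withDensity_eq_lintegral_mul _ (measurable_gaussianPDF _ _) (by fun_prop)]
  calc ∫⁻ x, (gaussianPDF 0 1 * fun x => ENNReal.ofReal (max (s * x) 0 ^ 3)) x
      = ∫⁻ x, (Ioi (0 : ℝ)).indicator (fun x => ENNReal.ofReal (g x)) x := by
        refine lintegral_congr fun x => ?_
        rw [Pi.mul_apply, gaussianPDF, ← ENNReal.ofReal_mul (gaussianPDFReal_nonneg _ _ _)]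
        by_cases hx : 0 < x
        · rw [Set.indicator_of_mem (Set.mem_Ioi.2 hx), max_eq_left (mul_nonneg hs hx.le), pdf_eq]
          congr 1
          simp only [hgdef, phi0]
          ring
        · rw [Set.indicator_of_notMem (fun h => hx (Set.mem_Ioi.1 h)),
            max_eq_right (mul_nonpos_of_nonneg_of_nonpos hs (not_lt.1 hx))]
          simp
    _ = ENNReal.ofReal (∫ x in Ioi (0 : ℝ), g x) := by
        rw [lintegral_indicator measurableSet_Ioi, ofReal_integral_eq_lintegral_ofReal hi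
          ((ae_restrict_iff' measurableSet_Ioi).2 (ae_of_all _ hg0))]
    _ ≤ _ := by
        rw [hv]
        refine le_of_eq ?_
        congr 1
        simp
        ring

lemma map_stdGaussian_three :
    (stdGaussian (EuclideanSpace ℝ (Fin 3))).map (fun x => (x 0, (x 1, x 2))) =
      (gaussianReal 0 1).prod ((gaussianReal 0 1).prod (gaussianReal 0 1)) := by
  rw [← map_pi_eq_stdGaussian, Measure.map_map (by fun_prop) (by fun_prop)]
  have h1 := measurePreserving_piFinSuccAbove (fun _ : Fin 3 => gaussianReal 0 1) 0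
  have h2 := measurePreserving_piFinTwo (fun _ : Fin 2 => gaussianReal 0 1)
  exact (((MeasurePreserving.id (gaussianReal 0 1)).prod h2).comp h1).map_eq

lemma inner_three (a b c a' b' c' : ℝ) :
    ⟪(!₂[a, b, c] : EuclideanSpace ℝ (Fin 3)), !₂[a', b', c']⟫ = a * a' + b * b' + c * c' := by
  simp [PiLp.inner_apply, Fin.sum_univ_three, mul_comm]

lemma gram_three {w va vb : EuclideanSpace ℝ (Fin d)} {s a1 a2 b1 b2 c2 : ℝ}
    (e00 : ⟪w, w⟫ = s * s) (e01 : s * a1 = ⟪w, va⟫) (e02 : s * a2 = ⟪w, vb⟫)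
    (e11 : ⟪va, va⟫ = a1 ^ 2 + b1 ^ 2) (e12 : ⟪va, vb⟫ = a1 * a2 + b1 * b2)
    (e22 : ⟪vb, vb⟫ = a2 ^ 2 + b2 ^ 2 + c2 ^ 2) (i j : Fin 3) :
    ⟪(![w, va, vb] : Fin 3 → EuclideanSpace ℝ (Fin d)) i, ![w, va, vb] j⟫ =
      ⟪(![!₂[s, 0, 0], !₂[a1, b1, 0], !₂[a2, b2, c2]] : Fin 3 → EuclideanSpace ℝ (Fin 3)) i,
        ![!₂[s, 0, 0], !₂[a1, b1, 0], !₂[a2, b2, c2]] j⟫ := by
  have f01 : ⟪va, w⟫ = s * a1 := by rw [real_inner_comm, e01]
  have f02 : ⟪vb, w⟫ = s * a2 := by rw [real_inner_comm, e02]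
  have f12 : ⟪vb, va⟫ = a1 * a2 + b1 * b2 := by rw [real_inner_comm, e12]
  fin_cases i <;> fin_cases j <;> dsimp <;> simp only [inner_three] <;>
    first
      | linear_combination e00
      | linear_combination -e01
      | linear_combination -e02
      | linear_combination f01
      | linear_combination f02
      | linear_combination e11
      | linear_combination e12
      | linear_combination f12
      | linear_combination e22

/-- The excess of one Gaussian over the maximum of three others. -/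
theorem tri_excess_le (w va vb : EuclideanSpace ℝ (Fin d)) {n l D : ℝ} (hn : 0 < n) (hl : 0 < l)
    (hD : 0 < D)
    (hdet : D ^ 2 ≤ ‖w‖ ^ 2 * (‖va‖ ^ 2 * ‖vb‖ ^ 2 - ⟪va, vb⟫ ^ 2) -
      (‖vb‖ ^ 2 * ⟪w, va⟫ ^ 2 - 2 * ⟪va, vb⟫ * ⟪w, va⟫ * ⟪w, vb⟫ + ‖va‖ ^ 2 * ⟪w, vb⟫ ^ 2))
    (N : EuclideanSpace ℝ (Fin d) → ℝ) (hN : Continuous N)
    (hNi : Integrable N (stdGaussian (EuclideanSpace ℝ (Fin d))))
    (h1 : ∀ x, ⟪va, x⟫ ≤ N x) (h2 : ∀ x, ⟪vb, x⟫ ≤ N x) (h3 : ∀ x, -⟪va + vb, x⟫ ≤ n * N x) :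
    ∫ x, max (⟪w, x⟫ - l * N x) 0 ∂stdGaussian (EuclideanSpace ℝ (Fin d)) ≤
      phi0 ^ 3 * (n + 2) ^ 2 * ‖w‖ ^ 4 / (3 * l ^ 2 * D) := by
  have hphi := phi0_pos
  set A := ‖va‖ ^ 2 with hA
  set B := ‖vb‖ ^ 2 with hB
  set P := ⟪w, va⟫ with hP
  set Q := ⟪w, vb⟫ with hQ
  set R := ⟪va, vb⟫ with hR
  set s := ‖w‖ with hs
  have hD2 : 0 < D ^ 2 := pow_pos hD 2
  have hs0 : 0 < s := by
    rcases (norm_nonneg w).lt_or_eq with h | h
    · exact h
    · have hw : w = 0 := norm_eq_zero.1 h.symm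
      simp [hs, hP, hQ, hw] at hdet
      linarith
  set a1 := P / s with ha1
  set a2 := Q / s with ha2
  have key : D ^ 2 ≤ s ^ 2 * ((A - a1 ^ 2) * (B - a2 ^ 2) - (R - a1 * a2) ^ 2) := by
    have : s ^ 2 * ((A - a1 ^ 2) * (B - a2 ^ 2) - (R - a1 * a2) ^ 2) =
        s ^ 2 * (A * B - R ^ 2) - (B * P ^ 2 - 2 * R * P * Q + A * Q ^ 2) := by
      rw [ha1, ha2]
      field_simp
      ring
    linarith
  have hA0 : 0 ≤ A - a1 ^ 2 := by
    rw [ha1, div_pow, sub_nonneg, div_le_iff₀ (pow_pos hs0 2), hA, ← mul_pow, hP, hs, mul_comm,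
      ← sq_abs]
    exact pow_le_pow_left₀ (abs_nonneg _) (abs_real_inner_le_norm _ _) 2
  have hA1 : 0 < A - a1 ^ 2 := by
    rcases hA0.lt_or_eq with h | h
    · exact h
    · rw [← h] at key
      nlinarith [mul_nonneg (sq_nonneg s) (sq_nonneg (R - a1 * a2))]
  set b1 := √(A - a1 ^ 2) with hb1
  have hb1p : 0 < b1 := Real.sqrt_pos.2 hA1
  have hb1s : b1 ^ 2 = A - a1 ^ 2 := Real.sq_sqrt hA0
  set b2 := (R - a1 * a2) / b1 with hb2
  have hb12 : b1 * b2 = R - a1 * a2 := by rw [hb2]; field_simp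
  have hC : D ^ 2 ≤ s ^ 2 * b1 ^ 2 * (B - a2 ^ 2 - b2 ^ 2) := by
    rw [← hb12, ← hb1s] at key
    linarith
  have hC0 : 0 < B - a2 ^ 2 - b2 ^ 2 := by
    by_contra h
    nlinarith [mul_nonneg (mul_nonneg (sq_nonneg s) (sq_nonneg b1)) (sub_nonneg.2 (not_lt.1 h))]
  set c2 := √(B - a2 ^ 2 - b2 ^ 2) with hc2
  have hc2p : 0 < c2 := Real.sqrt_pos.2 hC0
  have hc2s : c2 ^ 2 = B - a2 ^ 2 - b2 ^ 2 := Real.sq_sqrt hC0.le
  have hDle : D ≤ s * b1 * c2 := by
    refine le_of_pow_le_pow_left₀ two_ne_zero (by positivity) ?_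
    rw [mul_pow, mul_pow, hc2s]
    exact hC
  let z : Fin 3 → EuclideanSpace ℝ (Fin d) := ![w, va, vb]
  let z' : Fin 3 → EuclideanSpace ℝ (Fin 3) := ![!₂[s, 0, 0], !₂[a1, b1, 0], !₂[a2, b2, c2]]
  have hP' : s * a1 = P := by rw [ha1]; field_simp
  have hQ' : s * a2 = Q := by rw [ha2]; field_simp
  have hg : ∀ i j, ⟪z i, z j⟫ = ⟪z' i, z' j⟫ :=
    gram_three (by rw [real_inner_self_eq_norm_sq, ← hs]; ring) hP' hQ'
      (by rw [real_inner_self_eq_norm_sq, ← hA]; linarith)
      (by rw [← hR]; linarith) (by rw [real_inner_self_eq_norm_sq, ← hB]; linarith)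
  let Φ : EuclideanSpace ℝ (Fin 3) → ℝ≥0∞ :=
    fun y => ENNReal.ofReal (y 0 - l * triMax n (y 1) (y 2))
  have hΦ : Measurable Φ := by
    unfold Φ triMax
    fun_prop
  let G : ℝ → ℝ × ℝ → ℝ≥0∞ := fun t y => ENNReal.ofReal (t - l * triMax n y.1 y.2)
  have hGm : Measurable fun p : ℝ × ℝ × ℝ =>
      G (s * p.1) (a1 * p.1 + b1 * p.2.1, a2 * p.1 + b2 * p.2.1 + c2 * p.2.2) := by
    unfold G triMax
    fun_prop
  have hfin : ∫⁻ x, ENNReal.ofReal (max (⟪w, x⟫ - l * N x) 0)
      ∂stdGaussian (EuclideanSpace ℝ (Fin d)) ≤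
      ENNReal.ofReal (phi0 ^ 3 * (n + 2) ^ 2 * s ^ 4 / (3 * l ^ 2 * D)) :=
    calc _ ≤ ∫⁻ x, Φ (coordMap z x) ∂stdGaussian (EuclideanSpace ℝ (Fin d)) := by
          refine lintegral_mono fun x => ?_
          have hM : triMax n ⟪va, x⟫ ⟪vb, x⟫ ≤ N x := by
            refine max_le (max_le (h1 x) (h2 x)) ?_
            rw [div_le_iff₀ hn]
            have := h3 x
            rw [inner_add_left] at this
            linarith
          have hle : ⟪w, x⟫ - l * N x ≤ ⟪w, x⟫ - l * triMax n ⟪va, x⟫ ⟪vb, x⟫ := by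
            linarith [mul_le_mul_of_nonneg_left hM hl.le]
          rcases le_total (⟪w, x⟫ - l * N x) 0 with h | h
          · rw [max_eq_right h, ENNReal.ofReal_zero]
            exact zero_le
          · rw [max_eq_left h]
            simpa [Φ, z] using ENNReal.ofReal_le_ofReal hle
      _ = ∫⁻ x, Φ (coordMap z' x) ∂stdGaussian (EuclideanSpace ℝ (Fin 3)) := by
          rw [← lintegral_map hΦ (continuous_coordMap z).measurable,
            ← lintegral_map hΦ (continuous_coordMap z').measurable, map_coordMap_eq hg]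
      _ = ∫⁻ p, G (s * p.1) (a1 * p.1 + b1 * p.2.1, a2 * p.1 + b2 * p.2.1 + c2 * p.2.2)
          ∂(gaussianReal 0 1).prod ((gaussianReal 0 1).prod (gaussianReal 0 1)) := by
          rw [← map_stdGaussian_three, lintegral_map hGm (by fun_prop)]
          refine lintegral_congr fun x => ?_
          simp [Φ, G, z', PiLp.inner_apply, Fin.sum_univ_three, mul_comm]
      _ ≤ ∫⁻ a, ENNReal.ofReal (phi0 ^ 2 / (b1 * c2) * ((n + 2) ^ 2 / (6 * l ^ 2)))
            * ENNReal.ofReal (max (s * a) 0 ^ 3) ∂gaussianReal 0 1 := by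
          rw [lintegral_prod _ hGm.aemeasurable]
          refine lintegral_mono fun a => ?_
          have hm : Measurable (G (s * a)) := by
            unfold G triMax
            fun_prop
          refine (lintegral_plane_gauss_le hb1p hc2p (a1 * a) (a2 * a) b2 hm).trans ?_
          refine (mul_le_mul_right (excess_plane hn hl (s * a)) _).trans (le_of_eq ?_)
          rw [← ENNReal.ofReal_mul (by positivity), ← ENNReal.ofReal_mul (by positivity)]
          congr 1
          ring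
      _ ≤ ENNReal.ofReal (phi0 ^ 2 / (b1 * c2) * ((n + 2) ^ 2 / (6 * l ^ 2)))
            * ENNReal.ofReal (2 * phi0 * s ^ 3) := by
          rw [lintegral_const_mul _ (by fun_prop)]
          exact mul_le_mul_right (lintegral_cube_le hs0.le) _
      _ ≤ _ := by
          rw [← ENNReal.ofReal_mul (by positivity)]
          refine ENNReal.ofReal_le_ofReal ?_
          calc phi0 ^ 2 / (b1 * c2) * ((n + 2) ^ 2 / (6 * l ^ 2)) * (2 * phi0 * s ^ 3)
              = phi0 ^ 3 * (n + 2) ^ 2 * s ^ 4 / (3 * l ^ 2 * (s * b1 * c2)) := by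
                field_simp
                ring
            _ ≤ _ := by gcongr
  have hint : Continuous fun x => max (⟪w, x⟫ - l * N x) 0 := by fun_prop
  have hnn : (0 : EuclideanSpace ℝ (Fin d) → ℝ) ≤ᵐ[stdGaussian (EuclideanSpace ℝ (Fin d))]
      fun x => max (⟪w, x⟫ - l * N x) 0 := ae_of_all _ fun x => le_max_right _ _
  rw [integral_eq_lintegral_of_nonneg_ae hnn hint.aestronglyMeasurable]
  exact ENNReal.toReal_le_of_le_ofReal (by positivity) hfin

end Vale.Agent.P226.Full
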