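import Vale.Agent.P226.Full.Cap

/-!
# Four cells, none of them small
-/

open MeasureTheory ProbabilityTheory Real Set Finset
open scoped RealInnerProductSpace

namespace Vale.Agent.P226.Full

/-- Four cells with `1 - 3/2 |z i| ≤ .7247²` cannot beat the propeller. -/
theorem four_regular {z : Fin (3 + 1) → EuclideanSpace ℝ (Fin (3 + 1))} {r : ℝ} (h : Extremal z r)
    (hr : propC < r) (hpos : ∀ i, 101 / 1000 ≤ ‖z i‖ ^ 2) (hle : ∀ i, ‖z i‖ ≤ 2 / 3)
    (hp : ∑ i, (stdGaussian _).real (argCell z i) = 1) : False := by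
  set s : Fin 4 → ℝ := fun i => √(1 - 3 / 2 * ‖z i‖) with hs
  have key : ∀ i, (1 - s i) / 2 ≤ (stdGaussian _).real (argCell z i) ∧
      ‖z i‖ ^ 2 * (9 / 4) ≤ 9 / 16 - 3 / 2 * (s i - 1 / 2) := fun i => by
    have hn : (0 : ℝ) ≤ 1 - 3 / 2 * ‖z i‖ := by linarith [hle i]
    have hsq : s i ^ 2 = 1 - 3 / 2 * ‖z i‖ := Real.sq_sqrt hn
    have hs0 : 0 ≤ s i := Real.sqrt_nonneg _
    have hx : 317 / 1000 ≤ ‖z i‖ :=
      le_of_sq_le_sq ((by norm_num : ((317 : ℝ) / 1000) ^ 2 ≤ 101 / 1000).trans (hpos i))
        (norm_nonneg _)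
    have hs1 : s i ≤ 7247 / 10000 := by
      refine le_of_sq_le_sq ?_ (by norm_num)
      rw [hsq]
      linarith
    have hx2 : ‖z i‖ = 2 / 3 * (1 - s i ^ 2) := by rw [hsq]; ring
    refine ⟨?_, ?_⟩
    · rcases hs0.eq_or_lt with e | e
      · -- no room: the threshold `τ = 0` already contradicts `propC < r`
        have h0 := cap_bound_three h (propC_pos.trans hr) le_rfl i le_rfl zero_le_one
        have hx3 : ‖z i‖ = 2 / 3 := by rw [hx2, ← e]; ring
        rw [hx3] at h0
        have : phi0 * (1 - 0) ^ 2 + 0 * (4 * phi0) *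
            (stdGaussian _).real (argCell z i) = phi0 := by ring
        rw [this] at h0
        have : propC * (2 / 3) < r * (2 / 3) := mul_lt_mul_of_pos_right hr (by norm_num)
        rw [propC] at this
        linarith
      have h0 := cap_bound_three h (propC_pos.trans hr) le_rfl i hs0 (by linarith)
      have h1 : propC * ‖z i‖ ≤ r * ‖z i‖ := mul_le_mul_of_nonneg_right hr.le (norm_nonneg _)
      have h2 : phi0 * (1 - s i ^ 2) ≤ phi0 * ((1 - s i) ^ 2 +
          4 * s i * (stdGaussian _).real (argCell z i)) := by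
        rw [propC] at h1
        have e2 : 3 / 2 * phi0 * ‖z i‖ = phi0 * (1 - s i ^ 2) := by rw [hx2]; ring
        linarith
      have h3 := le_of_mul_le_mul_left h2 phi0_pos
      refine le_of_mul_le_mul_left ?_ (show 0 < 4 * s i by positivity)
      linarith
    · have hfac : s i ^ 2 + s i - 5 / 4 ≤ 0 := by nlinarith
      have := mul_nonpos_of_nonneg_of_nonpos (sq_nonneg (s i - 1 / 2)) hfac
      rw [hx2]
      linarith
  have hsum : 2 ≤ ∑ i, s i := by
    have := (Finset.sum_le_sum fun i (_ : i ∈ Finset.univ) => (key i).1).trans_eq hp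
    simp only [← Finset.sum_div, Finset.sum_sub_distrib, Finset.sum_const, Finset.card_univ,
      Fintype.card_fin, nsmul_eq_mul] at this
    norm_num at this
    linarith
  have hle2 := Finset.sum_le_sum fun i (_ : i ∈ Finset.univ) => (key i).2
  have e1 : ∑ i, ‖z i‖ ^ 2 * (9 / 4 : ℝ) = 9 / 4 := by
    rw [← Finset.sum_mul, h.norm_one, one_mul]
  rw [e1] at hle2
  simp only [Finset.sum_sub_distrib, ← Finset.mul_sum, Finset.sum_const, Finset.card_univ,
    Fintype.card_fin, nsmul_eq_mul] at hle2
  norm_num at hle2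
  -- equality would need every cell regular; the bound is then strict
  have hall : ∑ i, s i = 2 := by linarith
  have hz : ∀ i, s i = 1 / 2 := by
    intro i
    by_contra hne
    have hlt : ‖z i‖ ^ 2 * (9 / 4) < 9 / 16 - 3 / 2 * (s i - 1 / 2) := by
      have hn : (0 : ℝ) ≤ 1 - 3 / 2 * ‖z i‖ := by linarith [hle i]
      have hsq : s i ^ 2 = 1 - 3 / 2 * ‖z i‖ := Real.sq_sqrt hn
      have hx : 317 / 1000 ≤ ‖z i‖ :=
        le_of_sq_le_sq ((by norm_num : ((317 : ℝ) / 1000) ^ 2 ≤ 101 / 1000).trans (hpos i))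
          (norm_nonneg _)
      have hs1 : s i ≤ 7247 / 10000 := by
        refine le_of_sq_le_sq ?_ (by norm_num)
        rw [hsq]
        linarith
      have hfac : s i ^ 2 + s i - 5 / 4 < 0 := by
        nlinarith [Real.sqrt_nonneg (1 - 3 / 2 * ‖z i‖)]
      have := mul_neg_of_pos_of_neg
        (lt_of_le_of_ne (sq_nonneg (s i - 1 / 2)) (Ne.symm (pow_ne_zero 2 (sub_ne_zero.2 hne))))
        hfac
      rw [show ‖z i‖ = 2 / 3 * (1 - s i ^ 2) by rw [hsq]; ring]
      linarith
    have := Finset.sum_lt_sum (fun j _ => (key j).2) ⟨i, Finset.mem_univ i, hlt⟩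
    rw [e1] at this
    simp only [Finset.sum_sub_distrib, ← Finset.mul_sum, Finset.sum_const, Finset.card_univ,
      Fintype.card_fin, nsmul_eq_mul] at this
    norm_num at this
    linarith
  -- all norms equal one half, so the strict bound gives cell measures above one quarter
  have hstrict : ∀ i, (1 : ℝ) / 4 < (stdGaussian _).real (argCell z i) := fun i => by
    have h0 := cap_bound_three h (propC_pos.trans hr) le_rfl i (τ := 1 / 2) (by norm_num)
      (by norm_num)
    have hx : ‖z i‖ = 1 / 2 := by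
      have := hz i
      simp only [hs] at this
      have h2 := congrArg (fun t => t ^ 2) this
      simp only [Real.sq_sqrt (show (0 : ℝ) ≤ 1 - 3 / 2 * ‖z i‖ by linarith [hle i])] at h2
      linarith
    rw [hx] at h0
    have hphi := phi0_pos
    have : propC * (1 / 2) < r * (1 / 2) := mul_lt_mul_of_pos_right hr (by norm_num)
    rw [propC] at this
    by_contra hc
    push Not at hc
    have := mul_le_mul_of_nonneg_left hc hphi.le
    linarith
  have := Finset.sum_lt_sum_of_nonempty (Finset.univ_nonempty (α := Fin (3 + 1)))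
    fun i _ => hstrict i
  rw [hp] at this
  simp at this

end Vale.Agent.P226.Full
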