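import Vale.Agent.P226.Cert.Four
import Vale.Agent.P226.Cert.Five
import Vale.Agent.P226.Cert.Six
import Vale.Agent.P226.Cert.Eight
import Vale.Agent.P226.Cert.Ten
import Vale.Agent.P226.Cert.Many
import Vale.Agent.P226.Full.Cap
import Vale.Agent.P226.Full.CapNine

/-!
# Linear lower bounds for the cell measures of a counterexample
-/

open MeasureTheory ProbabilityTheory Real Set Finset
open scoped RealInnerProductSpace

namespace Vale.Agent.P226.Full

variable {k : ℕ}

lemma sqrt_two_pi_bounds :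
    (2506628 : ℝ) / 1000000 ≤ √(2 * π) ∧ √(2 * π) ≤ 2506629 / 1000000 := by
  constructor
  · refine Real.le_sqrt_of_sq_le ?_
    linarith [Real.pi_gt_d6]
  · rw [Real.sqrt_le_left (by norm_num)]
    linarith [Real.pi_lt_d6]

lemma phi0_bounds : (398942 : ℝ) / 1000000 ≤ phi0 ∧ phi0 ≤ 398943 / 1000000 := by
  obtain ⟨h1, h2⟩ := sqrt_two_pi_bounds
  have h0 : 0 < √(2 * π) := by positivity
  unfold phi0
  constructor
  · rw [le_inv_comm₀ (by norm_num) h0]
    exact h2.trans (by norm_num)
  · rw [inv_le_comm₀ h0 (by norm_num)]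
    exact le_trans (by norm_num) h1

lemma propC_ge : (598413 : ℝ) / 1000000 ≤ propC := by
  rw [propC]
  linarith [phi0_bounds.1]

/-- A linear bound from a threshold inequality. -/
lemma cap_line {x p r G T N u v : ℝ} (hx : 0 ≤ x) (hp : 0 ≤ p) (hr : propC < r) (hT : 0 < T)
    (hN : 0 < N) (h : r * x ≤ G + T * N * p) {Gu Nu : ℝ} (hG : G ≤ Gu) (hNu : N ≤ Nu)
    (hu : u * (T * Nu) ≤ 598413 / 1000000) (hv : v * (T * Nu) ≤ -Gu) : u * x + v ≤ p := by
  have hTN : 0 < T * Nu := mul_pos hT (hN.trans_le hNu)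
  refine le_of_mul_le_mul_left ?_ hTN
  have h1 : 598413 / 1000000 * x ≤ r * x :=
    mul_le_mul_of_nonneg_right (propC_ge.trans hr.le) hx
  have h2 : T * N * p ≤ T * Nu * p := by gcongr
  have h3 := mul_le_mul_of_nonneg_right hu hx
  linarith

/-- Linear bounds from the shift bound. -/
lemma shift_line {u v x p : ℝ} (hp : 0 ≤ p) (hx : 0 ≤ x) (hx1 : x ≤ 2 / 3)
    (h : propC ^ 2 * (x ^ 2 / 2) * (1 + x ^ 2 / 4) ≤ p ^ 2)
    (hu : u = 4231 / 10000 ∧ v = 0 ∨ u = 437247 / 1000000 ∧ v = -(113 / 40000) ∨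
      u = 224037 / 500000 ∧ v = -(6639 / 1000000) ∨ u = 455959 / 1000000 ∧ v = -(5017 / 500000)) :
    u * x + v ≤ p := by
  rcases le_or_gt (u * x + v) 0 with h0 | h0
  · linarith
  refine le_of_sq_le_sq (le_trans ?_ h) hp
  have hC : (358098 : ℝ) / 1000000 ≤ propC ^ 2 := by
    rw [propC_sq, le_div_iff₀ (by positivity)]
    linarith [Real.pi_lt_d6]
  refine le_trans ?_ (mul_le_mul_of_nonneg_right (mul_le_mul_of_nonneg_right hC (by positivity))
    (by positivity))
  rcases hu with ⟨rfl, rfl⟩ | ⟨rfl, rfl⟩ | ⟨rfl, rfl⟩ | ⟨rfl, rfl⟩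
  · nlinarith [sq_nonneg x, mul_nonneg (sq_nonneg x) (sq_nonneg x)]
  · nlinarith [sq_nonneg (x - 3 / 10), sq_nonneg (x ^ 2 - 9 / 100),
      mul_nonneg hx (sq_nonneg (x - 3 / 10))]
  · nlinarith [sq_nonneg (x - 4 / 10), sq_nonneg (x ^ 2 - 16 / 100),
      mul_nonneg hx (sq_nonneg (x - 4 / 10))]
  · nlinarith [sq_nonneg (x - 46 / 100), sq_nonneg (x ^ 2 - (46 / 100) ^ 2),
      mul_nonneg hx (sq_nonneg (x - 46 / 100))]

variable {z : Fin (k + 1) → EuclideanSpace ℝ (Fin (k + 1))} {r : ℝ}

lemma propC_pos' (hr : propC < r) : 0 < r := propC_pos.trans hr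

lemma iso_line (h : Extremal z r) (hr : propC < r) (i : Fin (k + 1)) {t u v : ℝ} (ht : 0 < t ∧ t ≤ 1)
    (hu : u * (t * 1) ≤ 598413 / 1000000)
    (hv : v * (t * 1) ≤ -(398943 / 1000000 * (1 + t ^ 2 / 2 - t ^ 4 / 24 + t ^ 6 / 240) - t / 2)) :
    u * ‖z i‖ + v ≤ (stdGaussian _).real (argCell z i) := by
  refine cap_line (norm_nonneg _) measureReal_nonneg hr ht.1 one_pos
    (G := tailMean t) ?_ ?_ le_rfl hu hv
  · rw [mul_one]; exact iso_bound h (propC_pos' hr) i ht.1.le
  · refine (tailMean_le_poly ht.1.le).trans ?_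
    have hQ : 0 ≤ 1 + t ^ 2 / 2 - t ^ 4 / 24 + t ^ 6 / 240 := by
      have := pow_le_one₀ (n := 4) ht.1.le ht.2
      linarith [sq_nonneg t, pow_nonneg ht.1.le 6]
    have := mul_le_mul_of_nonneg_right phi0_bounds.2 hQ
    simp only [phi0] at this
    linarith

lemma three_line (h : Extremal z r) (hr : propC < r) (hk : k ≤ 3) (i : Fin (k + 1)) {t u v : ℝ}
    (ht : 0 < t ∧ t ≤ 1) (h0 : (0 : ℝ) ≤ (1 - t) ^ 2)
    (hu : u * (t * (4 * (398943 / 1000000))) ≤ 598413 / 1000000)
    (hv : v * (t * (4 * (398943 / 1000000))) ≤ -(398943 / 1000000 * (1 - t) ^ 2)) :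
    u * ‖z i‖ + v ≤ (stdGaussian _).real (argCell z i) :=
  cap_line (norm_nonneg _) measureReal_nonneg hr ht.1 (by linarith [phi0_pos])
    (cap_bound_three h (propC_pos' hr) hk i ht.1.le ht.2)
    (mul_le_mul_of_nonneg_right phi0_bounds.2 h0) (by linarith [phi0_bounds.2]) hu hv

lemma five_line (h : Extremal z r) (hr : propC < r) (hk : k ≤ 5) (i : Fin (k + 1)) {t u v : ℝ}
    (ht : 0 < t ∧ t ≤ 1) (h0 : (0 : ℝ) ≤ 1 / 4 - 2 * t / 3 + t ^ 2 / 2 - t ^ 4 / 12)
    (hu : u * (t * (16 * (398943 / 1000000) / 3)) ≤ 598413 / 1000000)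
    (hv : v * (t * (16 * (398943 / 1000000) / 3)) ≤
      -(4 * (398943 / 1000000) * (1 / 4 - 2 * t / 3 + t ^ 2 / 2 - t ^ 4 / 12))) :
    u * ‖z i‖ + v ≤ (stdGaussian _).real (argCell z i) :=
  cap_line (norm_nonneg _) measureReal_nonneg hr ht.1 (by linarith [phi0_pos])
    (cap_bound_five h (propC_pos' hr) hk i ht.1.le ht.2)
    (mul_le_mul_of_nonneg_right (by linarith [phi0_bounds.2]) h0) (by linarith [phi0_bounds.2])
    hu hv

lemma seven_line (h : Extremal z r) (hr : propC < r) (hk : k ≤ 7) (i : Fin (k + 1)) {t u v : ℝ}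
    (ht : 0 < t ∧ t ≤ 1)
    (h0 : (0 : ℝ) ≤ (1 - t ^ 2) ^ 3 / 6 - t * (8 / 15 - t + 2 * t ^ 3 / 3 - t ^ 5 / 5))
    (hu : u * (t * (32 * (398943 / 1000000) / 5)) ≤ 598413 / 1000000)
    (hv : v * (t * (32 * (398943 / 1000000) / 5)) ≤ -(6 * (398943 / 1000000) *
      ((1 - t ^ 2) ^ 3 / 6 - t * (8 / 15 - t + 2 * t ^ 3 / 3 - t ^ 5 / 5)))) :
    u * ‖z i‖ + v ≤ (stdGaussian _).real (argCell z i) :=
  cap_line (norm_nonneg _) measureReal_nonneg hr ht.1 (by linarith [phi0_pos])
    (cap_bound_seven h (propC_pos' hr) hk i ht.1.le ht.2)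
    (mul_le_mul_of_nonneg_right (by linarith [phi0_bounds.2]) h0) (by linarith [phi0_bounds.2])
    hu hv

lemma nine_line (h : Extremal z r) (hr : propC < r) (hk : k ≤ 9) (i : Fin (k + 1)) {t u v : ℝ}
    (ht : 0 < t ∧ t ≤ 1) (h0 : (0 : ℝ) ≤ (1 - t ^ 2) ^ 4 / 8 -
      t * (16 / 35 - t + t ^ 3 - 3 * t ^ 5 / 5 + t ^ 7 / 7))
    (hu : u * (t * (256 * (398943 / 1000000) / 35)) ≤ 598413 / 1000000)
    (hv : v * (t * (256 * (398943 / 1000000) / 35)) ≤ -(8 * (398943 / 1000000) *
      ((1 - t ^ 2) ^ 4 / 8 - t * (16 / 35 - t + t ^ 3 - 3 * t ^ 5 / 5 + t ^ 7 / 7)))) :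
    u * ‖z i‖ + v ≤ (stdGaussian _).real (argCell z i) :=
  cap_line (norm_nonneg _) measureReal_nonneg hr ht.1 (by linarith [phi0_pos])
    (cap_bound_nine h (propC_pos' hr) hk i ht.1.le ht.2)
    (mul_le_mul_of_nonneg_right (by linarith [phi0_bounds.2]) h0) (by linarith [phi0_bounds.2])
    hu hv

lemma four_line (h : Extremal z r) (hr : propC < r) (hk : k ≤ 4) (i : Fin (k + 1))
    {t s θ u v : ℝ} (ht : 0 < t ∧ t ≤ 1) (hs : 0 ≤ s ∧ 1 - t ^ 2 ≤ s ^ 2)
    (hθ : θ ≤ arccos t) (h0 : 0 ≤ s ^ 3 / 3 - t * (θ - t * s) / 2)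
    (hu : u * (t * (3 * (2506629 / 1000000) / 4)) ≤ 598413 / 1000000)
    (hv : v * (t * (3 * (2506629 / 1000000) / 4)) ≤
      -(3 * (398943 / 1000000) * (s ^ 3 / 3 - t * (θ - t * s) / 2))) :
    u * ‖z i‖ + v ≤ (stdGaussian _).real (argCell z i) := by
  refine cap_line (norm_nonneg _) measureReal_nonneg hr ht.1 (by positivity)
    (cap_bound_four h (propC_pos' hr) hk i ht.1.le ht.2) ?_
    (by linarith [sqrt_two_pi_bounds.2]) hu hv
  have hs' : √(1 - t ^ 2) ≤ s := by rw [Real.sqrt_le_left hs.1]; exact hs.2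
  have h1 : √(1 - t ^ 2) ^ 3 ≤ s ^ 3 := pow_le_pow_left₀ (Real.sqrt_nonneg _) hs' 3
  have h2 := mul_le_mul_of_nonneg_left hs' (sq_nonneg t)
  have h3 := mul_le_mul_of_nonneg_left hθ ht.1.le
  calc 3 * phi0 * (√(1 - t ^ 2) ^ 3 / 3 - t * (arccos t - t * √(1 - t ^ 2)) / 2)
      ≤ 3 * phi0 * (s ^ 3 / 3 - t * (θ - t * s) / 2) :=
        mul_le_mul_of_nonneg_left (by linarith) (by linarith [phi0_pos])
    _ ≤ 3 * (398943 / 1000000) * (s ^ 3 / 3 - t * (θ - t * s) / 2) :=
        mul_le_mul_of_nonneg_right (by linarith [phi0_bounds.2]) h0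

lemma arccos_ge_half : (1047197 : ℝ) / 1000000 ≤ arccos (1 / 2) := by
  rw [← Real.cos_pi_div_three, Real.arccos_cos (by positivity) (by linarith [Real.pi_pos])]
  linarith [Real.pi_gt_d6]

/-- A lower bound for the arccosine from the cubic bound for the sine. -/
lemma arccos_ge {t θ : ℝ} (h0 : 0 ≤ θ) (h1 : θ < 314159 / 200000)
    (ht : t ≤ (314159 / 200000 - θ) - (314159 / 200000 - θ) ^ 3 / 6) : θ ≤ arccos t := by
  have hpi : (314159 : ℝ) / 200000 < π / 2 := by linarith [Real.pi_gt_d6]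
  have hθ : θ ≤ π := by linarith [Real.pi_pos]
  rw [← Real.arccos_cos h0 hθ]
  refine Real.antitone_arccos (ht.trans ?_)
  refine (Real.sin_ge_sub_cube (by linarith)).trans ?_
  rw [← Real.sin_pi_div_two_sub]
  exact Real.sin_le_sin_of_le_of_le_pi_div_two (by linarith) (by linarith) (by linarith)

/-- The segments `segsFour` are lower bounds for the cell measures. -/
theorem segsFour_le {z : Fin (k + 1) → EuclideanSpace ℝ (Fin (k + 1))} {r : ℝ} (h : Extremal z r)
    (hr : propC < r) (hk : k ≤ 3) (hshift : ∀ i, propC ^ 2 * (‖z i‖ ^ 2 / 2) * (1 + ‖z i‖ ^ 2 / 4) ≤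
      (stdGaussian _).real (argCell z i) ^ 2) (i : Fin (k + 1)) (hle : ‖z i‖ ≤ 2 / 3) :
    ∀ s ∈ Cert.segsFour,
      (s.u : ℝ) * ‖z i‖ + (s.v : ℝ) ≤ (stdGaussian _).real (argCell z i) := by
  intro s hs
  simp only [Cert.segsFour, List.mem_cons, List.not_mem_nil, or_false] at hs
  rcases hs with rfl | rfl | rfl | rfl | rfl | rfl | rfl | rfl | rfl | rfl | rfl | rfl | rfl | rfl | rfl <;> push_cast
  · exact shift_line measureReal_nonneg (norm_nonneg _) hle (hshift i) (by norm_num)
  · exact shift_line measureReal_nonneg (norm_nonneg _) hle (hshift i) (by norm_num)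
  · exact three_line h hr hk i (t := (18 / 25)) (by norm_num) (by norm_num) (by norm_num) (by norm_num)
  · exact three_line h hr hk i (t := (13 / 20)) (by norm_num) (by norm_num) (by norm_num) (by norm_num)
  · exact three_line h hr hk i (t := (29 / 50)) (by norm_num) (by norm_num) (by norm_num) (by norm_num)
  · exact three_line h hr hk i (t := (53 / 100)) (by norm_num) (by norm_num) (by norm_num) (by norm_num)
  · exact three_line h hr hk i (t := (12 / 25)) (by norm_num) (by norm_num) (by norm_num) (by norm_num)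
  · exact three_line h hr hk i (t := (11 / 25)) (by norm_num) (by norm_num) (by norm_num) (by norm_num)
  · exact three_line h hr hk i (t := (2 / 5)) (by norm_num) (by norm_num) (by norm_num) (by norm_num)
  · exact three_line h hr hk i (t := (9 / 25)) (by norm_num) (by norm_num) (by norm_num) (by norm_num)
  · exact three_line h hr hk i (t := (33 / 100)) (by norm_num) (by norm_num) (by norm_num) (by norm_num)
  · exact three_line h hr hk i (t := (29 / 100)) (by norm_num) (by norm_num) (by norm_num) (by norm_num)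
  · exact three_line h hr hk i (t := (6 / 25)) (by norm_num) (by norm_num) (by norm_num) (by norm_num)
  · exact three_line h hr hk i (t := (4 / 25)) (by norm_num) (by norm_num) (by norm_num) (by norm_num)
  · exact three_line h hr hk i (t := (2 / 25)) (by norm_num) (by norm_num) (by norm_num) (by norm_num)

lemma segsFour_v : ∀ s ∈ Cert.segsFour, (s.v : ℝ) ≤ 0 := by
  intro s hs
  simp only [Cert.segsFour, List.mem_cons, List.not_mem_nil, or_false] at hs
  rcases hs with rfl | rfl | rfl | rfl | rfl | rfl | rfl | rfl | rfl | rfl | rfl | rfl | rfl | rfl | rfl <;> norm_num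

/-- The segments `segsFive` are lower bounds for the cell measures. -/
theorem segsFive_le {z : Fin (k + 1) → EuclideanSpace ℝ (Fin (k + 1))} {r : ℝ} (h : Extremal z r)
    (hr : propC < r) (hk : k ≤ 4) (hshift : ∀ i, propC ^ 2 * (‖z i‖ ^ 2 / 2) * (1 + ‖z i‖ ^ 2 / 4) ≤
      (stdGaussian _).real (argCell z i) ^ 2) (i : Fin (k + 1)) (hle : ‖z i‖ ≤ 2 / 3) :
    ∀ s ∈ Cert.segsFive,
      (s.u : ℝ) * ‖z i‖ + (s.v : ℝ) ≤ (stdGaussian _).real (argCell z i) := by
  intro s hs
  simp only [Cert.segsFive, List.mem_cons, List.not_mem_nil, or_false] at hs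
  rcases hs with rfl | rfl | rfl | rfl | rfl | rfl | rfl <;> push_cast
  · exact shift_line measureReal_nonneg (norm_nonneg _) hle (hshift i) (by norm_num)
  · exact shift_line measureReal_nonneg (norm_nonneg _) hle (hshift i) (by norm_num)
  · exact shift_line measureReal_nonneg (norm_nonneg _) hle (hshift i) (by norm_num)
  · exact four_line h hr hk i (t := (1 / 2)) (s := (433013 / 500000)) (θ := (1047197 / 1000000)) (by norm_num) (by norm_num) arccos_ge_half (by norm_num) (by norm_num) (by norm_num)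
  · exact four_line h hr hk i (t := (2131 / 5000)) (s := (904629 / 1000000)) (θ := (226071 / 200000)) (by norm_num) (by norm_num) (arccos_ge (by norm_num) (by norm_num) (by norm_num)) (by norm_num) (by norm_num) (by norm_num)
  · exact four_line h hr hk i (t := (3827 / 10000)) (s := (923873 / 1000000)) (θ := (1177993 / 1000000)) (by norm_num) (by norm_num) (arccos_ge (by norm_num) (by norm_num) (by norm_num)) (by norm_num) (by norm_num) (by norm_num)
  · exact four_line h hr hk i (t := (647 / 2500)) (s := (965931 / 1000000)) (θ := (327251 / 250000)) (by norm_num) (by norm_num) (arccos_ge (by norm_num) (by norm_num) (by norm_num)) (by norm_num) (by norm_num) (by norm_num)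

lemma segsFive_v : ∀ s ∈ Cert.segsFive, (s.v : ℝ) ≤ 0 := by
  intro s hs
  simp only [Cert.segsFive, List.mem_cons, List.not_mem_nil, or_false] at hs
  rcases hs with rfl | rfl | rfl | rfl | rfl | rfl | rfl <;> norm_num

/-- The segments `segsSix` are lower bounds for the cell measures. -/
theorem segsSix_le {z : Fin (k + 1) → EuclideanSpace ℝ (Fin (k + 1))} {r : ℝ} (h : Extremal z r)
    (hr : propC < r) (hk : k ≤ 5) (hshift : ∀ i, propC ^ 2 * (‖z i‖ ^ 2 / 2) * (1 + ‖z i‖ ^ 2 / 4) ≤
      (stdGaussian _).real (argCell z i) ^ 2) (i : Fin (k + 1)) (hle : ‖z i‖ ≤ 2 / 3) :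
    ∀ s ∈ Cert.segsSix,
      (s.u : ℝ) * ‖z i‖ + (s.v : ℝ) ≤ (stdGaussian _).real (argCell z i) := by
  intro s hs
  simp only [Cert.segsSix, List.mem_cons, List.not_mem_nil, or_false] at hs
  rcases hs with rfl | rfl | rfl | rfl | rfl | rfl | rfl | rfl | rfl | rfl | rfl | rfl <;> push_cast
  · exact shift_line measureReal_nonneg (norm_nonneg _) hle (hshift i) (by norm_num)
  · exact shift_line measureReal_nonneg (norm_nonneg _) hle (hshift i) (by norm_num)
  · exact shift_line measureReal_nonneg (norm_nonneg _) hle (hshift i) (by norm_num)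
  · exact five_line h hr hk i (t := (12 / 25)) (by norm_num) (by norm_num) (by norm_num) (by norm_num)
  · exact five_line h hr hk i (t := (11 / 25)) (by norm_num) (by norm_num) (by norm_num) (by norm_num)
  · exact five_line h hr hk i (t := (2 / 5)) (by norm_num) (by norm_num) (by norm_num) (by norm_num)
  · exact five_line h hr hk i (t := (9 / 25)) (by norm_num) (by norm_num) (by norm_num) (by norm_num)
  · exact five_line h hr hk i (t := (33 / 100)) (by norm_num) (by norm_num) (by norm_num) (by norm_num)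
  · exact five_line h hr hk i (t := (29 / 100)) (by norm_num) (by norm_num) (by norm_num) (by norm_num)
  · exact five_line h hr hk i (t := (6 / 25)) (by norm_num) (by norm_num) (by norm_num) (by norm_num)
  · exact five_line h hr hk i (t := (4 / 25)) (by norm_num) (by norm_num) (by norm_num) (by norm_num)
  · exact five_line h hr hk i (t := (2 / 25)) (by norm_num) (by norm_num) (by norm_num) (by norm_num)

lemma segsSix_v : ∀ s ∈ Cert.segsSix, (s.v : ℝ) ≤ 0 := by
  intro s hs
  simp only [Cert.segsSix, List.mem_cons, List.not_mem_nil, or_false] at hs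
  rcases hs with rfl | rfl | rfl | rfl | rfl | rfl | rfl | rfl | rfl | rfl | rfl | rfl <;> norm_num

/-- The segments `segsEight` are lower bounds for the cell measures. -/
theorem segsEight_le {z : Fin (k + 1) → EuclideanSpace ℝ (Fin (k + 1))} {r : ℝ} (h : Extremal z r)
    (hr : propC < r) (hk : k ≤ 7) (hshift : ∀ i, propC ^ 2 * (‖z i‖ ^ 2 / 2) * (1 + ‖z i‖ ^ 2 / 4) ≤
      (stdGaussian _).real (argCell z i) ^ 2) (i : Fin (k + 1)) (hle : ‖z i‖ ≤ 2 / 3) :
    ∀ s ∈ Cert.segsEight,
      (s.u : ℝ) * ‖z i‖ + (s.v : ℝ) ≤ (stdGaussian _).real (argCell z i) := by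
  intro s hs
  simp only [Cert.segsEight, List.mem_cons, List.not_mem_nil, or_false] at hs
  rcases hs with rfl | rfl | rfl | rfl | rfl | rfl | rfl | rfl | rfl | rfl <;> push_cast
  · exact shift_line measureReal_nonneg (norm_nonneg _) hle (hshift i) (by norm_num)
  · exact shift_line measureReal_nonneg (norm_nonneg _) hle (hshift i) (by norm_num)
  · exact shift_line measureReal_nonneg (norm_nonneg _) hle (hshift i) (by norm_num)
  · exact shift_line measureReal_nonneg (norm_nonneg _) hle (hshift i) (by norm_num)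
  · exact seven_line h hr hk i (t := (9 / 25)) (by norm_num) (by norm_num) (by norm_num) (by norm_num)
  · exact seven_line h hr hk i (t := (33 / 100)) (by norm_num) (by norm_num) (by norm_num) (by norm_num)
  · exact seven_line h hr hk i (t := (29 / 100)) (by norm_num) (by norm_num) (by norm_num) (by norm_num)
  · exact seven_line h hr hk i (t := (6 / 25)) (by norm_num) (by norm_num) (by norm_num) (by norm_num)
  · exact seven_line h hr hk i (t := (4 / 25)) (by norm_num) (by norm_num) (by norm_num) (by norm_num)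
  · exact seven_line h hr hk i (t := (2 / 25)) (by norm_num) (by norm_num) (by norm_num) (by norm_num)

lemma segsEight_v : ∀ s ∈ Cert.segsEight, (s.v : ℝ) ≤ 0 := by
  intro s hs
  simp only [Cert.segsEight, List.mem_cons, List.not_mem_nil, or_false] at hs
  rcases hs with rfl | rfl | rfl | rfl | rfl | rfl | rfl | rfl | rfl | rfl <;> norm_num

/-- The segments `segsTen` are lower bounds for the cell measures. -/
theorem segsTen_le {z : Fin (k + 1) → EuclideanSpace ℝ (Fin (k + 1))} {r : ℝ} (h : Extremal z r)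
    (hr : propC < r) (hk : k ≤ 9) (hshift : ∀ i, propC ^ 2 * (‖z i‖ ^ 2 / 2) * (1 + ‖z i‖ ^ 2 / 4) ≤
      (stdGaussian _).real (argCell z i) ^ 2) (i : Fin (k + 1)) (hle : ‖z i‖ ≤ 2 / 3) :
    ∀ s ∈ Cert.segsTen,
      (s.u : ℝ) * ‖z i‖ + (s.v : ℝ) ≤ (stdGaussian _).real (argCell z i) := by
  intro s hs
  simp only [Cert.segsTen, List.mem_cons, List.not_mem_nil, or_false] at hs
  rcases hs with rfl | rfl | rfl | rfl | rfl | rfl | rfl | rfl <;> push_cast
  · exact shift_line measureReal_nonneg (norm_nonneg _) hle (hshift i) (by norm_num)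
  · exact shift_line measureReal_nonneg (norm_nonneg _) hle (hshift i) (by norm_num)
  · exact shift_line measureReal_nonneg (norm_nonneg _) hle (hshift i) (by norm_num)
  · exact shift_line measureReal_nonneg (norm_nonneg _) hle (hshift i) (by norm_num)
  · exact nine_line h hr hk i (t := (29 / 100)) (by norm_num) (by norm_num) (by norm_num) (by norm_num)
  · exact nine_line h hr hk i (t := (6 / 25)) (by norm_num) (by norm_num) (by norm_num) (by norm_num)
  · exact nine_line h hr hk i (t := (4 / 25)) (by norm_num) (by norm_num) (by norm_num) (by norm_num)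
  · exact nine_line h hr hk i (t := (2 / 25)) (by norm_num) (by norm_num) (by norm_num) (by norm_num)

lemma segsTen_v : ∀ s ∈ Cert.segsTen, (s.v : ℝ) ≤ 0 := by
  intro s hs
  simp only [Cert.segsTen, List.mem_cons, List.not_mem_nil, or_false] at hs
  rcases hs with rfl | rfl | rfl | rfl | rfl | rfl | rfl | rfl <;> norm_num

/-- The segments `segsMany` are lower bounds for the cell measures. -/
theorem segsMany_le {z : Fin (k + 1) → EuclideanSpace ℝ (Fin (k + 1))} {r : ℝ} (h : Extremal z r)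
    (hr : propC < r) (hshift : ∀ i, propC ^ 2 * (‖z i‖ ^ 2 / 2) * (1 + ‖z i‖ ^ 2 / 4) ≤
      (stdGaussian _).real (argCell z i) ^ 2) (i : Fin (k + 1)) (hle : ‖z i‖ ≤ 2 / 3) :
    ∀ s ∈ Cert.segsMany,
      (s.u : ℝ) * ‖z i‖ + (s.v : ℝ) ≤ (stdGaussian _).real (argCell z i) := by
  intro s hs
  simp only [Cert.segsMany, List.mem_cons, List.not_mem_nil, or_false] at hs
  rcases hs with rfl | rfl | rfl | rfl | rfl | rfl | rfl | rfl | rfl | rfl | rfl | rfl | rfl <;> push_cast
  · exact shift_line measureReal_nonneg (norm_nonneg _) hle (hshift i) (by norm_num)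
  · exact shift_line measureReal_nonneg (norm_nonneg _) hle (hshift i) (by norm_num)
  · exact shift_line measureReal_nonneg (norm_nonneg _) hle (hshift i) (by norm_num)
  · exact shift_line measureReal_nonneg (norm_nonneg _) hle (hshift i) (by norm_num)
  · exact iso_line h hr i (t := (41 / 50)) (by norm_num) (by norm_num) (by norm_num)
  · exact iso_line h hr i (t := (77 / 100)) (by norm_num) (by norm_num) (by norm_num)
  · exact iso_line h hr i (t := (18 / 25)) (by norm_num) (by norm_num) (by norm_num)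
  · exact iso_line h hr i (t := (33 / 50)) (by norm_num) (by norm_num) (by norm_num)
  · exact iso_line h hr i (t := (3 / 5)) (by norm_num) (by norm_num) (by norm_num)
  · exact iso_line h hr i (t := (13 / 25)) (by norm_num) (by norm_num) (by norm_num)
  · exact iso_line h hr i (t := (21 / 50)) (by norm_num) (by norm_num) (by norm_num)
  · exact iso_line h hr i (t := (3 / 10)) (by norm_num) (by norm_num) (by norm_num)
  · exact iso_line h hr i (t := (3 / 20)) (by norm_num) (by norm_num) (by norm_num)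

lemma segsMany_v : ∀ s ∈ Cert.segsMany, (s.v : ℝ) ≤ 0 := by
  intro s hs
  simp only [Cert.segsMany, List.mem_cons, List.not_mem_nil, or_false] at hs
  rcases hs with rfl | rfl | rfl | rfl | rfl | rfl | rfl | rfl | rfl | rfl | rfl | rfl | rfl <;> norm_num

end Vale.Agent.P226.Full
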