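import Vale.Agent.P226.Cert.Facts
import Vale.Agent.P226.Full.DropCases

/-!
# The scalar facts of a counterexample with sorted norms
-/

open MeasureTheory ProbabilityTheory Real Set Finset
open scoped RealInnerProductSpace

namespace Vale.Agent.P226.Full

variable {d n : ℕ}

/-- A function on `Fin (n + 1)` extended by zero. -/
noncomputable def ext0 (f : Fin (n + 1) → ℝ) (i : ℕ) : ℝ :=
  if h : i < n + 1 then f ⟨i, h⟩ else 0

/-- The sum from index `m` on. -/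
noncomputable def tailSum (f : Fin (n + 1) → ℝ) (m : ℕ) : ℝ :=
  ∑ i ∈ univ.filter (fun i : Fin (n + 1) => m ≤ (i : ℕ)), f i

/-- The first `m` indices. -/
def firstSet (n m : ℕ) : Finset (Fin (n + 1)) := univ.filter fun i => (i : ℕ) < m

lemma ext0_nonneg {f : Fin (n + 1) → ℝ} (hf : ∀ i, 0 ≤ f i) (i : ℕ) : 0 ≤ ext0 f i := by
  unfold ext0
  split
  · exact hf _
  · exact le_rfl

lemma tailSum_succ (f : Fin (n + 1) → ℝ) (m : ℕ) :
    tailSum f m = ext0 f m + tailSum f (m + 1) := by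
  unfold tailSum ext0
  split
  · rename_i h
    rw [← Finset.add_sum_erase _ f
      (show (⟨m, h⟩ : Fin (n + 1)) ∈ univ.filter (fun i : Fin (n + 1) => m ≤ (i : ℕ)) by simp)]
    congr 1
    refine Finset.sum_congr (Finset.ext fun i => ?_) fun _ _ => rfl
    simp only [mem_erase, mem_filter, Finset.mem_univ, true_and, ne_eq, Fin.ext_iff]
    omega
  · rw [zero_add]
    refine Finset.sum_congr (Finset.ext fun i => ?_) fun _ _ => rfl
    simp only [mem_filter, Finset.mem_univ, true_and]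
    omega

lemma tailSum_zero (f : Fin (n + 1) → ℝ) : tailSum f 0 = ∑ i, f i := by
  simp [tailSum]

lemma tailSum_four (f : Fin (n + 1) → ℝ) :
    ∑ i, f i = ext0 f 0 + ext0 f 1 + ext0 f 2 + ext0 f 3 + tailSum f 4 := by
  rw [← tailSum_zero, tailSum_succ f 0, tailSum_succ f 1, tailSum_succ f 2, tailSum_succ f 3]
  ring

lemma compl_firstSet (m : ℕ) :
    (firstSet n m)ᶜ = univ.filter (fun i : Fin (n + 1) => m ≤ (i : ℕ)) := by
  ext i
  simp [firstSet]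

lemma card_firstSet {m : ℕ} (hm : m ≤ n + 1) : (firstSet n m).card = m := by
  have : firstSet n m = (Finset.univ : Finset (Fin m)).map (Fin.castLEEmb hm) := by
    ext i
    simp only [firstSet, mem_filter, Finset.mem_univ, true_and, Finset.mem_map]
    exact ⟨fun h => ⟨⟨i, h⟩, rfl⟩, fun ⟨j, hj⟩ => hj ▸ j.2⟩
  simp [this]

variable {z : Fin (n + 1) → EuclideanSpace ℝ (Fin d)}

lemma psd_three (z : Fin (n + 1) → EuclideanSpace ℝ (Fin d)) (a b c : Fin (n + 1)) (x y w : ℝ) :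
    0 ≤ x ^ 2 * ‖z a‖ ^ 2 + y ^ 2 * ‖z b‖ ^ 2 + w ^ 2 * ‖z c‖ ^ 2 +
      2 * (x * y * ⟪z a, z b⟫ + y * w * ⟪z b, z c⟫ + w * x * ⟪z c, z a⟫) := by
  have h := sq_nonneg ‖x • z a + y • z b + w • z c‖
  rw [← real_inner_self_eq_norm_sq] at h
  simp only [inner_add_left, inner_add_right, real_inner_smul_left, real_inner_smul_right,
    real_inner_self_eq_norm_sq] at h
  rw [real_inner_comm (z a) (z b), real_inner_comm (z b) (z c), real_inner_comm (z c) (z a)] at h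
  simp only [norm_smul, Real.norm_eq_abs, mul_pow, sq_abs] at h
  linarith

/-- The drop lemma for the first `m` cells and a pair among them. -/
lemma drop_first (h : Counter z) (hanti : ∀ i j, i ≤ j → ‖z j‖ ≤ ‖z i‖) {m : ℕ} (hm : 4 ≤ m)
    (hmn : m ≤ n) {a b : Fin (n + 1)} (hab : (a : ℕ) < b) (hb : (b : ℕ) < m) {W : ℝ} (hW0 : 0 < W)
    (hW : W ≤ ‖z a‖ ^ 2 * ‖z b‖ ^ 2 - ⟪z a, z b⟫ ^ 2 - tailSum (fun i => ‖z i‖ ^ 2) m *
      (9 / 8 * ‖z a‖ ^ 2 - ⟪z a, z b⟫ / 2 + tailSum (fun i => ‖z i‖ ^ 2) m / 8)) :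
    9 * π / 2 * √W / ((m : ℝ) * ((m : ℝ) + 1)) ≤
      ext0 (fun i => ‖z i‖) m + √(tailSum (fun i => ‖z i‖ ^ 2) m) / m := by
  have hcard := card_firstSet (n := n) (m := m) (by omega)
  have hne : (firstSet n m)ᶜ.Nonempty := ⟨⟨m, by omega⟩, by simp [firstSet]⟩
  have hE : ∑ j ∈ (firstSet n m)ᶜ, ‖z j‖ ^ 2 = tailSum (fun i => ‖z i‖ ^ 2) m := by
    rw [compl_firstSet]; rfl
  have hρ : ext0 (fun i => ‖z i‖) m = ‖z ⟨m, by omega⟩‖ := dif_pos _
  have key := drop_pair h (by omega) hne (a := a) (b := b) (by simp [firstSet]; omega)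
    (by simp [firstSet]; omega) (by simp [Fin.ext_iff]; omega) (ρ := ‖z ⟨m, by omega⟩‖)
    (mx := ‖z a‖ ^ 2)
    (fun j hj => hanti _ _ (by simp [firstSet] at hj; simpa [Fin.le_def] using hj))
    (single_le_sum (f := fun j => ‖z j‖ ^ 2) (fun j _ => sq_nonneg _)
      (by simp [firstSet])) le_rfl
    (pow_le_pow_left₀ (norm_nonneg _) (hanti _ _ hab.le) 2) hW0 (by rw [hE]; exact hW)
  rw [hcard, hE] at key
  rw [hρ]
  exact key

lemma drop_two (h : Counter z) (hanti : ∀ i j, i ≤ j → ‖z j‖ ≤ ‖z i‖) (hn : 3 ≤ n) {m : ℕ}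
    (hm : 4 ≤ m) (hmn : m ≤ n) {A B e : ℝ} (hB0 : 0 ≤ B)
    (hB : B ≤ ext0 (fun i => ‖z i‖) 2 ^ 2) (hA : A ≤ ext0 (fun i => ‖z i‖) 1 ^ 2) (hBA : B ≤ A)
    (he : tailSum (fun i => ‖z i‖ ^ 2) m ≤ e)
    (hW : 0 < A * (3 / 4 * B - 11 / 8 * e) - e ^ 2 / 8) :
    9 * π / 2 * √(A * (3 / 4 * B - 11 / 8 * e) - e ^ 2 / 8) / ((m : ℝ) * ((m : ℝ) + 1)) ≤
      ext0 (fun i => ‖z i‖) m + √(tailSum (fun i => ‖z i‖ ^ 2) m) / m := by
  set e0 : Fin (n + 1) := ⟨0, by omega⟩ with he0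
  set e1 : Fin (n + 1) := ⟨1, by omega⟩ with he1
  set e2 : Fin (n + 1) := ⟨2, by omega⟩ with he2
  rw [ext0, dif_pos (by omega : 2 < n + 1)] at hB
  rw [ext0, dif_pos (by omega : 1 < n + 1)] at hA
  change B ≤ ‖z e2‖ ^ 2 at hB
  change A ≤ ‖z e1‖ ^ 2 at hA
  have h01 : ‖z e1‖ ^ 2 ≤ ‖z e0‖ ^ 2 :=
    pow_le_pow_left₀ (norm_nonneg _) (hanti _ _ (Fin.mk_le_mk.2 (by norm_num))) 2
  have h12 : ‖z e2‖ ^ 2 ≤ ‖z e1‖ ^ 2 :=
    pow_le_pow_left₀ (norm_nonneg _) (hanti _ _ (Fin.mk_le_mk.2 (by norm_num))) 2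
  have ne01 : e0 ≠ e1 := by simp [he0, he1, Fin.ext_iff]
  have ne12 : e1 ≠ e2 := by simp [he1, he2, Fin.ext_iff]
  have ne20 : e2 ≠ e0 := by simp [he2, he0, Fin.ext_iff]
  obtain ⟨a, b, hab, hb2, hb, ha, hw⟩ : ∃ a b : Fin (n + 1), (a : ℕ) < b ∧ (b : ℕ) < 3 ∧
      B ≤ ‖z b‖ ^ 2 ∧ A ≤ ‖z a‖ ^ 2 ∧ 4 * ⟪z a, z b⟫ ^ 2 ≤ ‖z a‖ ^ 2 * ‖z b‖ ^ 2 := by
    rcases exists_pair_of_three (sq_nonneg _) (sq_nonneg _) (sq_nonneg _) (psd_three z e0 e1 e2)
      (h.obtuse _ _ ne01).le (h.obtuse _ _ ne12).le (h.obtuse _ _ ne20).le with h' | h' | h'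
    · exact ⟨e0, e1, by simp [he0, he1], by simp [he1], hB.trans h12, hA.trans h01, h'⟩
    · exact ⟨e1, e2, by simp [he1, he2], by simp [he2], hB, hA, h'⟩
    · exact ⟨e0, e2, by simp [he0, he2], by simp [he2], hB, hA.trans h01,
        by rw [real_inner_comm, mul_comm (‖z e0‖ ^ 2)]; exact h'⟩
  set P := ‖z a‖ ^ 2
  set Q := ‖z b‖ ^ 2
  set w := ⟪z a, z b⟫
  set E := tailSum (fun i => ‖z i‖ ^ 2) m
  have hE0 : 0 ≤ E := Finset.sum_nonneg fun i _ => sq_nonneg _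
  have hQP : Q ≤ P := pow_le_pow_left₀ (norm_nonneg _) (hanti _ _ hab.le) 2
  have hw0 : w ≤ 0 := (h.obtuse a b (by simp [Fin.ext_iff]; omega)).le
  have hwP : -w ≤ P / 2 := by
    have : w ^ 2 ≤ (P / 2) ^ 2 := by
      nlinarith [mul_le_mul_of_nonneg_left hQP (hB0.trans hBA |>.trans ha)]
    have := (sq_le_sq₀ (by linarith) (by linarith [sq_nonneg ‖z a‖])).1
      (show (-w) ^ 2 ≤ (P / 2) ^ 2 by rw [neg_sq]; exact this)
    linarith
  have hA0 : 0 ≤ A := hB0.trans hBA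
  have hpos : 0 < 3 / 4 * B - 11 / 8 * e := by
    by_contra hc
    nlinarith [mul_nonpos_of_nonneg_of_nonpos hA0 (not_lt.1 hc), sq_nonneg e]
  have hWle : A * (3 / 4 * B - 11 / 8 * e) - e ^ 2 / 8 ≤
      P * Q - w ^ 2 - E * (9 / 8 * P - w / 2 + E / 8) := by
    have h1 : A * (3 / 4 * B - 11 / 8 * e) ≤ P * (3 / 4 * Q - 11 / 8 * E) :=
      mul_le_mul ha (by linarith) hpos.le (hA0.trans ha)
    have h2 : E * (9 / 8 * P - w / 2) ≤ E * (11 / 8 * P) :=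
      mul_le_mul_of_nonneg_left (by linarith) hE0
    have h3 : E ^ 2 ≤ e ^ 2 := pow_le_pow_left₀ hE0 he 2
    linarith
  exact drop_first h hanti hm hmn hab (by omega) hW hWle

lemma drop_four (h : Counter z) (hanti : ∀ i j, i ≤ j → ‖z j‖ ≤ ‖z i‖) (hn : 3 ≤ n) {m : ℕ}
    (hm : 4 ≤ m) (hmn : m ≤ n) {A B e : ℝ} (hA0 : 0 ≤ A)
    (hB : B ≤ ext0 (fun i => ‖z i‖) 3 ^ 2) (hA : A ≤ ext0 (fun i => ‖z i‖) 2 ^ 2)
    (he : tailSum (fun i => ‖z i‖ ^ 2) m ≤ e)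
    (hW : 0 < A * (B - 9 / 8 * e) - 1 / 144 - e / 24 - e ^ 2 / 8) :
    9 * π / 2 * √(A * (B - 9 / 8 * e) - 1 / 144 - e / 24 - e ^ 2 / 8) /
        ((m : ℝ) * ((m : ℝ) + 1)) ≤
      ext0 (fun i => ‖z i‖) m + √(tailSum (fun i => ‖z i‖ ^ 2) m) / m := by
  set f : Fin 4 → Fin (n + 1) := Fin.castLE (by omega) with hf
  rw [ext0, dif_pos (by omega : 3 < n + 1)] at hB
  rw [ext0, dif_pos (by omega : 2 < n + 1)] at hA
  change B ≤ ‖z (f 3)‖ ^ 2 at hB
  change A ≤ ‖z (f 2)‖ ^ 2 at hA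
  obtain ⟨i, j, hij, hw⟩ : ∃ i j : Fin 4, i < j ∧ -(1 / 12 : ℝ) ≤ ⟪z (f i), z (f j)⟫ := by
    by_contra hc
    push Not at hc
    have hsq := sq_nonneg ‖∑ i, z (f i)‖
    rw [← real_inner_self_eq_norm_sq] at hsq
    simp only [Fin.sum_univ_four, inner_add_left, inner_add_right, real_inner_self_eq_norm_sq]
      at hsq
    have h01 := hc 0 1 (by decide)
    have h02 := hc 0 2 (by decide)
    have h03 := hc 0 3 (by decide)
    have h12 := hc 1 2 (by decide)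
    have h13 := hc 1 3 (by decide)
    have h23 := hc 2 3 (by decide)
    have hle : ∑ i, ‖z (f i)‖ ^ 2 ≤ 1 := by
      rw [← h.norm_one]
      calc ∑ i, ‖z (f i)‖ ^ 2 = ∑ x ∈ univ.map (Fin.castLEEmb (by omega : 4 ≤ n + 1)), ‖z x‖ ^ 2 :=
            by rw [Finset.sum_map]; rfl
        _ ≤ ∑ x, ‖z x‖ ^ 2 :=
            sum_le_sum_of_subset_of_nonneg (subset_univ _) fun x _ _ => sq_nonneg _
    simp only [Fin.sum_univ_four] at hle
    linarith [real_inner_comm (z (f 1)) (z (f 0)), real_inner_comm (z (f 2)) (z (f 0)),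
      real_inner_comm (z (f 3)) (z (f 0)), real_inner_comm (z (f 2)) (z (f 1)),
      real_inner_comm (z (f 3)) (z (f 1)), real_inner_comm (z (f 3)) (z (f 2))]
  have hfm : ∀ i j : Fin 4, i ≤ j → f i ≤ f j := fun i j h => Fin.mk_le_mk.2 (Fin.le_def.1 h)
  have hab : (f i : ℕ) < f j := hij
  set P := ‖z (f i)‖ ^ 2
  set Q := ‖z (f j)‖ ^ 2
  set w := ⟪z (f i), z (f j)⟫
  set E := tailSum (fun i => ‖z i‖ ^ 2) m
  have hQ : B ≤ Q := hB.trans (pow_le_pow_left₀ (norm_nonneg _)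
    (hanti _ _ (hfm _ _ (Fin.le_def.2 (by show (j : ℕ) ≤ 3; omega)))) 2)
  have hP : A ≤ P := hA.trans (pow_le_pow_left₀ (norm_nonneg _)
    (hanti _ _ (hfm _ _ (Fin.le_def.2 (by show (i : ℕ) ≤ 2; omega)))) 2)
  have hE0 : 0 ≤ E := Finset.sum_nonneg fun i _ => sq_nonneg _
  have hw0 : w ≤ 0 := (h.obtuse _ _ (by simp [Fin.ext_iff]; omega)).le
  have hw2 : w ^ 2 ≤ 1 / 144 := by nlinarith
  have hpos : 0 < B - 9 / 8 * e := by
    by_contra hc
    nlinarith [mul_nonpos_of_nonneg_of_nonpos hA0 (not_lt.1 hc), sq_nonneg e, hE0.trans he]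
  have hWle : A * (B - 9 / 8 * e) - 1 / 144 - e / 24 - e ^ 2 / 8 ≤
      P * Q - w ^ 2 - E * (9 / 8 * P - w / 2 + E / 8) := by
    have h1 : A * (B - 9 / 8 * e) ≤ P * (Q - 9 / 8 * E) :=
      mul_le_mul hP (by linarith) hpos.le (hA0.trans hP)
    have h2 : E * -w ≤ E * (1 / 12) := mul_le_mul_of_nonneg_left (by linarith) hE0
    have h3 : E ^ 2 ≤ e ^ 2 := pow_le_pow_left₀ hE0 he 2
    linarith
  exact drop_first h hanti hm hmn hab (by have := j.2; show (j : ℕ) < m; omega) hW hWle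

lemma drop_three' (h : Counter z) (hanti : ∀ i j, i ≤ j → ‖z j‖ ≤ ‖z i‖) (hn : 3 ≤ n) {W : ℝ}
    (hW0 : 0 < W) (hW : W ≤ heron (ext0 (fun i => ‖z i‖) 0 ^ 2) (ext0 (fun i => ‖z i‖) 1 ^ 2)
      (ext0 (fun i => ‖z i‖) 2 ^ 2) - tailSum (fun i => ‖z i‖ ^ 2) 3 *
      ((ext0 (fun i => ‖z i‖) 0 ^ 2 + ext0 (fun i => ‖z i‖) 1 ^ 2 -
        ext0 (fun i => ‖z i‖) 2 ^ 2) / 2 + 2 / 7 * tailSum (fun i => ‖z i‖ ^ 2) 3)) :
    9 * π / 2 * √W / 12 ≤
      ext0 (fun i => ‖z i‖) 3 + √(tailSum (fun i => ‖z i‖ ^ 2) 3) / 3 := by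
  set e0 : Fin (n + 1) := ⟨0, by omega⟩ with he0
  set e1 : Fin (n + 1) := ⟨1, by omega⟩ with he1
  set e2 : Fin (n + 1) := ⟨2, by omega⟩ with he2
  have hset : ({e0, e1, e2} : Finset (Fin (n + 1))) = firstSet n 3 := by
    ext i
    simp only [Finset.mem_insert, Finset.mem_singleton, firstSet, mem_filter, Finset.mem_univ, true_and,
      he0, he1, he2, Fin.ext_iff]
    omega
  have hE : ∑ j ∈ ({e0, e1, e2} : Finset (Fin (n + 1)))ᶜ, ‖z j‖ ^ 2 =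
      tailSum (fun i => ‖z i‖ ^ 2) 3 := by
    rw [hset, compl_firstSet]; rfl
  simp only [ext0, dif_pos (by omega : 0 < n + 1), dif_pos (by omega : 1 < n + 1),
    dif_pos (by omega : 2 < n + 1), dif_pos (by omega : 3 < n + 1)] at hW ⊢
  have hne : ({e0, e1, e2} : Finset (Fin (n + 1)))ᶜ.Nonempty :=
    ⟨⟨3, by omega⟩, by rw [hset, compl_firstSet]; simp⟩
  have key := drop_triple h (a := e0) (b := e1) (c := e2) (by simp [he0, he1, Fin.ext_iff])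
    (by simp [he1, he2, Fin.ext_iff]) (by simp [he2, he0, Fin.ext_iff]) hne
    (hanti _ _ (Fin.mk_le_mk.2 (by norm_num))) (hanti _ _ (Fin.mk_le_mk.2 (by norm_num)))
    (ρ := ‖z ⟨3, by omega⟩‖)
    (fun j hj => hanti _ _ (by
      rw [hset, compl_firstSet] at hj
      simpa [Fin.le_def] using hj))
    (single_le_sum (f := fun j => ‖z j‖ ^ 2) (fun j _ => sq_nonneg _)
      (by rw [hset, compl_firstSet]; simp)) hW0 (by rw [hE]; exact hW)
  rw [hE] at key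
  exact key

/-- The scalar facts. -/
theorem facts_of_counter (h : Counter z) (hanti : ∀ i j, i ≤ j → ‖z j‖ ≤ ‖z i‖) (hn : 3 ≤ n)
    {p : Fin (n + 1) → ℝ} (hp : ∑ i, p i = 1) (hle : ∀ i, ‖z i‖ ≤ 2 / 3)
    {segs : List Cert.Seg} (hv : ∀ s ∈ segs, (s.v : ℝ) ≤ 0)
    (hseg : ∀ i, ∀ s ∈ segs, (s.u : ℝ) * ‖z i‖ + (s.v : ℝ) ≤ p i)
    (hcs : ∀ i, (Cert.cs : ℝ) * ‖z i‖ ≤ p i) {M : ℕ} (hM : M ≤ n) (hsmall : M ≤ 3 → n = 3) :
    Cert.Facts segs M (ext0 fun i => ‖z i‖) (tailSum fun i => ‖z i‖)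
      (tailSum fun i => ‖z i‖ ^ 2) (ext0 p) := by
  have hsq : ∀ m, ext0 (fun i => ‖z i‖) m ^ 2 = ext0 (fun i => ‖z i‖ ^ 2) m := fun m => by
    unfold ext0
    split <;> simp
  have hcsm : ∀ m, (Cert.cs : ℝ) * tailSum (fun i => ‖z i‖) m ≤ tailSum p m := fun m => by
    rw [tailSum, tailSum, Finset.mul_sum]
    exact Finset.sum_le_sum fun i _ => hcs i
  refine
    { r_nonneg := ext0_nonneg fun i => norm_nonneg _
      r_anti := fun i j hij => ?_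
      r_le := fun i => ?_
      p_ge := fun i _ s hs => ?_
      R_nonneg := fun m => Finset.sum_nonneg fun i _ => norm_nonneg _
      E_nonneg := fun m => Finset.sum_nonneg fun i _ => sq_nonneg _
      R_succ := tailSum_succ _
      E_succ := fun m => by rw [hsq]; exact tailSum_succ _ m
      E_le := fun m => ?_
      norm := ?_
      sum4 := ?_
      sum5 := ?_
      small := fun hM3 => ?_
      drop2 := fun m hm hmM A B e h0 hB hA hBA he hW =>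
        drop_two h hanti hn hm (hmM.trans hM) h0 hB hA hBA he hW
      drop4 := fun m hm hmM A B e h0 hB hA he hW =>
        drop_four h hanti hn hm (hmM.trans hM) h0 hB hA he hW
      drop3 := fun _ W hW0 hW => drop_three' h hanti hn hW0 hW }
  · unfold ext0
    split
    · rw [dif_pos (by omega)]
      exact hanti _ _ (Fin.mk_le_mk.2 hij)
    · split <;> simp
  · unfold ext0
    split
    · exact hle _
    · norm_num
  · unfold ext0
    split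
    · exact hseg _ s hs
    · simpa using hv s hs
  · rw [tailSum, tailSum, Finset.mul_sum]
    refine Finset.sum_le_sum fun i hi => ?_
    have hmi : m ≤ (i : ℕ) := (mem_filter.1 hi).2
    have hm : m < n + 1 := by omega
    rw [ext0, dif_pos hm, sq]
    exact mul_le_mul_of_nonneg_right (hanti _ _ (Fin.mk_le_mk.2 hmi)) (norm_nonneg _)
  · simp only [hsq]
    rw [← h.norm_one, tailSum_four fun i => ‖z i‖ ^ 2]
  · rw [← hp, tailSum_four p]
    linarith [hcsm 4]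
  · rw [← hp, tailSum_four p, tailSum_succ p 4]
    linarith [hcsm 5]
  · refine Finset.sum_eq_zero fun i hi => ?_
    have := (mem_filter.1 hi).2
    have := hsmall hM3
    omega

end Vale.Agent.P226.Full
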