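import Vale.Agent.P226.Full.Const
import Vale.Agent.P226.Reduce.Extremal
import Vale.Agent.P226.Reduce.Perturb
import Vale.Agent.P226.Reduce.Tails
import Vale.Agent.P262.Gauss.PL

/-!
# The shift bound: dropping one cell costs at most `p² / q`

For a concave function that grows at unit rate along a vector, the tail `s ↦ γ {s < h}` is log-concave
with slope at `0` given by the moment of the positive set, so the mean positive part is at most
`p² / q`.
-/

open MeasureTheory ProbabilityTheory Real Set Filter Topology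
open scoped RealInnerProductSpace

namespace Vale.Agent.P226.Full

/-- The first moment of a half-line. -/
lemma gauss_Ioi_moment (a : ℝ) :
    ∫ t in Ioi a, t ∂gaussianReal 0 1 = (√(2 * π))⁻¹ * exp (-(1 / 2) * a ^ 2) := by
  rw [← integral_indicator measurableSet_Ioi, integral_gaussianReal_eq_integral_smul one_ne_zero]
  have e : ∀ t, gaussianPDFReal 0 1 t • (Ioi a).indicator (fun t => t) t
      = (Ioi a).indicator (fun t => (√(2 * π))⁻¹ * (t * exp (-(1 / 2) * t ^ 2))) t := by
    intro t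
    rw [pdf_eq, smul_eq_mul]
    by_cases h : t ∈ Ioi a
    · simp [h]; ring
    · simp [h]
  simp only [e]
  rw [integral_indicator measurableSet_Ioi, integral_const_mul,
    integral_Ioi_of_hasDerivAt_of_tendsto' (fun x _ => hasDerivAt_halfGauss x)
      (integrable_mul_exp_neg_mul_sq (by norm_num : (0 : ℝ) < 1 / 2)).integrableOn
      tendsto_halfGauss]
  ring

/-- Moving a threshold up loses at least the density times the step, up to second order. -/
lemma gauss_Ioi_drop (a : ℝ) {δ : ℝ} (hδ : 0 ≤ δ) :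
    (gaussianReal 0 1).real (Ioi (a + δ)) ≤ (gaussianReal 0 1).real (Ioi a)
      - δ * ((√(2 * π))⁻¹ * exp (-(1 / 2) * a ^ 2)) + δ ^ 2 * (1 + δ / 2) := by
  set c := (√(2 * π))⁻¹ with hc
  have hc0 : 0 ≤ c := by positivity
  have hc1 : c ≤ 1 := inv_sqrt_le.trans (by norm_num)
  have hsplit : (gaussianReal 0 1).real (Ioi a) = (gaussianReal 0 1).real (Ioc a (a + δ))
      + (gaussianReal 0 1).real (Ioi (a + δ)) := by
    rw [← measureReal_union (Set.Ioc_disjoint_Ioi le_rfl)
      measurableSet_Ioi, Ioc_union_Ioi_eq_Ioi (by linarith)]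
  have low : δ * (c * (exp (-(1 / 2) * a ^ 2) - δ - δ ^ 2 / 2))
      ≤ (gaussianReal 0 1).real (Ioc a (a + δ)) := by
    rw [gauss_eq_integral, ← hc, mul_left_comm]
    refine mul_le_mul_of_nonneg_left ?_ hc0
    set e := exp (-(1 / 2) * a ^ 2) with he
    have hae : |a| * e ≤ 1 := by
      have h1 := add_one_le_exp ((1 / 2) * a ^ 2)
      have h2 : exp ((1 / 2) * a ^ 2) * e = 1 := by
        rw [he, ← exp_add]; ring_nf; exact exp_zero
      have h3 : |a| ≤ exp ((1 / 2) * a ^ 2) := by nlinarith [sq_nonneg (|a| - 1), sq_abs a]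
      calc |a| * e ≤ exp ((1 / 2) * a ^ 2) * e := mul_le_mul_of_nonneg_right h3 (exp_pos _).le
        _ = 1 := h2
    have he1 : e ≤ 1 := exp_le_one_iff.2 (by nlinarith)
    have hpt : ∀ x ∈ Ioc a (a + δ), e - δ - δ ^ 2 / 2 ≤ exp (-(1 / 2) * x ^ 2) := by
      intro x hx
      set u := x - a with hu
      have hu0 : 0 ≤ u := by linarith [hx.1]
      have hud : u ≤ δ := by linarith [hx.2]
      have e1 : exp (-(1 / 2) * x ^ 2) = e * exp (-(a * u) - u ^ 2 / 2) := by
        rw [he, ← exp_add]; congr 1; rw [hu]; ring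
      rw [e1]
      have h1 := add_one_le_exp (-(a * u) - u ^ 2 / 2)
      have h2 := mul_le_mul_of_nonneg_left h1 (exp_pos (-(1 / 2) * a ^ 2)).le
      rw [← he] at h2
      have h3 : a * u * e ≤ δ := by
        calc a * u * e ≤ |a| * u * e := mul_le_mul_of_nonneg_right
              (mul_le_mul_of_nonneg_right (le_abs_self a) hu0) (exp_pos _).le
          _ = (|a| * e) * u := by ring
          _ ≤ 1 * u := mul_le_mul_of_nonneg_right hae hu0
          _ ≤ δ := by linarith
      have h4 : e * (u ^ 2 / 2) ≤ δ ^ 2 / 2 :=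
        (mul_le_of_le_one_left (by positivity) he1).trans (by nlinarith)
      nlinarith
    have hfin : volume (Ioc a (a + δ)) ≠ ⊤ := by simp
    calc δ * (e - δ - δ ^ 2 / 2) = ∫ _ in Ioc a (a + δ), (e - δ - δ ^ 2 / 2) := by
          rw [setIntegral_const, Real.volume_real_Ioc_of_le (by linarith), smul_eq_mul]; ring
      _ ≤ _ := setIntegral_mono_on (integrableOn_const hfin)
          (Continuous.integrableOn_Ioc (by fun_prop)) measurableSet_Ioc hpt
  nlinarith [mul_nonneg (mul_nonneg hδ (sub_nonneg.2 hc1)) (add_nonneg hδ (sq_nonneg δ))]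

variable {n : ℕ}

/-- Midpoint log-concavity of the standard Gaussian measure. -/
lemma midLC_stdGaussian :
    P262.Gauss.MidLC (stdGaussian (EuclideanSpace ℝ (Fin n))) := by
  rw [← map_pi_eq_stdGaussian]
  exact (P262.Gauss.midLC_gpi n).map (WithLp.linearEquiv 2 ℝ (Fin n → ℝ)).symm.toLinearMap
    (by fun_prop)

/-- The part of a vector orthogonal to `e`. -/
noncomputable def perp (e x : EuclideanSpace ℝ (Fin n)) : EuclideanSpace ℝ (Fin n) :=
  x - ⟪e, x⟫ • e

/-- A Gaussian vector is its component along `e` plus an independent orthogonal part. -/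
lemma map_split {e : EuclideanSpace ℝ (Fin n)} (he : ‖e‖ = 1) :
    ((gaussianReal 0 1).prod (stdGaussian (EuclideanSpace ℝ (Fin n)))).map
      (fun p => p.1 • e + perp e p.2) = stdGaussian (EuclideanSpace ℝ (Fin n)) := by
  have := Measure.isProbabilityMeasure_map
    (μ := (gaussianReal 0 1).prod (stdGaussian (EuclideanSpace ℝ (Fin n))))
    (f := fun p => p.1 • e + perp e p.2) (by unfold perp; fun_prop)
  refine Measure.ext_of_charFun (funext fun ξ => ?_)
  rw [charFun_apply, integral_map (by unfold perp; fun_prop) (by fun_prop), charFun_stdGaussian]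
  have key : ∀ p : ℝ × EuclideanSpace ℝ (Fin n),
      Complex.exp ((⟪p.1 • e + perp e p.2, ξ⟫ : ℝ) * Complex.I)
        = Complex.exp ((⟪e, ξ⟫ : ℝ) * (p.1 : ℝ) * Complex.I)
          * Complex.exp ((⟪p.2, perp e ξ⟫ : ℝ) * Complex.I) := by
    intro p
    rw [← Complex.exp_add, ← add_mul, ← Complex.ofReal_mul, ← Complex.ofReal_add]
    simp only [perp, inner_add_left, inner_sub_left, inner_sub_right, real_inner_smul_left,
      real_inner_smul_right, real_inner_comm e p.2]
    ring_nf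
  simp only [key]
  rw [integral_prod_mul (fun t : ℝ => Complex.exp ((⟪e, ξ⟫ : ℝ) * (t : ℝ) * Complex.I))
    (fun y => Complex.exp ((⟪y, perp e ξ⟫ : ℝ) * Complex.I)), ← charFun_apply, charFun_stdGaussian,
    ← charFun_apply_real, charFun_gaussianReal, ← Complex.exp_add]
  congr 1
  have hn : ‖perp e ξ‖ ^ 2 = ‖ξ‖ ^ 2 - ⟪e, ξ⟫ ^ 2 := by
    rw [perp, norm_sub_sq_real, norm_smul, he, mul_one, Real.norm_eq_abs, sq_abs,
      real_inner_smul_right, real_inner_comm e ξ]
    ring
  simp only [Complex.ofReal_zero, mul_zero, zero_mul, NNReal.coe_one, Complex.ofReal_one, one_mul,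
    ← Complex.ofReal_pow, hn]
  push_cast
  ring

section split

variable {h : EuclideanSpace ℝ (Fin n) → ℝ} {v : EuclideanSpace ℝ (Fin n)}

lemma ne_zero_of_shift (hs : ∀ x (c : ℝ), h (x + c • v) = h x + c) : v ≠ 0 := fun e => by
  have := hs 0 1
  simp [e] at this

lemma h_split (hs : ∀ x (c : ℝ), h (x + c • v) = h x + c) (t : ℝ)
    (y : EuclideanSpace ℝ (Fin n)) :
    h (t • (‖v‖⁻¹ • v) + y) = h y + t * ‖v‖⁻¹ := by
  rw [smul_smul, add_comm, hs]

lemma norm_unit (hs : ∀ x (c : ℝ), h (x + c • v) = h x + c) : ‖‖v‖⁻¹ • v‖ = 1 := by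
  rw [norm_smul, norm_inv, norm_norm, inv_mul_cancel₀ (norm_ne_zero_iff.2 (ne_zero_of_shift hs))]

/-- Integrals against the Gaussian measure, computed along `v` first. -/
lemma integral_split (hs : ∀ x (c : ℝ), h (x + c • v) = h x + c)
    {g : EuclideanSpace ℝ (Fin n) → ℝ}
    (hg : Integrable g (stdGaussian (EuclideanSpace ℝ (Fin n)))) :
    ∫ x, g x ∂stdGaussian (EuclideanSpace ℝ (Fin n))
      = ∫ y, ∫ t, g (t • (‖v‖⁻¹ • v) + perp (‖v‖⁻¹ • v) y) ∂gaussianReal 0 1
          ∂stdGaussian (EuclideanSpace ℝ (Fin n)) ∧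
    Integrable (fun y => ∫ t, g (t • (‖v‖⁻¹ • v) + perp (‖v‖⁻¹ • v) y) ∂gaussianReal 0 1)
      (stdGaussian (EuclideanSpace ℝ (Fin n))) := by
  set e := ‖v‖⁻¹ • v
  have hm : AEMeasurable (fun p : ℝ × EuclideanSpace ℝ (Fin n) => p.1 • e + perp e p.2)
      ((gaussianReal 0 1).prod (stdGaussian (EuclideanSpace ℝ (Fin n)))) := by
    unfold perp; fun_prop
  have hmap := map_split (norm_unit hs)
  have hg' : Integrable (fun p : ℝ × EuclideanSpace ℝ (Fin n) => g (p.1 • e + perp e p.2))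
      ((gaussianReal 0 1).prod (stdGaussian (EuclideanSpace ℝ (Fin n)))) := by
    rw [← hmap] at hg
    exact hg.comp_aemeasurable hm
  refine ⟨?_, hg'.integral_prod_right⟩
  rw [← integral_prod_symm _ hg']
  conv_lhs => rw [← hmap]
  exact integral_map hm (by rw [hmap]; exact hg.aestronglyMeasurable)

/-- The threshold along `v` above which `h` exceeds `s`. -/
noncomputable def thr (h : EuclideanSpace ℝ (Fin n) → ℝ) (v y : EuclideanSpace ℝ (Fin n)) (s : ℝ) :
    ℝ := ‖v‖ * (s - h (perp (‖v‖⁻¹ • v) y))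

lemma lt_h_iff (hs : ∀ x (c : ℝ), h (x + c • v) = h x + c) (t s : ℝ)
    (y : EuclideanSpace ℝ (Fin n)) :
    s < h (t • (‖v‖⁻¹ • v) + perp (‖v‖⁻¹ • v) y) ↔ thr h v y s < t := by
  have hv := norm_pos_iff.2 (ne_zero_of_shift hs)
  rw [h_split hs, thr, ← sub_lt_iff_lt_add', ← div_eq_mul_inv, lt_div_iff₀ hv, mul_comm]

lemma tail_eq (hc : Continuous h) (hs : ∀ x (c : ℝ), h (x + c • v) = h x + c) (s : ℝ) :
    (stdGaussian (EuclideanSpace ℝ (Fin n))).real {x | s < h x}
      = ∫ y, (gaussianReal 0 1).real (Ioi (thr h v y s))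
          ∂stdGaussian (EuclideanSpace ℝ (Fin n)) ∧
    Integrable (fun y => (gaussianReal 0 1).real (Ioi (thr h v y s)))
      (stdGaussian (EuclideanSpace ℝ (Fin n))) := by
  have hm : MeasurableSet {x | s < h x} := (isOpen_lt continuous_const hc).measurableSet
  have hg : Integrable ({x | s < h x}.indicator (1 : EuclideanSpace ℝ (Fin n) → ℝ))
      (stdGaussian (EuclideanSpace ℝ (Fin n))) := (integrable_const (1 : ℝ)).indicator hm
  have hinner : ∀ y, ∫ t, {x | s < h x}.indicator (1 : EuclideanSpace ℝ (Fin n) → ℝ)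
      (t • (‖v‖⁻¹ • v) + perp (‖v‖⁻¹ • v) y) ∂gaussianReal 0 1
      = (gaussianReal 0 1).real (Ioi (thr h v y s)) := by
    intro y
    rw [← integral_indicator_one measurableSet_Ioi]
    congr 1; funext t
    by_cases ht : thr h v y s < t
    · simp [(lt_h_iff hs t s y).2 ht, ht]
    · simp [mt (lt_h_iff hs t s y).1 ht, ht]
  obtain ⟨a, b⟩ := integral_split hs hg
  simp only [hinner, integral_indicator_one hm] at a b
  exact ⟨a, b⟩

lemma moment_pos_eq (hc : Continuous h) (hs : ∀ x (c : ℝ), h (x + c • v) = h x + c) :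
    ⟪v, moment {x | 0 < h x}⟫
      = ∫ y, ‖v‖ * ((√(2 * π))⁻¹ * exp (-(1 / 2) * thr h v y 0 ^ 2))
          ∂stdGaussian (EuclideanSpace ℝ (Fin n)) ∧
    Integrable (fun y => ‖v‖ * ((√(2 * π))⁻¹ * exp (-(1 / 2) * thr h v y 0 ^ 2)))
      (stdGaussian (EuclideanSpace ℝ (Fin n))) := by
  have hm : MeasurableSet {x | 0 < h x} := (isOpen_lt continuous_const hc).measurableSet
  have hv := norm_pos_iff.2 (ne_zero_of_shift hs)
  have hg : Integrable ({x | 0 < h x}.indicator fun x => ⟪v, x⟫)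
      (stdGaussian (EuclideanSpace ℝ (Fin n))) := (integrable_inner' v).indicator hm
  have hinner : ∀ y, ∫ t, {x | 0 < h x}.indicator (fun x => ⟪v, x⟫)
      (t • (‖v‖⁻¹ • v) + perp (‖v‖⁻¹ • v) y) ∂gaussianReal 0 1
      = ‖v‖ * ((√(2 * π))⁻¹ * exp (-(1 / 2) * thr h v y 0 ^ 2)) := by
    intro y
    rw [← gauss_Ioi_moment, ← integral_indicator measurableSet_Ioi, ← integral_const_mul]
    congr 1; funext t
    have e : ⟪v, t • (‖v‖⁻¹ • v) + perp (‖v‖⁻¹ • v) y⟫ = ‖v‖ * t := by
      simp only [perp, inner_add_right, inner_sub_right, real_inner_smul_right, real_inner_smul_left,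
        real_inner_self_eq_norm_sq]
      field_simp
      ring
    by_cases ht : thr h v y 0 < t
    · simp [(lt_h_iff hs t 0 y).2 ht, ht, e]
    · simp [mt (lt_h_iff hs t 0 y).1 ht, ht]
  obtain ⟨a, b⟩ := integral_split hs hg
  simp only [hinner] at a b
  rw [integral_indicator hm, ← inner_moment] at a
  exact ⟨a, b⟩

lemma level_null (hc : Continuous h) (hs : ∀ x (c : ℝ), h (x + c • v) = h x + c) :
    (stdGaussian (EuclideanSpace ℝ (Fin n))).real {x | h x = 0} = 0 := by
  have hm : MeasurableSet {x | h x = 0} := (isClosed_eq hc continuous_const).measurableSet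
  have hg : Integrable ({x | h x = 0}.indicator (1 : EuclideanSpace ℝ (Fin n) → ℝ))
      (stdGaussian (EuclideanSpace ℝ (Fin n))) := (integrable_const (1 : ℝ)).indicator hm
  have hv := norm_pos_iff.2 (ne_zero_of_shift hs)
  have hinner : ∀ y, ∫ t, {x | h x = 0}.indicator (1 : EuclideanSpace ℝ (Fin n) → ℝ)
      (t • (‖v‖⁻¹ • v) + perp (‖v‖⁻¹ • v) y) ∂gaussianReal 0 1 = 0 := by
    intro y
    refine integral_eq_zero_of_ae ?_
    have := nullSingletonClass_gaussianReal (μ := 0) (v := 1) one_ne_zero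
    have hne : ∀ᵐ t ∂gaussianReal 0 1, t ≠ thr h v y 0 :=
      compl_mem_ae_iff.2 (measure_singleton _)
    filter_upwards [hne] with t ht
    have : h (t • (‖v‖⁻¹ • v) + perp (‖v‖⁻¹ • v) y) ≠ 0 := by
      rw [h_split hs]
      intro e
      apply ht
      rw [thr]; field_simp at e ⊢
      linarith
    simp [this]
  obtain ⟨a, -⟩ := integral_split hs hg
  simp only [hinner, integral_zero, integral_indicator_one hm] at a
  exact a

/-- The tail of a midpoint concave function that grows at unit rate along `v`. -/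
theorem tail_le (hc : Continuous h)
    (hconc : ∀ x y, (h x + h y) / 2 ≤ h ((2 : ℝ)⁻¹ • (x + y)))
    (hs : ∀ x (c : ℝ), h (x + c • v) = h x + c) (hq : 0 < ⟪v, moment {x | 0 < h x}⟫) :
    0 < (stdGaussian (EuclideanSpace ℝ (Fin n))).real {x | 0 < h x} ∧
    ∀ s, 0 ≤ s → (stdGaussian (EuclideanSpace ℝ (Fin n))).real {x | s < h x}
      ≤ (stdGaussian (EuclideanSpace ℝ (Fin n))).real {x | 0 < h x}
        * exp (-(⟪v, moment {x | 0 < h x}⟫
          / (stdGaussian (EuclideanSpace ℝ (Fin n))).real {x | 0 < h x}) * s) := by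
  set γ := stdGaussian (EuclideanSpace ℝ (Fin n))
  set q := ⟪v, moment {x | 0 < h x}⟫
  set F : ℝ → ℝ := fun s => γ.real {x | s < h x}
  set p := F 0 with hp_def
  have hnv := norm_nonneg v
  have hdrop : ∀ δ, 0 ≤ δ → F δ ≤ p - δ * q + (‖v‖ * δ) ^ 2 * (1 + ‖v‖ * δ / 2) := by
    intro δ hδ
    obtain ⟨a0, i0⟩ := tail_eq hc hs 0
    obtain ⟨a1, i1⟩ := tail_eq hc hs δ
    obtain ⟨a2, i2⟩ := moment_pos_eq hc hs
    have i3 := i0.sub (i2.const_mul δ)
    have hle : F δ ≤ ∫ y, ((gaussianReal 0 1).real (Ioi (thr h v y 0))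
        - δ * (‖v‖ * ((√(2 * π))⁻¹ * exp (-(1 / 2) * thr h v y 0 ^ 2)))
        + (‖v‖ * δ) ^ 2 * (1 + ‖v‖ * δ / 2)) ∂γ := by
      refine a1.le.trans (integral_mono i1 (i3.add (integrable_const _)) fun y => ?_)
      have := gauss_Ioi_drop (thr h v y 0) (δ := ‖v‖ * δ) (by positivity)
      rw [show thr h v y 0 + ‖v‖ * δ = thr h v y δ by simp only [thr]; ring] at this
      linarith
    rw [integral_add (f := fun y => (gaussianReal 0 1).real (Ioi (thr h v y 0))
        - δ * (‖v‖ * ((√(2 * π))⁻¹ * exp (-(1 / 2) * thr h v y 0 ^ 2)))) i3 (integrable_const _),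
      integral_sub i0 (i2.const_mul δ), integral_const_mul, ← a0, ← a2, integral_const] at hle
    simpa using hle
  have hp : 0 < p := by
    set δ := min 1 (q / (2 * (‖v‖ ^ 2 * (1 + ‖v‖ / 2) + 1))) with hδ
    have hδ0 : 0 < δ := lt_min one_pos (by positivity)
    have h1 := hdrop δ hδ0.le
    have h2 : 0 ≤ F δ := measureReal_nonneg
    have h3 : δ * (2 * (‖v‖ ^ 2 * (1 + ‖v‖ / 2) + 1)) ≤ q :=
      (le_div_iff₀ (by positivity)).1 (min_le_right _ _)
    nlinarith [mul_le_mul_of_nonneg_left h3 hδ0.le, min_le_left 1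
      (q / (2 * (‖v‖ ^ 2 * (1 + ‖v‖ / 2) + 1))), mul_pos hδ0 hδ0, mul_pos hδ0 hq,
      mul_nonneg (mul_nonneg (pow_nonneg hnv 3) (sq_nonneg δ)) (sub_nonneg.2 (min_le_left 1
      (q / (2 * (‖v‖ ^ 2 * (1 + ‖v‖ / 2) + 1)))))]
  refine ⟨hp, fun s hs0 => ?_⟩
  have hmid : ∀ a, p * F a ≤ F (a / 2) ^ 2 := by
    intro a
    have hm : ∀ t, MeasurableSet {x | t < h x} := fun t =>
      (isOpen_lt continuous_const hc).measurableSet
    have := (midLC_stdGaussian (n := n)).sets (hm 0) (hm a) (hm (a / 2))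
      fun x (hx : 0 < h x) y (hy : a < h y) => by
        show a / 2 < h _
        linarith [hconc x y]
    have := ENNReal.toReal_mono (by finiteness) this
    rwa [ENNReal.toReal_mul, ENNReal.toReal_pow] at this
  have hpow : ∀ m : ℕ, F s / p ≤ (F (s / 2 ^ m) / p) ^ (2 ^ m) := by
    intro m
    induction m with
    | zero => simp
    | succ m ih =>
      refine ih.trans ?_
      rw [show 2 ^ (m + 1) = 2 * 2 ^ m from pow_succ' 2 m, pow_mul]
      refine pow_le_pow_left₀ (div_nonneg measureReal_nonneg hp.le) ?_ _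
      have := hmid (s / 2 ^ m)
      rw [div_div, ← pow_succ] at this
      rw [div_pow, div_le_div_iff₀ hp (by positivity)]
      nlinarith
  have hbound : ∀ m : ℕ, F s / p
      ≤ exp (-(q / p) * s + s ^ 2 * ‖v‖ ^ 2 * (1 + ‖v‖ * s / 2) / p / 2 ^ m) := by
    intro m
    set δ := s / 2 ^ m with hδ
    have hδ0 : 0 ≤ δ := by positivity
    have hδs : δ ≤ s := div_le_self hs0 (one_le_pow₀ (by norm_num))
    have h1 := hdrop δ hδ0
    have h2 : F δ / p ≤ exp (-(q / p) * δ + (‖v‖ * δ) ^ 2 * (1 + ‖v‖ * s / 2) / p) := by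
      refine le_trans ?_ (add_one_le_exp _)
      rw [div_le_iff₀ hp]
      have e : (-(q / p) * δ + (‖v‖ * δ) ^ 2 * (1 + ‖v‖ * s / 2) / p + 1) * p
          = -q * δ + (‖v‖ * δ) ^ 2 * (1 + ‖v‖ * s / 2) + p := by field_simp
      rw [e]
      nlinarith [mul_nonneg (sq_nonneg (‖v‖ * δ)) (mul_nonneg hnv (sub_nonneg.2 hδs))]
    refine (hpow m).trans ((pow_le_pow_left₀ (div_nonneg measureReal_nonneg hp.le) h2 _).trans
      (le_of_eq ?_))
    rw [← exp_nat_mul]
    congr 1
    push_cast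
    rw [hδ]
    field_simp
  have hlim : Tendsto (fun m : ℕ => exp (-(q / p) * s
      + s ^ 2 * ‖v‖ ^ 2 * (1 + ‖v‖ * s / 2) / p / 2 ^ m)) atTop (𝓝 (exp (-(q / p) * s))) := by
    refine (continuous_exp.tendsto _).comp ?_
    have := (tendsto_pow_atTop_nhds_zero_of_lt_one (by norm_num : (0 : ℝ) ≤ 2⁻¹)
      (by norm_num : (2 : ℝ)⁻¹ < 1)).const_mul (s ^ 2 * ‖v‖ ^ 2 * (1 + ‖v‖ * s / 2) / p)
    simp only [inv_pow, ← div_eq_mul_inv, mul_zero] at this
    simpa using tendsto_const_nhds.add this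
  have := ge_of_tendsto' hlim hbound
  rw [div_le_iff₀ hp] at this
  linarith

/-- The mean positive part is at most `p² / q`. -/
theorem excess_le (hc : Continuous h)
    (hconc : ∀ x y, (h x + h y) / 2 ≤ h ((2 : ℝ)⁻¹ • (x + y)))
    (hs : ∀ x (c : ℝ), h (x + c • v) = h x + c) (hq : 0 < ⟪v, moment {x | 0 < h x}⟫)
    (hint : Integrable (fun x => max (h x) 0) (stdGaussian (EuclideanSpace ℝ (Fin n)))) :
    ⟪v, moment {x | 0 < h x}⟫ * ∫ x, max (h x) 0 ∂stdGaussian (EuclideanSpace ℝ (Fin n))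
      ≤ (stdGaussian (EuclideanSpace ℝ (Fin n))).real {x | 0 < h x} ^ 2 := by
  set γ := stdGaussian (EuclideanSpace ℝ (Fin n))
  set q := ⟪v, moment {x | 0 < h x}⟫
  obtain ⟨hp, htail⟩ := tail_le hc hconc hs hq
  set p := γ.real {x | 0 < h x}
  rw [hint.integral_eq_integral_meas_lt (ae_of_all _ fun x => le_max_right _ _)]
  have e : ∀ t ∈ Ioi (0 : ℝ), γ.real {x | t < max (h x) 0} = γ.real {x | t < h x} := by
    intro t ht
    congr 1
    ext x
    simp [not_lt.2 (le_of_lt (mem_Ioi.1 ht))]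
  rw [setIntegral_congr_fun measurableSet_Ioi e]
  have hqp : -(q / p) < 0 := neg_neg_iff_pos.2 (div_pos hq hp)
  have hi : IntegrableOn (fun t => p * exp (-(q / p) * t)) (Ioi 0) :=
    (integrableOn_exp_mul_Ioi hqp 0).const_mul p
  have hanti : Antitone fun t => γ.real {x | t < h x} := fun a b hab =>
    measureReal_mono fun x hx => lt_of_le_of_lt hab hx
  have hF : IntegrableOn (fun t => γ.real {x | t < h x}) (Ioi 0) := by
    refine Integrable.mono' hi hanti.measurable.aestronglyMeasurable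
      ((ae_restrict_iff' measurableSet_Ioi).2 (ae_of_all _ fun t ht => ?_))
    rw [Real.norm_eq_abs, abs_of_nonneg measureReal_nonneg]
    exact htail t (le_of_lt ht)
  calc q * ∫ t in Ioi 0, γ.real {x | t < h x}
      ≤ q * ∫ t in Ioi 0, p * exp (-(q / p) * t) := mul_le_mul_of_nonneg_left
        (setIntegral_mono_on hF hi measurableSet_Ioi fun t ht => htail t (le_of_lt ht)) hq.le
    _ = p ^ 2 := by
      rw [integral_const_mul, integral_exp_mul_Ioi hqp 0]
      simp
      field_simp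

end split

variable {k : ℕ}

/-- Dropping a cell: `r (1 - 1/(k+2)) (gmax z - gmax others) ≤ p²`. -/
theorem shift_bound_diff {z : Fin (k + 2) → EuclideanSpace ℝ (Fin (k + 2))} {r : ℝ}
    (hz : Extremal z r) (hr : 0 < r) (hobt : ∀ a b, a ≠ b → ⟪z a, z b⟫ < 0) (i : Fin (k + 2)) :
    r * (1 - 1 / ((k : ℝ) + 2)) * (gmax z - gmax (fun l => z (i.succAbove l)))
      ≤ (stdGaussian (EuclideanSpace ℝ (Fin (k + 2)))).real (argCell z i) ^ 2 := by
  set γ := stdGaussian (EuclideanSpace ℝ (Fin (k + 2)))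
  set z' : Fin (k + 1) → EuclideanSpace ℝ (Fin (k + 2)) := fun l => z (i.succAbove l) with hz'
  have hw : ∑ a, ((if a = i then (1 : ℝ) else 0) - 1 / ((k : ℝ) + 2)) = 0 := by
    simp only [Finset.sum_sub_distrib, Finset.sum_ite_eq', Finset.mem_univ, if_true,
      Finset.sum_const, Finset.card_univ, Fintype.card_fin, nsmul_eq_mul]
    push_cast
    field_simp
    ring
  obtain ⟨v, hv⟩ := exists_inner_eq hobt (hz.sum_eq_zero' hr) hw
  set c0 := 1 / ((k : ℝ) + 2) with hc0
  set h : EuclideanSpace ℝ (Fin (k + 2)) → ℝ := fun x => ⟪z i, x⟫ - maxInner z' x with hh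
  have hcont : Continuous h := (continuous_const.inner continuous_id).sub (continuous_maxInner z')
  have hshift : ∀ x (c : ℝ), h (x + c • v) = h x + c := by
    intro x c
    have e : maxInner z' (x + c • v) = maxInner z' x - c * c0 := by
      have h' : ∀ l, ⟪z' l, x + c • v⟫ = ⟪z' l, x⟫ - c * c0 := fun l => by
        rw [inner_add_right, real_inner_smul_right, hz', hv, if_neg (Fin.succAbove_ne i l)]
        ring
      refine le_antisymm (maxInner_le fun l => ?_) ?_
      · rw [h']; linarith [le_maxInner z' x l]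
      · rw [sub_le_iff_le_add]
        exact maxInner_le fun l => by linarith [h' l, le_maxInner z' (x + c • v) l]
    simp only [hh, e, inner_add_right, real_inner_smul_right, hv, if_true]
    ring
  have hconc : ∀ x y, (h x + h y) / 2 ≤ h ((2 : ℝ)⁻¹ • (x + y)) := by
    intro x y
    have : maxInner z' ((2 : ℝ)⁻¹ • (x + y)) ≤ (maxInner z' x + maxInner z' y) / 2 :=
      maxInner_le fun l => by
        rw [real_inner_smul_right, inner_add_right]
        linarith [le_maxInner z' x l, le_maxInner z' y l]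
    simp only [hh, real_inner_smul_right, inner_add_right]
    linarith
  have hsplit : ∀ x, maxInner z x = maxInner z' x + max (h x) 0 := by
    intro x
    refine le_antisymm (maxInner_le fun a => ?_) ?_
    · rcases eq_or_ne a i with rfl | ha
      · simp only [hh]; linarith [le_max_left (⟪z a, x⟫ - maxInner z' x) 0]
      · obtain ⟨l, rfl⟩ := Fin.exists_succAbove_eq ha
        linarith [le_maxInner z' x l, le_max_right (h x) 0]
    · rcases max_cases (h x) 0 with ⟨e, -⟩ | ⟨e, -⟩ <;> rw [e]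
      · simp only [hh]; linarith [le_maxInner z x i]
      · rw [add_zero]; exact maxInner_le fun l => le_maxInner z x _
  have hint : Integrable (fun x => max (h x) 0) γ :=
    ((integrable_inner' (z i)).sub (integrable_maxInner z')).pos_part
  have hdiff : gmax z - gmax z' = ∫ x, max (h x) 0 ∂γ := by
    simp only [gmax, hsplit]
    rw [integral_add (integrable_maxInner z') hint, add_sub_cancel_left]
  have hsub : {x | 0 < h x} ⊆ argCell z i := by
    intro x (hx : 0 < h x)
    have hlt : ∀ a, a ≠ i → ⟪z a, x⟫ < ⟪z i, x⟫ := fun a ha => by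
      obtain ⟨l, rfl⟩ := Fin.exists_succAbove_eq ha
      simp only [hh] at hx
      linarith [le_maxInner z' x l]
    exact ⟨fun a => (eq_or_ne a i).elim (fun e => e ▸ le_rfl) fun ha => (hlt a ha).le,
      fun a ha => hlt a ha.ne⟩
  have hsup : argCell z i ⊆ {x | 0 < h x} ∪ {x | h x = 0} := by
    intro x hx
    have : 0 ≤ h x := sub_nonneg.2 (maxInner_le fun l => hx.1 _)
    exact this.eq_or_lt.elim (fun e => Or.inr e.symm) Or.inl
  have hnull : γ {x | h x = 0} = 0 := (measureReal_eq_zero_iff).1 (level_null hcont hshift)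
  have hae : argCell z i =ᵐ[γ] {x | 0 < h x} := by
    refine ae_eq_set.2 ⟨measure_mono_null (fun x hx => ?_) hnull, ?_⟩
    · exact (hsup hx.1).resolve_left hx.2
    · rw [Set.sdiff_eq_empty.2 hsub, measure_empty]
  have hmom : moment {x | 0 < h x} = r • z i := by
    rw [← hz.moment_eq hr i]
    exact setIntegral_congr_set hae.symm
  have hq : ⟪v, moment {x | 0 < h x}⟫ = r * (1 - c0) := by
    rw [hmom, real_inner_smul_right, real_inner_comm, hv, if_pos rfl]
  have hc1 : c0 < 1 := by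
    rw [hc0, div_lt_one (by positivity)]; linarith [(Nat.cast_nonneg k : (0 : ℝ) ≤ k)]
  have := excess_le hcont hconc hshift (by rw [hq]; exact mul_pos hr (sub_pos.2 hc1)) hint
  rw [hq, ← hdiff] at this
  rwa [measureReal_congr hae]

/-- The remaining vectors, recentred, obey the bound for one vector fewer. -/
theorem gmax_drop_le {z : Fin (k + 2) → EuclideanSpace ℝ (Fin (k + 2))} {r c : ℝ}
    (hz : Extremal z r) (hr : 0 < r)
    (hprev : ∀ (d : ℕ) (y : Fin (k + 1) → EuclideanSpace ℝ (Fin d)),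
      gmax y ≤ c * √(∑ l, ‖y l‖ ^ 2)) (i : Fin (k + 2)) :
    gmax (fun l => z (i.succAbove l))
      ≤ c * √(1 - ((k : ℝ) + 2) * ‖z i‖ ^ 2 / ((k : ℝ) + 1)) := by
  set a := ((k : ℝ) + 1)⁻¹ • z i with ha
  have h := hprev _ fun l => z (i.succAbove l) + a
  rw [gmax_add_const (fun l => z (i.succAbove l)) a] at h
  have e1 : ∑ l, ‖z (i.succAbove l)‖ ^ 2 = 1 - ‖z i‖ ^ 2 := by
    have := hz.norm_one
    rw [Fin.sum_univ_succAbove _ i] at this
    linarith
  have e2 : ∑ l, z (i.succAbove l) = -z i := by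
    have := hz.sum_eq_zero' hr
    rw [Fin.sum_univ_succAbove _ i] at this
    exact eq_neg_of_add_eq_zero_right this
  have e3 : ∑ l, ‖z (i.succAbove l) + a‖ ^ 2
      = 1 - ((k : ℝ) + 2) * ‖z i‖ ^ 2 / ((k : ℝ) + 1) := by
    simp only [norm_add_sq_real, Finset.sum_add_distrib, ← Finset.mul_sum, ← sum_inner, e1, e2,
      Finset.sum_const, Finset.card_univ, Fintype.card_fin, nsmul_eq_mul]
    rw [inner_neg_left, ha, real_inner_smul_right, real_inner_self_eq_norm_sq, norm_smul,
      Real.norm_eq_abs, mul_pow, sq_abs]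
    push_cast
    field_simp
    ring
  rwa [e3] at h

/-- A cell of large norm has large mass. -/
theorem shift_bound {z : Fin (k + 2) → EuclideanSpace ℝ (Fin (k + 2))} {r : ℝ} (h : Extremal z r)
    (hr : propC < r) (hobt : ∀ i j, i ≠ j → ⟪z i, z j⟫ < 0)
    (hprev : ∀ (d : ℕ) (y : Fin (k + 1) → EuclideanSpace ℝ (Fin d)),
      gmax y ≤ propC * √(∑ i, ‖y i‖ ^ 2)) (i : Fin (k + 2)) :
    propC ^ 2 * (‖z i‖ ^ 2 / 2) * (1 + ‖z i‖ ^ 2 / 4) ≤
      (stdGaussian _).real (argCell z i) ^ 2 := by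
  have hr0 : 0 < r := propC_pos.trans hr
  have h1 := shift_bound_diff h hr0 hobt i
  have h2 := gmax_drop_le h hr0 hprev i
  rw [h.eq] at h1
  set a := ‖z i‖ ^ 2 with ha
  set u := ((k : ℝ) + 2) * a / ((k : ℝ) + 1) with hu
  set w := 1 - 1 / ((k : ℝ) + 2) with hw
  have hw0 : 0 ≤ w := by
    rw [hw, sub_nonneg, div_le_one (by positivity)]
    linarith [(Nat.cast_nonneg k : (0 : ℝ) ≤ k)]
  have hwu : w * u = a := by
    rw [hw, hu]
    field_simp
    ring
  have ha0 : 0 ≤ a := sq_nonneg _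
  have hua : a ≤ u := by
    rw [hu, le_div_iff₀ (by positivity)]
    nlinarith
  have hu1 : u ≤ 1 := by
    have hsum := h.sum_eq_zero' hr0
    have hn := h.norm_one
    rw [Fin.sum_univ_succAbove _ i] at hsum hn
    have e : ‖z i‖ ≤ ∑ l, ‖z (i.succAbove l)‖ := by
      rw [eq_neg_of_add_eq_zero_left hsum, norm_neg]
      exact norm_sum_le _ _
    have e2 := (pow_le_pow_left₀ (norm_nonneg _) e 2).trans sq_sum_le_card_mul_sum_sq
    simp only [Finset.card_univ, Fintype.card_fin] at e2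
    push_cast at e2
    rw [hu, div_le_one (by positivity)]
    rw [← ha] at hn e2
    nlinarith
  have hS : √(1 - u) ≤ 1 - u / 2 - u ^ 2 / 8 := by
    have hu0 : 0 ≤ u := ha0.trans hua
    have hs := Real.sq_sqrt (sub_nonneg.2 hu1)
    have hb : 0 ≤ 1 - u / 2 - u ^ 2 / 8 := by nlinarith
    nlinarith [Real.sqrt_nonneg (1 - u), pow_nonneg hu0 3, pow_nonneg hu0 4]
  have hc := propC_pos
  have h3 : r * w * (propC * (u / 2 + u ^ 2 / 8)) ≤
      (stdGaussian _).real (argCell z i) ^ 2 := by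
    refine le_trans (mul_le_mul_of_nonneg_left ?_ (mul_nonneg hr0.le hw0)) h1
    nlinarith [mul_le_mul_of_nonneg_left hS hc.le]
  refine le_trans ?_ h3
  rw [show r * w * (propC * (u / 2 + u ^ 2 / 8)) = r * propC * ((w * u) * (1 / 2 + u / 8)) by ring,
    hwu, show propC ^ 2 * (a / 2) * (1 + a / 4) = propC * propC * (a * (1 / 2 + a / 8)) by ring]
  gcongr

end Vale.Agent.P226.Full
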