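import Vale.Agent.P226.Cert.Sound
import Vale.Agent.P226.Full.Base
import Vale.Agent.P226.Full.FourRegular
import Vale.Agent.P226.Full.Lines
import Vale.Agent.P226.Full.Seq
import Vale.Agent.P226.Full.Shift

/-!
# The propeller inequality in every dimension for every number of cells
-/

open MeasureTheory ProbabilityTheory Real Set Finset
open scoped RealInnerProductSpace Function

namespace Vale.Agent.P226.Full

variable {d k : ℕ}

lemma gmax_perm (z : Fin (k + 1) → EuclideanSpace ℝ (Fin d)) (σ : Equiv.Perm (Fin (k + 1))) :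
    gmax (fun i => z (σ i)) = gmax z := by
  refine integral_congr_ae (ae_of_all _ fun x => le_antisymm (maxInner_le fun i => ?_)
    (maxInner_le fun i => ?_))
  · exact le_maxInner z x (σ i)
  · simpa using le_maxInner (fun i => z (σ i)) x (σ.symm i)

lemma extremal_perm {z : Fin (k + 1) → EuclideanSpace ℝ (Fin (k + 1))} {r : ℝ}
    (h : Extremal z r) (σ : Equiv.Perm (Fin (k + 1))) : Extremal (fun i => z (σ i)) r where
  norm_one := (Equiv.sum_comp σ fun i => ‖z i‖ ^ 2).trans h.norm_one
  le := h.le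
  eq := (gmax_perm z σ).trans h.eq

lemma sum_measure_argCell (z : Fin (k + 1) → EuclideanSpace ℝ (Fin d)) :
    ∑ i, (stdGaussian _).real (argCell z i) = 1 := by
  rw [← measureReal_iUnion_fintype (pairwise_disjoint_argCell z) (measurableSet_argCell z),
    iUnion_argCell, probReal_univ]

/-- A sorted extremal family above the propeller cannot exist. -/
lemma no_counterexample {z : Fin (k + 1) → EuclideanSpace ℝ (Fin (k + 1))} {r : ℝ}
    (h : Extremal z r) (hr : propC < r) (hk : 3 ≤ k)
    (hobt : ∀ i j, i ≠ j → ⟪z i, z j⟫ < 0)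
    (hprev : ∀ j < k, ∀ (e : ℕ) (y : Fin (j + 1) → EuclideanSpace ℝ (Fin e)),
      gmax y ≤ propC * √(∑ i, ‖y i‖ ^ 2))
    (hanti : ∀ i j, i ≤ j → ‖z j‖ ≤ ‖z i‖) : False := by
  have hr0 : 0 < r := propC_pos.trans hr
  have hc : Counter z := ⟨h.norm_one, h.sum_eq_zero' hr0, hobt, h.eq.symm ▸ hr, hprev⟩
  have hshift : ∀ i, propC ^ 2 * (‖z i‖ ^ 2 / 2) * (1 + ‖z i‖ ^ 2 / 4) ≤
      (stdGaussian _).real (argCell z i) ^ 2 := by
    obtain ⟨j, rfl⟩ : ∃ j, k = j + 1 := ⟨k - 1, by omega⟩
    exact fun i => shift_bound h hr hobt (hprev j (Nat.lt_succ_self j)) i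
  have hle : ∀ i, ‖z i‖ ≤ 2 / 3 := fun i => by
    have h0 := iso_bound h hr0 i (le_refl (0 : ℝ))
    have h1 : propC * ‖z i‖ ≤ r * ‖z i‖ := mul_le_mul_of_nonneg_right hr.le (norm_nonneg _)
    have h2 := tailMean_zero_le
    rw [propC] at h1
    nlinarith [phi0_pos]
  have hcs : ∀ i, (Cert.cs : ℝ) * ‖z i‖ ≤ (stdGaussian _).real (argCell z i) := fun i => by
    have := shift_line (u := 4231 / 10000) (v := 0) measureReal_nonneg (norm_nonneg _) (hle i)
      (hshift i) (Or.inl ⟨rfl, rfl⟩)
    rw [Cert.cs]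
    push_cast
    linarith
  have hp := sum_measure_argCell z
  set R : ℕ → ℝ := ext0 fun i => ‖z i‖ with hR
  have hsum : R 0 ^ 2 + R 1 ^ 2 + R 2 ^ 2 + R 3 ^ 2 + R 4 ^ 2 ≤ 1 := by
    have e : ∀ m, R m ^ 2 = ext0 (fun i => ‖z i‖ ^ 2) m := fun m => by
      simp only [hR, ext0]; split <;> simp
    rw [← h.norm_one, tailSum_four fun i => ‖z i‖ ^ 2, tailSum_succ _ 4]
    simp only [e]
    have : 0 ≤ tailSum (fun i => ‖z i‖ ^ 2) (4 + 1) := Finset.sum_nonneg fun i _ => sq_nonneg _
    linarith
  have hRa : ∀ i j, i ≤ j → R j ^ 2 ≤ R i ^ 2 := fun i j hij => by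
    refine pow_le_pow_left₀ (ext0_nonneg (fun i => norm_nonneg _) j) ?_ 2
    simp only [hR, ext0]
    split
    · rw [dif_pos (by omega)]; exact hanti _ _ (Fin.mk_le_mk.2 hij)
    · split <;> simp
  have b10 := hRa 0 1 (by norm_num)
  have b21 := hRa 1 2 (by norm_num)
  have b32 := hRa 2 3 (by norm_num)
  have b43 := hRa 3 4 (by norm_num)
  have hR2 : R 2 ^ 2 ≤ 333334 / 1000000 := by linarith [sq_nonneg (R 3), sq_nonneg (R 4)]
  have hR3 : R 3 ^ 2 ≤ 250000 / 1000000 := by linarith [sq_nonneg (R 4)]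
  have hR4 : R 4 ≤ 450000 / 1000000 := le_of_sq_le_sq (by linarith) (by norm_num)
  have run : ∀ (segs : List Cert.Seg) (M : ℕ) (H U : ℚ) (t : Cert.Tree), 3 ≤ M → M ≤ k →
      (M ≤ 3 → k = 3) → Cert.covers segs 0 = true → (∀ s ∈ segs, (s.v : ℝ) ≤ 0) →
      (∀ i, ∀ s ∈ segs, (s.u : ℝ) * ‖z i‖ + (s.v : ℝ) ≤ (stdGaussian _).real (argCell z i)) →
      R 3 ^ 2 ≤ (H : ℝ) → R 4 ≤ (U : ℝ) →
      Cert.check segs M t ⟨0, 333334 / 1000000, 0, H, 0, U⟩ = true → False := by
    intro segs M H U t h3 hMk hsm hcov hv hseg hH hU hchk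
    exact Cert.check_sound (facts_of_counter hc hanti hk hp hle hv hseg hcs hMk hsm) hcov h3 t _
      hchk
      { L2 := by simpa using sq_nonneg (R 2)
        H2 := by push_cast; exact hR2
        L3 := by simpa using sq_nonneg (R 3)
        H3 := hH
        l := by simpa using ext0_nonneg (fun i => norm_nonneg (z i)) 4
        U := hU
        l_nonneg := le_rfl
        L2_nonneg := le_rfl
        L3_nonneg := le_rfl }
  have hH : R 3 ^ 2 ≤ ((250000 / 1000000 : ℚ) : ℝ) := by push_cast; exact hR3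
  have hU : R 4 ≤ ((450000 / 1000000 : ℚ) : ℝ) := by push_cast; exact hR4
  obtain rfl | hk4 := hk.eq_or_lt
  · rcases le_or_gt (R 3 ^ 2) (101000 / 1000000) with hs | hs
    · exact run _ 3 _ _ _ le_rfl le_rfl (fun _ => rfl) Cert.coversFour segsFour_v
        (fun i => segsFour_le h hr le_rfl hshift i (hle i)) (by push_cast; exact hs)
        (by simp [hR, ext0]) Cert.checkFour
    · refine four_regular h hr (fun i => ?_) hle hp
      have := pow_le_pow_left₀ (norm_nonneg _)
        (hanti i ⟨3, by norm_num⟩ (Fin.le_def.2 (by show (i : ℕ) ≤ 3; omega))) 2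
      simp only [hR, ext0, dif_pos (show 3 < 3 + 1 by norm_num)] at hs
      linarith
  obtain rfl | hk5 := (show 4 ≤ k by omega).eq_or_lt
  · exact run _ 4 _ _ _ (by norm_num) le_rfl (by omega) Cert.coversFive segsFive_v
      (fun i => segsFive_le h hr le_rfl hshift i (hle i)) hH (by push_cast; linarith) Cert.checkFive
  obtain rfl | hk6 := (show 5 ≤ k by omega).eq_or_lt
  · exact run _ 5 _ _ _ (by norm_num) le_rfl (by omega) Cert.coversSix segsSix_v
      (fun i => segsSix_le h hr le_rfl hshift i (hle i)) hH (by push_cast; linarith) Cert.checkSix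
  rcases le_or_gt k 7 with hk7 | hk8
  · exact run _ 6 _ _ _ (by norm_num) (by omega) (by omega) Cert.coversEight segsEight_v
      (fun i => segsEight_le h hr hk7 hshift i (hle i)) hH (by push_cast; linarith) Cert.checkEight
  rcases le_or_gt k 9 with hk9 | hk10
  · exact run _ 8 _ _ _ (by norm_num) (by omega) (by omega) Cert.coversTen segsTen_v
      (fun i => segsTen_le h hr hk9 hshift i (hle i)) hH (by push_cast; linarith) Cert.checkTen
  · exact run _ 10 _ _ _ (by norm_num) (by omega) (by omega) Cert.coversMany segsMany_v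
      (fun i => segsMany_le h hr hshift i (hle i)) hH (by push_cast; linarith) Cert.checkMany

/-- `E max ⟪y i, X⟫ ≤ 3/(2√(2π)) · √(Σ ‖y i‖²)` for every finite family in every dimension. -/
theorem gmax_le_propC : ∀ (k d : ℕ) (y : Fin (k + 1) → EuclideanSpace ℝ (Fin d)),
    gmax y ≤ propC * √(∑ i, ‖y i‖ ^ 2) := by
  intro k
  induction k using Nat.strong_induction_on with
  | _ k ih =>
    intro d y
    rcases le_or_gt k 2 with hk | hk
    · exact gmax_le_of_three hk y
    obtain ⟨z, r, h⟩ := exists_extremal k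
    refine (h.le d y).trans (mul_le_mul_of_nonneg_right ?_ (Real.sqrt_nonneg _))
    by_contra hr
    rw [not_le] at hr
    have hobt : ∀ i j, i ≠ j → ⟪z i, z j⟫ < 0 := by
      obtain ⟨j, rfl⟩ : ∃ j, k = j + 1 := ⟨k - 1, by omega⟩
      exact fun i l hil => h.inner_neg propC_pos.le hr (ih j (Nat.lt_succ_self j)) hil
    set σ := Tuple.sort (fun i => -‖z i‖)
    have hmono := Tuple.monotone_sort (fun i => -‖z i‖)
    refine no_counterexample (extremal_perm h σ) hr hk (fun i j hij => hobt _ _ fun e =>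
      hij (σ.injective e)) (fun j hj e y => ih j hj e y) fun i j hij => ?_
    simpa using hmono hij

/-- The propeller inequality. -/
theorem score_le_propeller {d k : ℕ} {A : Fin k → Set (EuclideanSpace ℝ (Fin d))}
    (hm : ∀ i, NullMeasurableSet (A i) (stdGaussian (EuclideanSpace ℝ (Fin d))))
    (hd : Pairwise (AEDisjoint (stdGaussian (EuclideanSpace ℝ (Fin d))) on A)) :
    score A ≤ 9 / (8 * π) := by
  set y : Fin (k + 1) → EuclideanSpace ℝ (Fin d) := Fin.cons 0 fun i => moment (A i) with hy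
  have hy0 : ∀ x, 0 ≤ maxInner y x := fun x =>
    le_of_eq_of_le (by simp [hy]) (le_maxInner y x 0)
  have hsum : ∑ i, ‖y i‖ ^ 2 = score A := by simp [Fin.sum_univ_succ, hy, score]
  have key : score A ≤ gmax y := by
    calc score A = ∑ i, ⟪moment (A i), moment (A i)⟫ := by
          simp [score]
      _ ≤ ∑ i, ∫ x in A i, maxInner y x ∂stdGaussian (EuclideanSpace ℝ (Fin d)) := by
          refine Finset.sum_le_sum fun i _ => ?_
          rw [inner_moment]
          refine setIntegral_mono (integrable_inner' _).integrableOn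
            (integrable_maxInner y).integrableOn fun x => ?_
          simpa [hy] using le_maxInner y x i.succ
      _ = ∫ x in ⋃ i, A i, maxInner y x ∂stdGaussian (EuclideanSpace ℝ (Fin d)) := by
          rw [integral_iUnion_ae hm hd (integrable_maxInner y).integrableOn, tsum_fintype]
      _ ≤ gmax y := setIntegral_le_integral (integrable_maxInner y) (ae_of_all _ hy0)
  have hb := gmax_le_propC k d y
  rw [hsum] at hb
  have hs0 : 0 ≤ score A := Finset.sum_nonneg fun _ _ => sq_nonneg _
  rcases hs0.eq_or_lt with h | h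
  · rw [← h]; positivity
  have h2 : √(score A) ≤ propC := le_of_mul_le_mul_right
    (by rw [Real.mul_self_sqrt hs0]; exact key.trans hb) (Real.sqrt_pos.2 h)
  rw [← propC_sq, ← Real.sq_sqrt hs0]
  exact pow_le_pow_left₀ (Real.sqrt_nonneg _) h2 2

end Vale.Agent.P226.Full
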